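import Vale.Agent.P363.Inter.Bar.DecayMarg

/-!
P363, interacting side: the first bounds of the three slice norms, uniformly in the coupling.
-/

noncomputable section

namespace Vale.Agent.P363.Inter

open MeasureTheory Metric Filter
open scoped BigOperators Topology

variable {l Q : ℝ}

/-- The attraction outside a large ball. -/
lemma far_facts (hQ1 : 1 ≤ Q) (hQl : 2 * |l| ≤ Q) {x : Space} (hx : x ∈ Ext Q) :
    1 ≤ ‖x‖ ∧ |attract l x - 2 / ‖x‖| ≤ 4 * |l| / ‖x‖ ^ 2 ∧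
      |attract l x| ≤ (2 + 4 * |l|) / ‖x‖ ∧ (2 + 4 * |l|) / ‖x‖ ≤ 2 + 4 * |l| ∧
      (2 + 4 * |l|) / ‖x‖ ≤ (2 + 4 * |l|) / Q := by
  have hQx : Q < ‖x‖ := hx
  have hr : 1 ≤ ‖x‖ := by linarith
  have h1 := attract_far' l (x := x) (by linarith) (norm_pos_iff.1 (by linarith))
  have h2 : 4 * |l| / ‖x‖ ^ 2 ≤ 4 * |l| / ‖x‖ :=
    div_le_div_of_nonneg_left (by positivity) (by linarith) (by nlinarith)
  refine ⟨hr, h1, ?_, div_le_self (by positivity) hr,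
    div_le_div_of_nonneg_left (by positivity) (by linarith) hQx.le⟩
  have h3 := abs_le.1 h1
  have h4 : 0 ≤ 2 / ‖x‖ := by positivity
  rw [add_div, abs_le]
  constructor <;> linarith [h3.1, h3.2]

lemma continuousOn_farPot (hQ1 : 1 ≤ Q) (hQl : 2 * |l| ≤ Q) (c c' c'' : ℝ) :
    ContinuousOn (fun x => c - attract l x + c' / ‖x‖ - c'' / ‖x‖ ^ 2) (Ext Q) := by
  refine ((continuousOn_const.sub
      (continuousOn_attract l (by linarith [abs_nonneg l]))).add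
    (continuousOn_const.div continuous_norm.continuousOn fun x hx => ?_)).sub
    (continuousOn_const.div (continuous_norm.pow 2).continuousOn fun x hx => ?_)
  · linarith [show Q < ‖x‖ from hx]
  · exact pow_ne_zero 2 (by linarith [show Q < ‖x‖ from hx])

lemma farPot_bounds (hQ1 : 1 ≤ Q) (hQl : 2 * |l| ≤ Q) {A K₂ lam c : ℝ} (hl0 : 0 ≤ lam)
    (hlam1 : lam ≤ 1) (hc : |c| ≤ A ^ 2) {x : Space} (hx : x ∈ Ext Q) :
    |c - attract l x + 2 * lam / ‖x‖ - K₂ * lam / ‖x‖ ^ 2| ≤ A ^ 2 + 4 + 4 * |l| + |K₂| ∧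
      c - (2 - 2 * lam) / ‖x‖ - (4 * |l| + |K₂|) / ‖x‖ ^ 2 ≤
        c - attract l x + 2 * lam / ‖x‖ - K₂ * lam / ‖x‖ ^ 2 := by
  obtain ⟨hr, h1, h2, h3, -⟩ := far_facts hQ1 hQl hx
  have hq : |K₂ * lam / ‖x‖ ^ 2| ≤ |K₂| / ‖x‖ ^ 2 := by
    rw [abs_div, abs_mul, abs_of_nonneg hl0, abs_of_nonneg (sq_nonneg ‖x‖)]
    exact div_le_div_of_nonneg_right (mul_le_of_le_one_right (abs_nonneg _) hlam1) (sq_nonneg _)
  have hq1 : |K₂| / ‖x‖ ^ 2 ≤ |K₂| := div_le_self (abs_nonneg _) (one_le_pow₀ hr)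
  have hw : 0 ≤ 2 * lam / ‖x‖ ∧ 2 * lam / ‖x‖ ≤ 2 :=
    ⟨by positivity, (div_le_self (by positivity) hr).trans (by linarith)⟩
  refine ⟨?_, ?_⟩
  · obtain ⟨e1, e2⟩ := abs_le.1 (hq.trans hq1)
    obtain ⟨e3, e4⟩ := abs_le.1 (h2.trans h3)
    obtain ⟨e5, e6⟩ := abs_le.1 hc
    rw [abs_le]
    constructor <;> linarith
  · rw [sub_div, add_div]
    linarith [(abs_le.1 h1).2, (abs_le.1 hq).2]

/-- The marginal bound for a slice norm. -/
theorem slice_bound (hQ1 : 1 ≤ Q) (hQl : 2 * |l| ≤ Q) (N A K₂ : ℝ) {a₀ : ℝ} (ha₀ : 0 < a₀) :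
    ∃ R K : ℝ, 4 ≤ R ∧ 0 ≤ K ∧ ∀ lam a E E3 : ℝ, 0 ≤ lam → lam ≤ 1 → a₀ ≤ a → a ≤ A →
      |(2 - 2 * lam) / a - 1| ≤ N → a ^ 2 / 2 = E - E3 →
      ∀ u : Space → ℝ, WeakSubPoisson {x : Space | 1 < ‖x‖} u (fun x =>
          2 * ((E - E3 - attract l x + 2 * lam / ‖x‖ - K₂ * lam / ‖x‖ ^ 2) * u x)) →
        (∀ x, 0 ≤ u x) → MemLp u 2 → ∫ x, u x ^ 2 ≤ 1 →
        ∀ᵐ x : Space, R < ‖x‖ → u x ≤ K * powExp ((2 - 2 * lam) / a - 1) a ‖x‖ := by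
  obtain ⟨R, K, hR, hK, h⟩ := norm_marg N A (A ^ 2 + 4 + 4 * |l| + |K₂|) (4 * |l| + |K₂|)
    (by positivity) ha₀ Q
  refine ⟨R, K, hR, hK, fun lam a E E3 hl0 hl1 haa haA hN ha2 u hu hu0 hu2 hu1 => ?_⟩
  have hc : |E - E3| ≤ A ^ 2 := by
    rw [← ha2, abs_of_nonneg (by positivity)]; nlinarith
  exact h a (2 - 2 * lam) haa haA hN (abs_le.2 ⟨by linarith, by linarith⟩) u _
    (hu.mono fun x hx => lt_of_le_of_lt hQ1 hx)
    (continuousOn_farPot hQ1 hQl (E - E3) (2 * lam) (K₂ * lam))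
    (fun x hx => (farPot_bounds hQ1 hQl hl0 hl1 hc hx).1)
    (fun x hx => by rw [ha2]; exact (farPot_bounds hQ1 hQl hl0 hl1 hc hx).2) hu0 hu2 hu1

/-- The source of the excited part. -/
def perpSrc (K₃ lam : ℝ) (χ : Cfg 2 → ℝ) (f : Cfg 3 → ℝ) (x : Space) : ℝ :=
  K₃ * lam / (1 + ‖x‖ ^ 2) * |amp χ f x|

lemma perp_memLp {f : Cfg 3 → ℝ} {χ : Cfg 2 → ℝ} (hf : MemLp f 2) (hf1 : ∫ z, f z ^ 2 = 1)
    (hχ : MemLp χ 2) (hχ1 : ∫ y, χ y ^ 2 = 1) {K₃ K lam : ℝ} (hl0 : 0 ≤ lam) (hl1 : lam ≤ 1)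
    (hK : |K₃| ≤ K) :
    MemLp (uPerp χ f) 2 ∧ MemLp (perpSrc K₃ lam χ f) 2 ∧
      Real.sqrt (∫ x, uPerp χ f x ^ 2) + Real.sqrt (∫ x, perpSrc K₃ lam χ f x ^ 2) ≤ 1 + |K| ∧
      ∀ᵐ x, perpSrc K₃ lam χ f x ≤ |K₃| * lam / (1 + ‖x‖ ^ 2) * uTot f x := by
  obtain ⟨-, hampm, hperpm⟩ := memLp_amp hf hχ hχ1
  have hle := ae_amp_le hf hχ hχ1
  have hu2 : MemLp (uTot f) 2 := memLp_slice_norm hf 0
  have hut : ∫ x, uTot f x ^ 2 = 1 := (integral_sq_slice hf 0).trans hf1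
  have hp2 : MemLp (uPerp χ f) 2 := hu2.mono' hperpm (by
    filter_upwards [hle] with x hx
    rw [Real.norm_eq_abs, abs_of_nonneg (show 0 ≤ uPerp χ f x from Real.sqrt_nonneg _)]
    exact hx.2)
  have hSu : ∀ᵐ x, |perpSrc K₃ lam χ f x| ≤ |K₃| * lam / (1 + ‖x‖ ^ 2) * uTot f x := by
    filter_upwards [hle] with x hx
    rw [perpSrc, abs_mul, abs_div, abs_mul, abs_of_nonneg hl0, abs_abs,
      abs_of_pos (show 0 < 1 + ‖x‖ ^ 2 by positivity)]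
    exact mul_le_mul_of_nonneg_left hx.1 (by positivity)
  have hSK : ∀ᵐ x, ‖perpSrc K₃ lam χ f x‖ ≤ K * uTot f x := by
    filter_upwards [hSu] with x hx
    refine hx.trans (mul_le_mul_of_nonneg_right ?_ (Real.sqrt_nonneg _))
    exact ((div_le_self (by positivity) (by nlinarith [norm_nonneg x])).trans
      (mul_le_of_le_one_right (abs_nonneg _) hl1)).trans hK
  have hS2 : MemLp (perpSrc K₃ lam χ f) 2 := (hu2.const_mul K).mono'
    (((continuous_const.div (continuous_const.add (continuous_norm.pow 2))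
      fun x => (by positivity : (0 : ℝ) < 1 + ‖x‖ ^ 2).ne').aestronglyMeasurable).mul hampm.norm)
    hSK
  refine ⟨hp2, hS2, add_le_add (Real.sqrt_le_one.2 ?_) ?_, ?_⟩
  · rw [← hut]
    refine integral_mono_ae hp2.integrable_sq hu2.integrable_sq ?_
    filter_upwards [hle] with x hx
    exact pow_le_pow_left₀ (Real.sqrt_nonneg _) hx.2 2
  · rw [Real.sqrt_le_iff]
    refine ⟨abs_nonneg K, ?_⟩
    rw [sq_abs]
    calc ∫ x, perpSrc K₃ lam χ f x ^ 2 ≤ ∫ x, K ^ 2 * uTot f x ^ 2 := by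
          refine integral_mono_ae hS2.integrable_sq (hu2.integrable_sq.const_mul _) ?_
          filter_upwards [hSK] with x hx
          rw [← mul_pow, ← sq_abs]
          exact pow_le_pow_left₀ (abs_nonneg _) hx 2
      _ = K ^ 2 := by rw [integral_const_mul, hut, mul_one]
  · filter_upwards [hSu] with x hx
    exact (le_abs_self _).trans hx

/-- The first bound of the excited part. -/
theorem perp_slice_bound {g₀ : ℝ} (hg₀ : 0 < g₀) (hQ1 : 1 ≤ Q) (hQl : 2 * |l| ≤ Q)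
    (hQg : (2 + 4 * |l|) / Q ≤ g₀) (N A K₃ K₁ R₁ : ℝ) (hK₁ : 0 ≤ K₁) (hR₁ : 4 ≤ R₁) :
    ∃ R K : ℝ, 4 ≤ R ∧ 0 ≤ K ∧ ∀ lam a κ E2 E3 G₂ : ℝ, 0 ≤ lam → lam ≤ 1 → 0 ≤ a → a ≤ A →
      0 ≤ κ → κ ≤ A → |(2 - 2 * lam) / a - 1 - 2| ≤ N → a ^ 2 / 2 = E2 - E3 → |G₂| ≤ 8 * g₀ →
      a ^ 2 / 2 + 2 * g₀ ≤ E2 + G₂ - E3 → κ ^ 2 / 2 + 2 * g₀ ≤ E2 + G₂ - E3 →
      ∀ (f : Cfg 3 → ℝ) (χ : Cfg 2 → ℝ), MemLp f 2 → ∫ z, f z ^ 2 = 1 → MemLp χ 2 →
        ∫ y, χ y ^ 2 = 1 →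
        WeakSubPoisson Set.univ (uPerp χ f) (fun x =>
          2 * ((E2 + G₂ - E3 - attract l x) * uPerp χ f x - perpSrc K₃ lam χ f x)) →
        (∀ᵐ x : Space, R₁ < ‖x‖ → uTot f x ≤ K₁ * powExp ((2 - 2 * lam) / a - 1) a ‖x‖) →
        ∀ᵐ x : Space, R < ‖x‖ → uPerp χ f x ≤
          K * (lam * powExp ((2 - 2 * lam) / a - 1 - 2) a ‖x‖ + powExp 0 κ ‖x‖) := by
  set Q' := max R₁ Q
  have hQ'1 : 1 ≤ Q' := hQ1.trans (le_max_right _ _)
  obtain ⟨R, K, hR, hK, h⟩ := perp_bound N A (A ^ 2 + 8 * g₀ + 2 + 4 * |l|) (by positivity)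
    hg₀ Q' (|K₃| * (1 + K₁))
  refine ⟨R, K, hR, hK, fun lam a κ E2 E3 G₂ hl0 hl1 ha haA hκ hκA hN ha2 hG h1 h2 f χ hf hf1 hχ
    hχ1 hp hT => ?_⟩
  obtain ⟨hp2, hS2, hTb, hSu⟩ := perp_memLp hf hf1 hχ hχ1 (K₃ := K₃) (K := |K₃| * (1 + K₁)) hl0 hl1
    (le_mul_of_one_le_right (abs_nonneg _) (by linarith))
  have hff : ∀ x ∈ Ext Q', |attract l x| ≤ g₀ ∧ |attract l x| ≤ 2 + 4 * |l| := fun x hx => by
    obtain ⟨-, -, e, e', e''⟩ := far_facts hQ1 hQl (ext_mono (le_max_right _ _) hx)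
    exact ⟨e.trans (e''.trans hQg), e.trans e'⟩
  refine h a ((2 - 2 * lam) / a - 1) κ lam ha haA hκ hκA hN hl0 hl1 (uPerp χ f) _ _
    (hp.mono (Set.subset_univ _))
    (continuousOn_const.sub (continuousOn_attract l
      (by linarith [abs_nonneg l, le_max_right R₁ Q]))) ?_ ?_
    (fun x => Real.sqrt_nonneg _) hp2 hS2 hTb ?_
  · intro x hx
    obtain ⟨e1, e2⟩ := abs_le.1 (hff x hx).2
    obtain ⟨e3, e4⟩ := abs_le.1 hG
    have e5 : a ^ 2 ≤ A ^ 2 := pow_le_pow_left₀ ha haA 2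
    rw [abs_le]
    constructor <;> nlinarith
  · intro x hx
    have := (abs_le.1 (hff x hx).1).2
    constructor <;> linarith
  · filter_upwards [hSu, hT] with x hx hxT hxR
    have hR1 : R₁ < ‖x‖ := lt_of_le_of_lt (le_max_left _ _) hxR
    have hr : 0 < ‖x‖ := by linarith
    have h2 := powExp_pos ((2 - 2 * lam) / a - 1) a hr
    rw [powExp_eq_mul ((2 - 2 * lam) / a - 1 - 2) ((2 - 2 * lam) / a - 1) a hr,
      show (2 - 2 * lam) / a - 1 - 2 - ((2 - 2 * lam) / a - 1) = -((2 : ℕ) : ℝ) by push_cast; ring,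
      Real.rpow_neg hr.le, Real.rpow_natCast]
    calc perpSrc K₃ lam χ f x ≤ |K₃| * lam / (1 + ‖x‖ ^ 2) * uTot f x := hx
      _ ≤ |K₃| * lam / ‖x‖ ^ 2 * (K₁ * powExp ((2 - 2 * lam) / a - 1) a ‖x‖) :=
          mul_le_mul (div_le_div_of_nonneg_left (by positivity) (by positivity) (by linarith))
            (hxT hR1) (Real.sqrt_nonneg _) (by positivity)
      _ ≤ |K₃| * lam / ‖x‖ ^ 2 * ((1 + K₁) * powExp ((2 - 2 * lam) / a - 1) a ‖x‖) :=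
          mul_le_mul_of_nonneg_left (mul_le_mul_of_nonneg_right (by linarith) h2.le)
            (by positivity)
      _ = _ := by field_simp

/-- Exponential moments and the first bounds. -/
theorem decay (hN : NormStmt) (hP : PerpStmt) : DecayStmt := by
  intro l g u Dg Du eg eu e' h0 C
  obtain ⟨lam₁, δ, A, a₀, N, hR, hrate⟩ := exists_rates h0 C
  obtain ⟨lam₂, K₂, hlam₂, hnorm⟩ := hN l g u Dg Du eg eu e' h0 C
  obtain ⟨lam₃, K₃, hlam₃, hperp⟩ := hP l g u Dg Du eg eu e' h0 C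
  have hgap : 0 < eu - eg := sub_pos.2 h0.eg_lt
  set g₀ : ℝ := (eu - eg) / 16 with hg₀
  set Q₀ : ℝ := max (max 1 (2 * |l|)) ((2 + 4 * |l|) / g₀) with hQ
  have hQ1 : 1 ≤ Q₀ := (le_max_left _ _).trans (le_max_left _ _)
  have hQl : 2 * |l| ≤ Q₀ := (le_max_right _ _).trans (le_max_left _ _)
  have hQg : (2 + 4 * |l|) / Q₀ ≤ g₀ := by
    rw [div_le_iff₀ (show 0 < Q₀ by linarith), ← div_le_iff₀' (show 0 < g₀ by positivity)]
    exact le_max_right _ _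
  obtain ⟨R₁, K₁, hR₁, hK₁, hmarg⟩ := slice_bound hQ1 hQl N A K₂ hR.a₀_pos
  obtain ⟨R₂, K₄, hR₂, hK₄, hpb⟩ :=
    perp_slice_bound (g₀ := g₀) (by positivity) hQ1 hQl hQg N A K₃ K₁ R₁ hK₁ hR₁
  obtain ⟨Cg, hCg, hgap₁⟩ :=
    powExp_le_of_gap hR.N_nonneg (show 0 < a₀ / 2 by linarith [hR.a₀_pos])
  obtain ⟨Cd, hCd, hgap₂⟩ := powExp_le_of_gap hR.N_nonneg hR.δ_pos
  have hJ : Integrable fun x : Space => Real.exp (-((2 * (a₀ / 2) - a₀ / 2) * ‖x‖)) := by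
    simpa using Yuk.integrable_rpow_exp (s := 0) (c := 2 * (a₀ / 2) - a₀ / 2) (by norm_num)
      (by linarith [hR.a₀_pos])
  set J : ℝ := ∫ x : Space, Real.exp (-((2 * (a₀ / 2) - a₀ / 2) * ‖x‖)) with hJdef
  set R : ℝ := max R₁ R₂ + 1 with hRdef
  have hsR1 : R₁ < R := lt_of_le_of_lt (le_max_left _ _) (lt_add_one _)
  have hsR2 : R₂ < R := lt_of_le_of_lt (le_max_right _ _) (lt_add_one _)
  set K : ℝ := max (max K₁ (K₁ * Cd))
    (max K₄ (3 * (Real.exp (a₀ / 2 * R) + (K₁ * Cg) ^ 2 * J))) with hK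
  refine ⟨min lam₁ (min lam₂ lam₃), R, K, δ, a₀ / 2, lt_min hR.lam_pos (lt_min hlam₂ hlam₃),
    by linarith, hR.δ_pos, by linarith [hR.a₀_pos], ?_⟩
  intro lam hlam E3 f D E2 χ Dχ Es χs Ds Et χt Dt hst
  obtain ⟨ha2, hb2, haa, hab, hbA, hadA, hκ, hNb⟩ := hrate lam
    ⟨hlam.1, hlam.2.trans_le (min_le_left _ _)⟩ E3 f D E2 χ Dχ Es χs Ds Et χt Dt hst
  obtain ⟨-, -, hu, hd⟩ := hnorm lam
    ⟨hlam.1, hlam.2.trans_le ((min_le_right _ _).trans (min_le_left _ _))⟩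
    E3 f D E2 χ Dχ Es χs Ds Et χt Dt hst
  have hp := hperp lam ⟨hlam.1, hlam.2.trans_le ((min_le_right _ _).trans (min_le_right _ _))⟩
    E3 f D E2 χ Dχ Es χs Ds Et χt Dt hst
  set a := decayRate E2 E3
  set b := decayRate Et E3
  have hlam1 : lam ≤ 1 := (hlam.2.le.trans (min_le_left _ _)).trans hR.lam_le
  have ha0 : 0 < a := hR.a₀_pos.trans_le haa
  have hb : a₀ ≤ b := by linarith [hR.δ_pos]
  have hf : MemLp f 2 := hst.three.lowest.lim.1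
  have hf1 : ∫ z, f z ^ 2 = 1 := hst.three.lowest.mass_one
  have hχ : MemLp χ 2 := hst.ion.lowest.lim.1
  have hχ1 : ∫ y, χ y ^ 2 = 1 := hst.ion.lowest.mass_one
  have hmema : a ∈ [a, b] := by simp
  have hmemb : b ∈ [a, b] := by simp
  have hNm : ∀ t ∈ [a, b], |(2 - 2 * lam) / t - 1| ≤ N := fun t ht => by
    simpa [sub_eq_add_neg] using hNb t ht (-1) (by norm_num)
  have hN3 : |(2 - 2 * lam) / a - 1 - 2| ≤ N := by
    rw [sub_sub, sub_eq_add_neg]; exact hNb a hmema _ (by norm_num)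
  have hT : ∀ᵐ x : Space, R₁ < ‖x‖ → uTot f x ≤ K₁ * powExp ((2 - 2 * lam) / a - 1) a ‖x‖ :=
    hmarg lam a E2 E3 hlam.1.le hlam1 haa (by linarith [hR.δ_pos]) (hNm a hmema) ha2 (uTot f) hu
      (fun x => Real.sqrt_nonneg _) (memLp_slice_norm hf 0)
      (le_of_eq ((integral_sq_slice hf 0).trans hf1))
  have hD : ∀ᵐ x : Space, R₁ < ‖x‖ → uDown f x ≤ K₁ * powExp ((2 - 2 * lam) / b - 1) b ‖x‖ :=
    hmarg lam b Et E3 hlam.1.le hlam1 hb hbA (hNm b hmemb) hb2 (uDown f) hd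
      (fun x => Real.sqrt_nonneg _) (memLp_slice_norm hf 2)
      (le_of_eq ((integral_sq_slice hf 2).trans hf1))
  have hperpB := hpb lam a (a + δ) E2 E3 ((eu - eg) / 2) hlam.1.le hlam1 ha0.le
    (by linarith [hR.δ_pos]) (by linarith [hR.δ_pos]) hadA hN3 ha2
    (by rw [abs_of_pos (by linarith)]; linarith)
    (by linarith) (by linarith) f χ hf hf1 hχ hχ1 hp hT
  have hKa : K₁ ≤ K := (le_max_left _ _).trans (le_max_left _ _)
  have hKb : K₁ * Cd ≤ K := (le_max_right _ _).trans (le_max_left _ _)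
  have hKc : K₄ ≤ K := (le_max_left _ _).trans (le_max_right _ _)
  have hKd : 3 * (Real.exp (a₀ / 2 * R) + (K₁ * Cg) ^ 2 * J) ≤ K :=
    (le_max_right _ _).trans (le_max_right _ _)
  have h0N : |(0 : ℝ)| ≤ N := by simpa using hR.N_nonneg
  have hexp : ∀ t : ℝ, t ∈ [a, b] → a₀ ≤ t → ∀ r : ℝ, 1 ≤ r →
      K₁ * powExp ((2 - 2 * lam) / t - 1) t r ≤ K₁ * Cg * Real.exp (-(a₀ / 2 * r)) := by
    intro t ht hta r hr
    rw [mul_assoc, ← powExp_zero]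
    exact mul_le_mul_of_nonneg_left
      (hgap₁ 0 _ (a₀ / 2) t r h0N (hNm t ht) (by linarith) hr) hK₁
  refine ⟨?_, ?_, ?_, ?_, ?_⟩
  · have hm := moments_of_bound hf hf1 hst.three.anti (K := K₁ * Cg) (R := R) (κ := a₀ / 2)
      (ε := a₀ / 2) (J := J) (by linarith [hR.a₀_pos]) hJ le_rfl ?_ ?_
    · exact ⟨hm.1, hm.2.trans hKd⟩
    · filter_upwards [hT] with x hx hxR
      exact (hx (hsR1.trans_le hxR)).trans (hexp a hmema haa _ (by linarith))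
    · filter_upwards [hD] with x hx hxR
      exact (hx (hsR1.trans_le hxR)).trans (hexp b hmemb hb _ (by linarith))
  · filter_upwards [hT] with x hx hxR
    have hr : 0 < ‖x‖ := by linarith
    refine (hx (hsR1.trans_le hxR)).trans ?_
    rw [molTail, mul_assoc, powExp_eq_mul _ ((2 - 2 * lam) / a - 2) a hr,
      show (2 - 2 * lam) / a - 1 - ((2 - 2 * lam) / a - 2) = 1 by ring, Real.rpow_one]
    have := powExp_pos ((2 - 2 * lam) / a - 2) a hr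
    exact mul_le_mul_of_nonneg_right hKa (by positivity)
  · filter_upwards [hD] with x hx hxR
    have hr : 0 < ‖x‖ := by linarith
    exact (hx (hsR1.trans_le hxR)).trans
      (mul_le_mul_of_nonneg_right hKa (powExp_pos _ _ hr).le)
  · filter_upwards [hD] with x hx hxR
    have hr : 1 ≤ ‖x‖ := by linarith
    refine (hx (hsR1.trans_le hxR)).trans ?_
    have h1 := hgap₂ 0 _ (a + δ) b ‖x‖ h0N (hNm b hmemb) (by linarith) hr
    refine (mul_le_mul_of_nonneg_left h1 hK₁).trans ?_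
    rw [powExp_zero, ← mul_assoc]
    exact mul_le_mul_of_nonneg_right hKb (Real.exp_pos _).le
  · filter_upwards [hperpB] with x hx hxR
    have hr : 0 < ‖x‖ := by linarith
    refine (hx (hsR2.trans_le hxR)).trans ?_
    rw [molTail, powExp_zero,
      powExp_eq_mul ((2 - 2 * lam) / a - 1 - 2) ((2 - 2 * lam) / a - 2) a hr,
      show (2 - 2 * lam) / a - 1 - 2 - ((2 - 2 * lam) / a - 2) = -1 by ring, Real.rpow_neg_one,
      div_eq_mul_inv lam ‖x‖, mul_assoc lam]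
    have := powExp_pos ((2 - 2 * lam) / a - 2) a hr
    have := hlam.1
    exact mul_le_mul_of_nonneg_right hKc (by positivity)

end Vale.Agent.P363.Inter
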