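import Vale.Agent.P363.Inter.Bar.Barriers
import Vale.Agent.P363.Tool.MaxPrinciple

/-!
P363, interacting side: the two-sided barriers for the amplitude of the ion ground state:
`z r^β exp (-a r)` with a subleading correction, and a corrector on the plane.
-/

noncomputable section

namespace Vale.Agent.P363.Inter

open MeasureTheory Metric Filter
open scoped BigOperators Topology

/-- `z r^β e^{-a r} (1 + s r^{-1/2})`. -/
def leadBar (s β a : ℝ) (x : Space) : ℝ :=
  powExp β a ‖x‖ * height x + s * (powExp (β - 1 / 2) a ‖x‖ * height x)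

/-- `r^(β - 3) e^{-a r} (1 - e^{-z})`. -/
def corrBar (β a : ℝ) (x : Space) : ℝ := powExp (β - 3) a ‖x‖ * (1 - Real.exp (-height x))

/-- The lower barrier `c (1 + r^{-1/2}) z G - M lam Φ`. -/
def lowBar (c M lam β a : ℝ) (x : Space) : ℝ := c * leadBar 1 β a x + -(M * lam) * corrBar β a x

/-- The upper barrier `K (1 - r^{-1/2}) z G + M lam Φ`. -/
def upBar (K M lam β a : ℝ) (x : Space) : ℝ := K * leadBar (-1) β a x + M * lam * corrBar β a x

lemma contDiffOn_height_mul (β a : ℝ) :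
    ContDiffOn ℝ 2 (fun x : Space => powExp β a ‖x‖ * height x) {x | x ≠ 0} :=
  contDiffOn_radial_height (p := fun t => t) (contDiffOn_powExp β a) contDiff_id

lemma contDiffOn_leadBar (s β a : ℝ) : ContDiffOn ℝ 2 (leadBar s β a) {x | x ≠ 0} :=
  (contDiffOn_height_mul β a).add (contDiffOn_const.mul (contDiffOn_height_mul _ a))

lemma contDiffOn_corrBar (β a : ℝ) : ContDiffOn ℝ 2 (corrBar β a) {x | x ≠ 0} :=
  contDiffOn_radial_height (p := fun t => 1 - Real.exp (-t)) (contDiffOn_powExp _ a)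
    (contDiff_const.sub (Real.contDiff_exp.comp contDiff_neg))

lemma contDiffOn_lowBar (c M lam β a : ℝ) : ContDiffOn ℝ 2 (lowBar c M lam β a) {x | x ≠ 0} :=
  (contDiffOn_const.mul (contDiffOn_leadBar 1 β a)).add
    (contDiffOn_const.mul (contDiffOn_corrBar β a))

lemma contDiffOn_upBar (K M lam β a : ℝ) : ContDiffOn ℝ 2 (upBar K M lam β a) {x | x ≠ 0} :=
  (contDiffOn_const.mul (contDiffOn_leadBar (-1) β a)).add
    (contDiffOn_const.mul (contDiffOn_corrBar β a))

lemma powExp_half (β a : ℝ) {r : ℝ} (hr : 0 < r) :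
    powExp (β - 1 / 2) a r = powExp β a r * (Real.sqrt r)⁻¹ := by
  rw [powExp_eq_mul (β - 1 / 2) β a hr, show β - 1 / 2 - β = -(1 / 2 : ℝ) by ring,
    Real.rpow_neg hr.le, ← Real.sqrt_eq_rpow, mul_comm]

lemma powExp_three_half (β a : ℝ) {r : ℝ} (hr : 0 < r) :
    powExp (β - 3 / 2) a r = powExp β a r * ((Real.sqrt r)⁻¹ / r) := by
  rw [powExp_eq_mul (β - 3 / 2) (β - 1 / 2) a hr, powExp_half β a hr,
    show β - 3 / 2 - (β - 1 / 2) = (-1 : ℝ) by ring, Real.rpow_neg_one]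
  ring

lemma powExp_mono_exp {β β' : ℝ} (h : β ≤ β') (a : ℝ) {r : ℝ} (hr : 1 ≤ r) :
    powExp β a r ≤ powExp β' a r :=
  mul_le_mul_of_nonneg_right (Real.rpow_le_rpow_of_exponent_le hr h) (Real.exp_pos _).le

lemma corrBar_bounds (β a : ℝ) {x : Space} (hr : 1 ≤ ‖x‖) (hz : 0 ≤ height x) :
    0 ≤ corrBar β a x ∧ corrBar β a x ≤ height x * powExp β a ‖x‖ := by
  have h0 : 0 ≤ 1 - Real.exp (-height x) := sub_nonneg.2 (Real.exp_le_one_iff.2 (by linarith))
  have h1 : 1 - Real.exp (-height x) ≤ height x := by linarith [Real.add_one_le_exp (-height x)]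
  have hp := powExp_pos (β - 3) a (show 0 < ‖x‖ by linarith)
  refine ⟨mul_nonneg hp.le h0, ?_⟩
  calc corrBar β a x ≤ powExp (β - 3) a ‖x‖ * height x := mul_le_mul_of_nonneg_left h1 hp.le
    _ ≤ powExp β a ‖x‖ * height x :=
        mul_le_mul_of_nonneg_right (powExp_mono_exp (by linarith) a hr) hz
    _ = _ := mul_comm _ _

lemma leadBar_bounds (β a : ℝ) {x : Space} (hr : 4 ≤ ‖x‖) (hz : 0 ≤ height x) :
    height x * powExp β a ‖x‖ ≤ leadBar 1 β a x ∧
      leadBar 1 β a x ≤ 2 * (height x * powExp β a ‖x‖) ∧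
      height x * powExp β a ‖x‖ / 2 ≤ leadBar (-1) β a x ∧
      leadBar (-1) β a x ≤ height x * powExp β a ‖x‖ := by
  have hr0 : 0 < ‖x‖ := by linarith
  have hp := mul_nonneg hz (powExp_pos β a hr0).le
  have hs2 : 2 ≤ Real.sqrt ‖x‖ := Real.le_sqrt_of_sq_le (by norm_num; linarith)
  have hs : (Real.sqrt ‖x‖)⁻¹ ≤ 1 / 2 := by rw [one_div]; exact inv_anti₀ two_pos hs2
  have hs0 : 0 ≤ (Real.sqrt ‖x‖)⁻¹ := by positivity
  have e : ∀ s : ℝ, leadBar s β a x =
      height x * powExp β a ‖x‖ + s * (height x * powExp β a ‖x‖ * (Real.sqrt ‖x‖)⁻¹) := fun s => by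
    rw [leadBar, powExp_half β a hr0]; ring
  have h1 := mul_le_mul_of_nonneg_left hs hp
  have h2 := mul_nonneg hp hs0
  simp only [e]
  exact ⟨by linarith, by linarith, by linarith, by linarith⟩

lemma lap_leadBar (s β a : ℝ) {x : Space} (hx : x ≠ 0) :
    lap (leadBar s β a) x = powExp β a ‖x‖ * height x *
      (a ^ 2 - 2 * a * (β + 2) / ‖x‖ + β * (β + 3) / ‖x‖ ^ 2) +
      s * (powExp (β - 1 / 2) a ‖x‖ * height x *
        (a ^ 2 - 2 * a * (β - 1 / 2 + 2) / ‖x‖ + (β - 1 / 2) * (β - 1 / 2 + 3) / ‖x‖ ^ 2)) := by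
  have hU : IsOpen {y : Space | y ≠ 0} := isOpen_ne
  rw [show leadBar s β a = (fun y => powExp β a ‖y‖ * height y +
      s * (powExp (β - 1 / 2) a ‖y‖ * height y)) from rfl,
    lap_add hU (contDiffOn_height_mul β a) (contDiffOn_const.mul (contDiffOn_height_mul _ a)) hx,
    lap_const_mul s hU (contDiffOn_height_mul _ a) hx, lap_powExp_mul_height β a hx,
    lap_powExp_mul_height (β - 1 / 2) a hx]

/-- The two leading barriers against potentials within `L / r²` of `a²/2 - k/r`. -/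
theorem lap_lead {N A L lo : ℝ} (hlo : 0 < lo) :
    ∃ R : ℝ, 4 ≤ R ∧ ∀ a β k m : ℝ, lo ≤ a → a ≤ A → |β| ≤ N → a * (β + 2) = k → ∀ x : Space,
      R ≤ ‖x‖ → 0 ≤ height x →
      (m ≤ a ^ 2 / 2 - k / ‖x‖ + L / ‖x‖ ^ 2 →
        2 * m * leadBar 1 β a x + lo / 2 * (height x * powExp (β - 3 / 2) a ‖x‖) ≤
          lap (leadBar 1 β a) x) ∧
      (a ^ 2 / 2 - k / ‖x‖ - L / ‖x‖ ^ 2 ≤ m →
        lap (leadBar (-1) β a) x ≤
          2 * m * leadBar (-1) β a x - lo / 2 * (height x * powExp (β - 3 / 2) a ‖x‖)) := by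
  set n := |N| + 1
  set c := (n + 3) ^ 2 + 2 * |L| with hc
  refine ⟨max 4 ((4 * c / lo) ^ 2), le_max_left _ _, ?_⟩
  intro a β k m ha _ hN hk x hx hz
  set r := ‖x‖
  have hr4 : 4 ≤ r := (le_max_left _ _).trans hx
  have hr : 0 < r := by linarith
  have hx0 : x ≠ 0 := norm_pos_iff.1 hr
  have hsq : 4 * c / lo ≤ Real.sqrt r :=
    Real.le_sqrt_of_sq_le ((le_max_right _ _).trans hx)
  set s := (Real.sqrt r)⁻¹ with hs
  have hs2 : 2 ≤ Real.sqrt r := Real.le_sqrt_of_sq_le (by norm_num; linarith)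
  have hs0 : 0 < s := by positivity
  have hs1 : s ≤ 1 := by rw [hs]; exact inv_le_one_of_one_le₀ (by linarith)
  set P := powExp β a r * height x
  have hP : 0 ≤ P := mul_nonneg (powExp_pos β a hr).le hz
  obtain ⟨hb1, hb2⟩ := abs_le.1 hN
  have hn0 : |β| ≤ n := by rw [abs_le]; constructor <;> linarith [le_abs_self N, neg_abs_le N]
  obtain ⟨hn1, hn2⟩ := abs_le.1 hn0
  have q1 : |β * (β + 3)| ≤ (n + 3) ^ 2 := by rw [abs_le]; constructor <;> nlinarith
  have q2 : |(β - 1 / 2) * (β - 1 / 2 + 3)| ≤ (n + 3) ^ 2 := by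
    rw [abs_le]; constructor <;> nlinarith
  obtain ⟨p1, p1'⟩ := abs_le.1 q1
  obtain ⟨p2, p2'⟩ := abs_le.1 q2
  have hmain : c / r ^ 2 * (1 + s) ≤ (a - lo / 2) * (s / r) := by
    have h1 : 4 * c ≤ lo * Real.sqrt r := by rw [div_le_iff₀ hlo] at hsq; linarith
    have h2 : 2 * c / r ^ 2 ≤ lo / 2 * (s / r) := by
      have hq : Real.sqrt r ^ 2 = r := Real.sq_sqrt hr.le
      rw [hs, div_le_iff₀ (by positivity)]
      have : lo / 2 * ((Real.sqrt r)⁻¹ / r) * r ^ 2 = lo / 2 * Real.sqrt r := by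
        field_simp
        exact hq.symm
      rw [this]; linarith
    have h3 : c / r ^ 2 * (1 + s) ≤ 2 * c / r ^ 2 := by
      rw [mul_div_assoc, mul_comm (2 : ℝ)]
      exact mul_le_mul_of_nonneg_left (by linarith) (by positivity)
    have h4 : lo / 2 * (s / r) ≤ (a - lo / 2) * (s / r) :=
      mul_le_mul_of_nonneg_right (by linarith) (by positivity)
    linarith
  have e32 : height x * powExp (β - 3 / 2) a r = P * (s / r) := by
    rw [powExp_three_half β a hr]; ring
  have ebar : ∀ σ : ℝ, leadBar σ β a x = P * (1 + σ * s) := fun σ => by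
    rw [leadBar, powExp_half β a hr]; ring
  have elap : ∀ σ : ℝ, lap (leadBar σ β a) x = P * ((a ^ 2 - 2 * k / r + β * (β + 3) / r ^ 2) +
      σ * s * (a ^ 2 - 2 * k / r + a / r + (β - 1 / 2) * (β - 1 / 2 + 3) / r ^ 2)) := fun σ => by
    rw [lap_leadBar σ β a hx0, powExp_half β a hr, ← hk]; ring
  constructor <;> intro hm
  · rw [ebar, elap, e32]
    have w1 : 2 * m ≤ a ^ 2 - 2 * k / r + 2 * |L| / r ^ 2 := by
      have := div_le_div_of_nonneg_right (le_abs_self L) (sq_nonneg r)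
      have e : 2 * k / r = 2 * (k / r) := by ring
      have e' : 2 * |L| / r ^ 2 = 2 * (|L| / r ^ 2) := by ring
      linarith
    have z1 : -((n + 3) ^ 2) / r ^ 2 ≤ β * (β + 3) / r ^ 2 :=
      div_le_div_of_nonneg_right p1 (sq_nonneg r)
    have z2 : -((n + 3) ^ 2) / r ^ 2 ≤ (β - 1 / 2) * (β - 1 / 2 + 3) / r ^ 2 :=
      div_le_div_of_nonneg_right p2 (sq_nonneg r)
    have e : c / r ^ 2 = (n + 3) ^ 2 / r ^ 2 + 2 * |L| / r ^ 2 := by rw [hc, add_div]
    rw [neg_div] at z1 z2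
    have t1 : 0 ≤ a ^ 2 - 2 * k / r + β * (β + 3) / r ^ 2 - 2 * m + c / r ^ 2 := by linarith
    have t2 : 0 ≤ s * (a ^ 2 - 2 * k / r + a / r + (β - 1 / 2) * (β - 1 / 2 + 3) / r ^ 2 -
        2 * m - a / r + c / r ^ 2) := mul_nonneg hs0.le (by linarith)
    have key : 2 * m * (1 + 1 * s) + lo / 2 * (s / r) ≤
        a ^ 2 - 2 * k / r + β * (β + 3) / r ^ 2 +
          1 * s * (a ^ 2 - 2 * k / r + a / r + (β - 1 / 2) * (β - 1 / 2 + 3) / r ^ 2) := by
      linear_combination t1 + t2 + hmain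
    calc _ = P * (2 * m * (1 + 1 * s) + lo / 2 * (s / r)) := by ring
      _ ≤ _ := mul_le_mul_of_nonneg_left key hP
  · rw [ebar, elap, e32]
    have w1 : a ^ 2 - 2 * k / r - 2 * |L| / r ^ 2 ≤ 2 * m := by
      have := div_le_div_of_nonneg_right (le_abs_self L) (sq_nonneg r)
      have e : 2 * k / r = 2 * (k / r) := by ring
      have e' : 2 * |L| / r ^ 2 = 2 * (|L| / r ^ 2) := by ring
      linarith
    have z1 : β * (β + 3) / r ^ 2 ≤ (n + 3) ^ 2 / r ^ 2 :=
      div_le_div_of_nonneg_right p1' (sq_nonneg r)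
    have z2 : -((n + 3) ^ 2) / r ^ 2 ≤ (β - 1 / 2) * (β - 1 / 2 + 3) / r ^ 2 :=
      div_le_div_of_nonneg_right p2 (sq_nonneg r)
    rw [neg_div] at z2
    have e : c / r ^ 2 = (n + 3) ^ 2 / r ^ 2 + 2 * |L| / r ^ 2 := by rw [hc, add_div]
    have t1 : 0 ≤ (1 - s) * (2 * m - (a ^ 2 - 2 * k / r) + 2 * |L| / r ^ 2) :=
      mul_nonneg (by linarith) (by linarith)
    have t2 : 0 ≤ s * ((β - 1 / 2) * (β - 1 / 2 + 3) / r ^ 2 + (n + 3) ^ 2 / r ^ 2) :=
      mul_nonneg hs0.le (by linarith)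
    have t3 : 0 ≤ s * (2 * |L| / r ^ 2) := by positivity
    have key : a ^ 2 - 2 * k / r + β * (β + 3) / r ^ 2 +
        -1 * s * (a ^ 2 - 2 * k / r + a / r + (β - 1 / 2) * (β - 1 / 2 + 3) / r ^ 2) ≤
        2 * m * (1 + -1 * s) - lo / 2 * (s / r) := by
      linear_combination t1 + t2 + 2 * t3 + z1 + hmain + (1 + s) * e
    calc _ ≤ P * (2 * m * (1 + -1 * s) - lo / 2 * (s / r)) :=
          mul_le_mul_of_nonneg_left key hP
      _ = _ := by ring

/-- The corrector against a potential above `a²/2 - k/r - L/r²`. -/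
lemma lap_corr_gen {β a m k L N A : ℝ} (hb3 : |β - 3| ≤ N) (ha : 0 ≤ a) (hA : a ≤ A)
    (hk2 : |k| ≤ 2) {x : Space} (hr : 1 ≤ ‖x‖) (hz : 0 ≤ height x)
    (hm : a ^ 2 / 2 - k / ‖x‖ - L / ‖x‖ ^ 2 ≤ m) :
    lap (corrBar β a) x ≤ 2 * m * corrBar β a x + powExp (β - 3) a ‖x‖ *
      (-Real.exp (-height x) + (barConst N (max A 0) + 2 * (2 + |L|)) / ‖x‖) := by
  set r := ‖x‖
  set z := height x
  set P3 := powExp (β - 3) a r
  have hr0 : 0 < r := by linarith
  have hP3 : 0 < P3 := powExp_pos _ _ hr0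
  set B := barConst N (max A 0) + 2 * (2 + |L|) with hB
  have h := lap_corrector_le (β := β - 3) (a := a) (N := N) (A := max A 0) hb3 ha
    (hA.trans (le_max_left _ _)) (x := x) (show 1 ≤ r from hr) hz
  have hq0 : 0 ≤ 1 - Real.exp (-z) := sub_nonneg.2 (Real.exp_le_one_iff.2 (by linarith))
  have hq1 : 1 - Real.exp (-z) ≤ 1 := sub_le_self _ (Real.exp_pos _).le
  have hkr : k / r + L / r ^ 2 ≤ (2 + |L|) / r := by
    rw [add_div]
    refine add_le_add (div_le_div_of_nonneg_right ((le_abs_self k).trans hk2) hr0.le) ?_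
    refine (div_le_div_of_nonneg_right (le_abs_self L) (sq_nonneg r)).trans ?_
    exact div_le_div_of_nonneg_left (abs_nonneg L) hr0 (by nlinarith)
  have h3 : (a ^ 2 - 2 * m) * (1 - Real.exp (-z)) ≤ 2 * ((2 + |L|) / r) * 1 :=
    mul_le_mul (by linarith) hq1 hq0 (by positivity)
  have eB : B / r = barConst N (max A 0) / r + 2 * ((2 + |L|) / r) := by rw [hB, add_div]; ring
  calc lap (corrBar β a) x ≤ _ := h
    _ ≤ P3 * (2 * m * (1 - Real.exp (-z)) + (-Real.exp (-z) + B / r)) :=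
        mul_le_mul_of_nonneg_left (by rw [eB]; linarith) hP3.le
    _ = _ := by simp only [corrBar, P3, z, r]; ring

/-- The barriers of the amplitude: margins `2 lam K' r^(β-3) e^{-a r}` on either side. -/
theorem amp_barriers {N A L lo K' : ℝ} (hlo : 0 < lo) (hN : 0 ≤ N) (hK : 0 ≤ K') :
    ∃ R M : ℝ, 4 ≤ R ∧ 0 ≤ M ∧ ∀ c : ℝ, 0 < c → ∃ lam₁ : ℝ, 0 < lam₁ ∧
      ∀ lam a β k m : ℝ, 0 ≤ lam → lam ≤ lam₁ → lo ≤ a → a ≤ A → |β| + 3 ≤ N → |k| ≤ 2 →
        a * (β + 2) = k → ∀ x : Space, R ≤ ‖x‖ → 0 ≤ height x →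
        (M * lam ≤ c / 2 ∧
          c / 2 * (height x * powExp β a ‖x‖) ≤ lowBar c M lam β a x) ∧
        (a ^ 2 / 2 - k / ‖x‖ - L / ‖x‖ ^ 2 ≤ m → m ≤ a ^ 2 / 2 - k / ‖x‖ + L / ‖x‖ ^ 2 →
          2 * m * lowBar c M lam β a x + 2 * lam * K' * powExp (β - 3) a ‖x‖ ≤
            lap (lowBar c M lam β a) x) ∧
        ∀ K : ℝ, c ≤ K →
          K / 2 * (height x * powExp β a ‖x‖) ≤ upBar K M lam β a x ∧
          (a ^ 2 / 2 - k / ‖x‖ - L / ‖x‖ ^ 2 ≤ m →
            lap (upBar K M lam β a) x ≤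
              2 * m * upBar K M lam β a x - 2 * lam * K' * powExp (β - 3) a ‖x‖) := by
  obtain ⟨R₁, hR₁, hlead⟩ := lap_lead (N := N) (A := A) (L := L) hlo
  set B := barConst N (max A 0) + 2 * (2 + |L|) with hB
  have hB0 : 0 ≤ B := by
    have := barConst_nonneg hN (le_max_right A 0)
    positivity
  set M := 12 * K' with hM
  refine ⟨max R₁ (6 * B + 4), M, hR₁.trans (le_max_left _ _), by positivity, fun c hc => ?_⟩
  set lam₁ := min (c / (2 * M + 1)) (c * lo / (2 * (M * B + 2 * K' + 1)))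
  refine ⟨lam₁, lt_min (by positivity) (by positivity), ?_⟩
  intro lam a β k m hl0 hl1 ha hA hβ hk2 hk x hx hz
  obtain ⟨hlow, hup⟩ := hlead a β k m ha hA (by linarith) hk x ((le_max_left _ _).trans hx) hz
  have hr6 : 6 * B + 4 ≤ ‖x‖ := (le_max_right _ _).trans hx
  set r := ‖x‖
  have hr : 4 ≤ r := by linarith
  have hr0 : 0 < r := by linarith
  have hx0 : x ≠ 0 := norm_pos_iff.1 hr0
  have hMl : M * lam ≤ c / 2 := by
    have h := hl1.trans (min_le_left _ _)
    rw [le_div_iff₀ (by positivity)] at h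
    nlinarith
  have hsmall : lam * (M * B + 2 * K') ≤ c * (lo / 2) := by
    have h := hl1.trans (min_le_right _ _)
    rw [le_div_iff₀ (by positivity)] at h
    nlinarith
  obtain ⟨b1, b2, b3, b4⟩ := leadBar_bounds β a (x := x) hr hz
  obtain ⟨c0, c1⟩ := corrBar_bounds β a (x := x) (by linarith) hz
  set z := height x
  set P3 := powExp (β - 3) a r
  have hP3 : 0 < P3 := powExp_pos _ _ hr0
  have hP32 : P3 ≤ powExp (β - 3 / 2) a r := powExp_mono_exp (by linarith) a (by linarith)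
  have hb3 : |β - 3| ≤ N := (abs_sub _ _).trans (by norm_num; linarith)
  have hcorr := fun m => lap_corr_gen (β := β) (a := a) (m := m) (k := k) (L := L) (N := N) (A := A) hb3
    (by linarith) hA hk2 (x := x) (by linarith) hz
  have hBr : B / r ≤ 1 / 6 := by rw [div_le_iff₀ hr0]; linarith
  -- the margin, in either regime of `z`
  have margin : ∀ C : ℝ, c ≤ C → 2 * lam * K' * P3 + M * lam * (P3 * (-Real.exp (-z) + B / r)) ≤
      C * (lo / 2 * (z * powExp (β - 3 / 2) a r)) := by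
    intro C hC
    have hR0 : 0 ≤ C * (lo / 2 * (z * powExp (β - 3 / 2) a r)) := by
      have := powExp_pos (β - 3 / 2) a hr0
      have : 0 < C := hc.trans_le hC
      positivity
    rcases le_or_gt z 1 with h1 | h1
    · have : 1 / 3 ≤ Real.exp (-z) := by
        refine le_trans ?_ (Real.exp_le_exp.2 (neg_le_neg h1))
        rw [Real.exp_neg, ← one_div]
        exact one_div_le_one_div_of_le (Real.exp_pos 1)
          (by have := Real.exp_one_lt_d9; linarith)
      have h2 : M * lam * (P3 * (-Real.exp (-z) + B / r)) ≤ M * lam * (P3 * (-(1 / 6))) :=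
        mul_le_mul_of_nonneg_left (mul_le_mul_of_nonneg_left (by linarith) hP3.le) (by positivity)
      have : M * lam * (P3 * (-(1 / 6))) = -(2 * lam * K' * P3) := by rw [hM]; ring
      linarith
    · have h2 : M * lam * (P3 * (-Real.exp (-z) + B / r)) ≤ M * lam * (P3 * B) := by
        refine mul_le_mul_of_nonneg_left (mul_le_mul_of_nonneg_left ?_ hP3.le) (by positivity)
        have : B / r ≤ B := div_le_self hB0 (by linarith)
        linarith [Real.exp_pos (-z)]
      have h3 : lam * (M * B + 2 * K') * P3 ≤ C * (lo / 2) * (1 * powExp (β - 3 / 2) a r) := by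
        rw [one_mul]
        exact mul_le_mul (hsmall.trans (mul_le_mul_of_nonneg_right hC (by positivity))) hP32
          hP3.le (mul_nonneg (hc.le.trans hC) (by positivity))
      have h4 : C * (lo / 2) * (1 * powExp (β - 3 / 2) a r) ≤
          C * (lo / 2) * (z * powExp (β - 3 / 2) a r) :=
        mul_le_mul_of_nonneg_left (mul_le_mul_of_nonneg_right h1.le (powExp_pos _ _ hr0).le)
          (mul_nonneg (hc.le.trans hC) (by positivity))
      linarith
  have hU : IsOpen {y : Space | y ≠ 0} := isOpen_ne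
  have elow : lap (lowBar c M lam β a) x =
      c * lap (leadBar 1 β a) x + -(M * lam) * lap (corrBar β a) x := by
    rw [show lowBar c M lam β a = (fun y => c * leadBar 1 β a y + -(M * lam) * corrBar β a y) from
        rfl, lap_add hU (contDiffOn_const.mul (contDiffOn_leadBar 1 β a))
        (contDiffOn_const.mul (contDiffOn_corrBar β a)) hx0,
      lap_const_mul _ hU (contDiffOn_leadBar 1 β a) hx0,
      lap_const_mul _ hU (contDiffOn_corrBar β a) hx0]
  refine ⟨⟨hMl, ?_⟩, fun hm hm' => ?_, fun K hK2 => ?_⟩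
  · simp only [lowBar]
    linear_combination mul_le_mul_of_nonneg_left c1 (show 0 ≤ M * lam by positivity) +
      mul_le_mul_of_nonneg_left b1 hc.le +
      mul_le_mul_of_nonneg_right hMl (mul_nonneg hz (powExp_pos β a hr0).le)
  · rw [elow]
    simp only [lowBar]
    linear_combination mul_le_mul_of_nonneg_left (hlow hm') hc.le +
      mul_le_mul_of_nonneg_left (hcorr m hm) (show 0 ≤ M * lam by positivity) + margin c le_rfl
  have hKc : 0 ≤ K := hc.le.trans hK2
  refine ⟨?_, fun hm => ?_⟩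
  · simp only [upBar]
    linear_combination mul_le_mul_of_nonneg_left b3 hKc +
      mul_nonneg (show 0 ≤ M * lam by positivity) c0
  · rw [show upBar K M lam β a = (fun y => K * leadBar (-1) β a y + M * lam * corrBar β a y) from
        rfl, lap_add hU (contDiffOn_const.mul (contDiffOn_leadBar (-1) β a))
        (contDiffOn_const.mul (contDiffOn_corrBar β a)) hx0,
      lap_const_mul _ hU (contDiffOn_leadBar (-1) β a) hx0,
      lap_const_mul _ hU (contDiffOn_corrBar β a) hx0]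
    linear_combination mul_le_mul_of_nonneg_left (hup hm) hKc +
      mul_le_mul_of_nonneg_left (hcorr m hm) (show 0 ≤ M * lam by positivity) + margin K hK2

end Vale.Agent.P363.Inter
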