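import Vale.Agent.P363.Inter.Bar.Zero

/-!
P363, interacting side: a function vanishing on the plane, bounded with bounded Laplacian, is at
most linear in the height.
-/

noncomputable section

namespace Vale.Agent.P363.Inter

open MeasureTheory Metric Filter
open scoped BigOperators Topology

/-- The barrier in the cylinder over `q`. -/
def cylBar (M A₀ : ℝ) (q y : Space) : ℝ :=
  M * (2 * height y - height y ^ 2) + A₀ * ((y 0 - q 0) ^ 2 + (y 1 - q 1) ^ 2)

lemma lap_cylBar (M A₀ : ℝ) (q y : Space) : lap (cylBar M A₀ q) y = -2 * M + 4 * A₀ := by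
  have p0 : ∀ (a : Fin 3) (z : Space), HasFDerivAt (fun w : Space => w a)
      (EuclideanSpace.proj a : Space →L[ℝ] ℝ) z := fun a z =>
    (EuclideanSpace.proj a : Space →L[ℝ] ℝ).hasFDerivAt
  have d1 : ∀ (a : Fin 3) (z : Space), deriv3 a (cylBar M A₀ q) z =
      M * (2 * (unit3 a) 2 - 2 * z 2 * (unit3 a) 2) +
        A₀ * (2 * (z 0 - q 0) * (unit3 a) 0 + 2 * (z 1 - q 1) * (unit3 a) 1) := by
    intro a z
    have hd := ((((p0 2 z).const_mul 2).fun_sub ((p0 2 z).pow 2)).const_mul M).fun_add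
      (((((p0 0 z).sub_const (q 0)).pow 2).fun_add
        (((p0 1 z).sub_const (q 1)).pow 2)).const_mul A₀)
    have he : cylBar M A₀ q = fun i : Space =>
        M * (2 * i 2 - i 2 ^ 2) + A₀ * ((i 0 - q 0) ^ 2 + (i 1 - q 1) ^ 2) := rfl
    rw [deriv3, he, hd.fderiv]
    simp
    ring
  have e0 : deriv3 0 (cylBar M A₀ q) = fun z : Space => 2 * A₀ * (z 0 - q 0) :=
    funext fun z => by rw [d1]; simp [unit3, -mul_eq_mul_left_iff]; ring
  have e1 : deriv3 1 (cylBar M A₀ q) = fun z : Space => 2 * A₀ * (z 1 - q 1) :=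
    funext fun z => by rw [d1]; simp [unit3, -mul_eq_mul_left_iff]; ring
  have e2 : deriv3 2 (cylBar M A₀ q) = fun z : Space => 2 * M * (1 - z 2) :=
    funext fun z => by rw [d1]; simp [unit3, -mul_eq_mul_left_iff]; ring
  have f0 : deriv3 0 (fun z : Space => 2 * A₀ * (z 0 - q 0)) y = 2 * A₀ := by
    rw [deriv3, (((p0 0 y).sub_const (q 0)).const_mul (2 * A₀)).fderiv]; simp [unit3]
  have f1 : deriv3 1 (fun z : Space => 2 * A₀ * (z 1 - q 1)) y = 2 * A₀ := by
    rw [deriv3, (((p0 1 y).sub_const (q 1)).const_mul (2 * A₀)).fderiv]; simp [unit3]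
  have f2 : deriv3 2 (fun z : Space => 2 * M * (1 - z 2)) y = -(2 * M) := by
    rw [deriv3, (((p0 2 y).const_sub 1).const_mul (2 * M)).fderiv]; simp [unit3]
  simp only [lap, Fin.sum_univ_three, e0, e1, e2, f0, f1, f2]
  ring

/-- One-sided form. -/
lemma le_linear {R A A₀ : ℝ} (hA : 0 ≤ A) (hA₀ : 0 ≤ A₀) {f h : Space → ℝ}
    (hf : ContinuousOn f (Ext R)) (he : WeakSubPoisson (Ext R) f h)
    (hh : ∀ᵐ x, x ∈ Ext R → -A ≤ h x) (hb : ∀ x ∈ Ext R, f x ≤ A₀)
    (h0 : ∀ x ∈ Ext R, height x = 0 → f x ≤ 0) {x : Space} (hx : R + 3 < ‖x‖)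
    (hz : 0 ≤ height x) : f x ≤ 2 * (2 * A₀ + A) * height x := by
  set M := 2 * A₀ + A with hM
  have hM0 : 0 ≤ M := by positivity
  rcases le_or_gt 1 (height x) with h1 | h1
  · have := hb x (show R < ‖x‖ by linarith)
    nlinarith [mul_le_mul_of_nonneg_left h1 hM0]
  set q : Space := x - height x • unit3 2 with hq
  have hq2 : q 2 = 0 := by simp [hq, height, unit3]
  have hxq : x 0 - q 0 = 0 ∧ x 1 - q 1 = 0 := by simp [hq, unit3]
  set W : Set Space :=
    {y | 0 < height y ∧ height y < 1 ∧ (y 0 - q 0) ^ 2 + (y 1 - q 1) ^ 2 < 1}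
  set V : Set Space :=
    {y | 0 ≤ height y ∧ height y ≤ 1 ∧ (y 0 - q 0) ^ 2 + (y 1 - q 1) ^ 2 ≤ 1}
  have hW : IsOpen W := (isOpen_lt continuous_const continuous_height).inter
    ((isOpen_lt continuous_height continuous_const).inter
      (isOpen_lt (f := fun y : Space => (y 0 - q 0) ^ 2 + (y 1 - q 1) ^ 2) (by fun_prop)
        continuous_const))
  have hcl : closure W ⊆ V :=
    closure_minimal (fun y hy => ⟨hy.1.le, hy.2.1.le, hy.2.2.le⟩)
      ((isClosed_le continuous_const continuous_height).inter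
        ((isClosed_le continuous_height continuous_const).inter
          (isClosed_le (f := fun y : Space => (y 0 - q 0) ^ 2 + (y 1 - q 1) ^ 2) (by fun_prop)
            continuous_const)))
  have hnear : ∀ y ∈ V, ‖y - x‖ ≤ 3 := by
    intro y hy
    obtain ⟨a1, a2, a3⟩ := hy
    rw [← sq_le_sq₀ (norm_nonneg _) (by norm_num)]
    simp [EuclideanSpace.norm_sq_eq, Fin.sum_univ_three, sq_abs]
    have b0 : y 0 - x 0 = y 0 - q 0 := by linarith [hxq.1]
    have b1 : y 1 - x 1 = y 1 - q 1 := by linarith [hxq.2]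
    rw [b0, b1]
    have c0 : 0 ≤ y 2 := a1
    have c1 : y 2 ≤ 1 := a2
    have d0 : 0 ≤ x 2 := hz
    have d1 : x 2 ≤ 1 := h1.le
    nlinarith
  have hV : V ⊆ Ext R := fun y hy => by
    have h' := norm_le_norm_add_norm_sub y x
    show R < ‖y‖
    linarith [hnear y hy]
  have hB : ContDiff ℝ 2 (cylBar M A₀ q) := by unfold cylBar height; fun_prop
  have hneg : WeakSubPoisson W (fun y => -cylBar M A₀ q y) fun y => -lap (cylBar M A₀ q) y := by
    have h := ((WeakPoisson.of_contDiffOn hW hB.contDiffOn).const_mul (-1)).toSub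
    simpa using h
  have key := maxCont W (fun y => f y + -cylBar M A₀ q y) _ hW
    ((hf.mono (hcl.trans hV)).add hB.continuous.neg.continuousOn)
    ((he.mono fun y hy => hV ⟨hy.1.le, hy.2.1.le, hy.2.2.le⟩).add hneg) ?_ ?_ ?_ x ?_
  · have e : cylBar M A₀ q x = M * (2 * height x - height x ^ 2) := by simp [cylBar, hxq.1, hxq.2]
    nlinarith [sq_nonneg (height x), mul_nonneg hM0 (sq_nonneg (height x))]
  · filter_upwards [hh] with y hy hyW _
    rw [lap_cylBar]
    have := hy (hV ⟨hyW.1.le, hyW.2.1.le, hyW.2.2.le⟩)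
    linarith
  · intro y hy
    have hyV := hcl (frontier_subset_closure hy)
    have hyn : y ∉ W := fun hn => hy.2 (by rwa [hW.interior_eq])
    obtain ⟨a1, a2, a3⟩ := hyV
    have hfb : f y ≤ A₀ := hb y (hV ⟨a1, a2, a3⟩)
    have e1 : 0 ≤ M * (2 * height y - height y ^ 2) := mul_nonneg hM0 (by nlinarith)
    have e2 : 0 ≤ A₀ * ((y 0 - q 0) ^ 2 + (y 1 - q 1) ^ 2) := by positivity
    rcases eq_or_lt_of_le a1 with e | e
    · have := h0 y (hV ⟨a1, a2, a3⟩) e.symm
      simp only [cylBar]; linarith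
    rcases eq_or_lt_of_le a2 with g | g
    · simp only [cylBar, g] at *
      nlinarith
    · have h3 : 1 ≤ (y 0 - q 0) ^ 2 + (y 1 - q 1) ^ 2 := not_lt.1 fun hlt => hyn ⟨e, g, hlt⟩
      have := le_mul_of_one_le_right hA₀ h3
      simp only [cylBar]; linarith
  · intro ε hε
    refine ⟨‖x‖ + 4, fun y hy hyn => ?_⟩
    exfalso
    have h' := norm_le_norm_add_norm_sub x y
    rw [norm_sub_rev] at h'
    linarith [hnear y ⟨hy.1.le, hy.2.1.le, hy.2.2.le⟩, norm_sub_rev x y]
  · rcases eq_or_lt_of_le hz with e | e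
    · refine mem_closure_of_tendsto (f := fun t : ℝ => x + t • unit3 2) (b := 𝓝[>] (0 : ℝ))
        (tendsto_nhdsWithin_of_tendsto_nhds ?_) ?_
      · have : Continuous fun t : ℝ => x + t • unit3 2 := by fun_prop
        simpa using this.tendsto 0
      · filter_upwards [Ioo_mem_nhdsGT (zero_lt_one' ℝ)] with t ht
        refine ⟨?_, ?_, ?_⟩
        · rw [height_unit, ← e, zero_add]; exact ht.1
        · rw [height_unit, ← e, zero_add]; exact ht.2
        · simp [hq, unit3]
    · exact subset_closure ⟨e, h1, by simp [hq, unit3]⟩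

lemma norm_mirror (x : Space) : ‖mirror x‖ = ‖x‖ := by
  rw [← One.mirrorIso_apply, LinearIsometryEquiv.norm_map]

lemma height_mirror (x : Space) : height (mirror x) = -height x := by
  simp [mirror, height, unit3]
  ring

/-- An odd function with bounded values and bounded Laplacian is at most linear in the height. -/
theorem abs_le_linear {R A A₀ : ℝ} (hA : 0 ≤ A) (hA₀ : 0 ≤ A₀) {f h : Space → ℝ}
    (hf : ContinuousOn f (Ext R)) (he : WeakPoisson (Ext R) f h)
    (hh : ∀ᵐ x, x ∈ Ext R → |h x| ≤ A) (hb : ∀ x ∈ Ext R, |f x| ≤ A₀)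
    (hodd : ∀ x ∈ Ext R, f (mirror x) = -f x) {x : Space} (hx : R + 3 < ‖x‖) :
    |f x| ≤ 2 * (2 * A₀ + A) * |height x| := by
  have h0 : ∀ y ∈ Ext R, height y = 0 → f y = 0 := fun y hy hz => by
    have := hodd y hy
    rw [show mirror y = y by simp [mirror, hz]] at this
    linarith
  have key : ∀ y, R + 3 < ‖y‖ → 0 ≤ height y → |f y| ≤ 2 * (2 * A₀ + A) * height y := by
    intro y hy hyz
    have h1 := le_linear hA hA₀ hf he.toSub
      (by filter_upwards [hh] with z hz hzR using (abs_le.1 (hz hzR)).1)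
      (fun z hz => (le_abs_self _).trans (hb z hz)) (fun z hz hz0 => (h0 z hz hz0).le) hy hyz
    have h2 := le_linear (f := fun z => -1 * f z) (h := fun z => -1 * h z) hA hA₀
      (continuousOn_const.mul hf) (he.const_mul (-1)).toSub
      (by filter_upwards [hh] with z hz hzR; linarith [(abs_le.1 (hz hzR)).2])
      (fun z hz => by have := (abs_le.1 (hb z hz)).1; linarith)
      (fun z hz hz0 => by simp [h0 z hz hz0]) hy hyz
    exact abs_le.2 ⟨by linarith, h1⟩
  rcases le_total 0 (height x) with hz | hz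
  · rw [abs_of_nonneg hz]; exact key x hx hz
  · have h1 := key (mirror x) (by rwa [norm_mirror]) (by rw [height_mirror]; linarith)
    rw [hodd x (show R < ‖x‖ by linarith), abs_neg, height_mirror] at h1
    rwa [abs_of_nonpos hz]

end Vale.Agent.P363.Inter
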