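import Vale.Agent.P363.Inter.Bar.AmpBasics
import Vale.Agent.P363.Inter.Bar.OddLinear
import Vale.Agent.P363.Inter.Bar.Lead
import Vale.Agent.P363.Inter.Bar.Decay

/-!
P363, interacting side: the amplitude of the ion ground state is two-sided linear in the height
times the tail.
-/

noncomputable section

namespace Vale.Agent.P363.Inter

open MeasureTheory Metric Filter
open scoped BigOperators Topology

lemma le_on_open {U : Set Space} (hU : IsOpen U) {f g : Space → ℝ} (hf : ContinuousOn f U)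
    (hg : ContinuousOn g U) (h : ∀ᵐ x, x ∈ U → f x ≤ g x) {x : Space} (hx : x ∈ U) :
    f x ≤ g x := by
  have h1 : (fun y => max (f y) (g y)) =ᵐ[volume.restrict U] g := by
    filter_upwards [ae_restrict_of_ae h, ae_restrict_mem hU.measurableSet] with y hy hyU
    exact max_eq_right (hy hyU)
  exact le_of_le_of_eq (le_max_left _ _) (Measure.eqOn_open_of_ae_eq h1 hU (hf.sup hg) hg hx)

/-- The scalar mass correction of the ion ground state. -/
def repelShift (χ : Cfg 2 → ℝ) (x : Space) : ℝ :=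
  ipN (fun y => (repel x y - 2 / ‖x‖) * χ y) χ

/-- The coupling of the amplitude with the excited part. -/
def repelRest (χ : Cfg 2 → ℝ) (f : Cfg 3 → ℝ) (x : Space) : ℝ :=
  ipN (fun y => (repel x y - 2 / ‖x‖) * χ y) (perp χ f x)

/-- The source of the amplitude equation, bounded and split. -/
lemma source_split {f : Cfg 3 → ℝ} {χ : Cfg 2 → ℝ} {Kr : ℝ} (hf : MemLp f 2) (hχ : MemLp χ 2)
    (hχ1 : ipN χ χ = 1) (hW : ∀ x : Space, MemLp (fun y => repel x y * χ y) 2)
    (hWn : ∀ x : Space, nrmN (fun y => repel x y * χ y) ≤ Kr)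
    (hWf : ∀ x : Space, 1 ≤ ‖x‖ →
      nrmN (fun y => (repel x y - 2 / ‖x‖) * χ y) ≤ Kr / ‖x‖ ^ 2) :
    ∀ᵐ x : Space, |ipN (fun y => repel x y * χ y) (slice 0 f x)| ≤ Kr * uTot f x ∧
      (1 ≤ ‖x‖ →
        ipN (fun y => repel x y * χ y) (slice 0 f x) =
          (2 / ‖x‖ + repelShift χ x) * amp χ f x + repelRest χ f x ∧
        |repelShift χ x| ≤ Kr / ‖x‖ ^ 2 ∧ |repelRest χ f x| ≤ Kr / ‖x‖ ^ 2 * uPerp χ f x) := by
  filter_upwards [ae_memLp_slice hf 0] with x hx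
  refine ⟨(abs_ipN_le (hW x) hx).trans (mul_le_mul_of_nonneg_right (hWn x) (Real.sqrt_nonneg _)),
    fun hr => ?_⟩
  set A : Cfg 2 → ℝ := fun y => (repel x y - 2 / ‖x‖) * χ y with hA
  have hA2 : MemLp A 2 := ((hW x).sub (hχ.const_mul (2 / ‖x‖))).ae_eq
    (ae_of_all _ fun y => by simp [hA]; ring)
  have hp : MemLp (perp χ f x) 2 := hx.sub (hχ.const_mul (amp χ f x))
  have hn1 : nrmN χ = 1 := by simp [nrmN, hχ1]
  have i1 : Integrable fun y => A y * slice 0 f x y := hA2.integrable_mul hx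
  have i2 : Integrable fun y => χ y * slice 0 f x y := hχ.integrable_mul hx
  have i3 : Integrable fun y => A y * χ y := hA2.integrable_mul hχ
  refine ⟨?_, ?_, ?_⟩
  · have e1 : ipN (fun y => repel x y * χ y) (slice 0 f x) =
        ipN A (slice 0 f x) + 2 / ‖x‖ * amp χ f x := by
      simp only [ipN, amp, ampAt]
      rw [← integral_const_mul, ← integral_add i1 (i2.const_mul _)]
      exact integral_congr_ae (ae_of_all _ fun y => by simp [hA]; ring)
    have e2 : repelRest χ f x = ipN A (slice 0 f x) - amp χ f x * repelShift χ x := by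
      simp only [repelRest, repelShift, ipN, perp]
      rw [← integral_const_mul, ← integral_sub i1 (i3.const_mul _)]
      exact integral_congr_ae (ae_of_all _ fun y => by simp [hA]; ring)
    rw [e1, e2]; ring
  · have h := abs_ipN_le hA2 hχ
    rw [hn1, mul_one] at h
    exact h.trans (hWf x hr)
  · exact (abs_ipN_le hA2 hp).trans (mul_le_mul_of_nonneg_right (hWf x hr) (Real.sqrt_nonneg _))

/-- A continuous amplitude: representative, bounds, oddness and nearness to `-u / √2`. -/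
lemma amp_rep {l : ℝ} {g u : Space → ℝ} {Dg Du : Fin 3 → Space → ℝ} {eg eu e' : ℝ}
    (Z : ZeroOrder l g u Dg Du eg eu e') (C : ℝ) (hA : AmpStmt) {Q hi K Kr U₀ : ℝ}
    (hQ1 : 1 ≤ Q) (hQl : 2 * |l| ≤ Q) (hK : 0 ≤ K) (hKr : 0 ≤ Kr) (hU₀ : 0 ≤ U₀)
    (uc : Space → ℝ) (huc : Continuous uc) (hue : u =ᵐ[volume] uc)
    (hodd : ∀ x, uc (mirror x) = -uc x) :
    ∃ Kd Kl : ℝ, 0 ≤ Kd ∧ 0 ≤ Kl ∧ ∀ lam ∈ Set.Ioo (0 : ℝ) 1,
      ∀ E3 f D E2 χ Dχ Es χs Ds Et χt Dt,
      MolState l lam C g u Dg Du eg eu E3 f D E2 χ Dχ Es χs Ds Et χt Dt →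
      0 ≤ E2 - E3 → E2 - E3 ≤ hi ^ 2 / 2 → |E2 - E3 + eu| ≤ K * lam →
      (∀ᵐ x : Space, |ipN (fun y => repel x y * χ y) (slice 0 f x)| ≤ Kr * uTot f x) →
      (∀ᵐ x : Space, x ∈ Ext Q → uTot f x ≤ U₀) →
      ∃ d : Space → ℝ, ContinuousOn d (Ext Q) ∧
        (amp χ f) =ᵐ[volume.restrict (Ext Q)] d ∧
        WeakPoisson (Ext Q) d (fun x => 2 * ((E2 - E3 - attract l x) * amp χ f x +
          lam * ipN (fun y => repel x y * χ y) (slice 0 f x))) ∧
        (∀ x ∈ Ext Q, d (mirror x) = -d x) ∧ (∀ x ∈ Ext Q, |d x| ≤ U₀) ∧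
        (∀ x : Space, Q + 3 < ‖x‖ → |d x| ≤ Kd * |height x|) ∧
        ∀ x : Space, Q + 6 < ‖x‖ →
          |d x + (√2)⁻¹ * uc x| ≤ Kl * Real.sqrt lam * |height x| := by
  set M := hi ^ 2 / 2 + (2 + 4 * |l|) with hM
  have hM0 : 0 ≤ M := by positivity
  set M' := |eu| + (2 + 4 * |l|) with hM'
  have hM'0 : 0 ≤ M' := by positivity
  obtain ⟨Cs, hCs, hsup⟩ := sup_ext hM'0
  set η₀ := Cs * (2 * Real.sqrt |C| + K + Kr) with hη₀
  have hη : 0 ≤ η₀ := by positivity
  refine ⟨2 * (2 * U₀ + 2 * ((M + Kr) * U₀)),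
    2 * (2 * η₀ + 2 * (M' * η₀ + (K + Kr) * U₀)), by positivity, by positivity, ?_⟩
  intro lam hlam E3 f D E2 χ Dχ Es χs Ds Et χt Dt hst hE0 hE1 hEu hq hU
  obtain ⟨hl0, hl1⟩ := hlam
  set q0 : Space → ℝ := fun x => ipN (fun y => repel x y * χ y) (slice 0 f x)
  set hf0 : Space → ℝ := fun x => 2 * ((E2 - E3 - attract l x) * amp χ f x + lam * q0 x) with hhf
  have hf : MemLp f 2 := hst.three.lowest.lim.1
  have hχ : MemLp χ 2 := hst.ion.lowest.lim.1
  have hf1 : ∫ z, f z ^ 2 = 1 := hst.three.lowest.mass_one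
  have hχ1 : ∫ y, χ y ^ 2 = 1 := hst.ion.lowest.mass_one
  have hχi : ipN χ χ = 1 := by simpa [ipN, sq] using hχ1
  have hfi : ipN f f = 1 := by simpa [ipN, sq] using hf1
  have hg2 : MemLp g 2 := Z.g_lim.1
  have hu2 : MemLp u 2 := Z.u_lim.1
  have hT2 : MemLp (uTot f) 2 := memLp_slice_norm hf 0
  have hamp2 : MemLp (amp χ f) 2 := (ampAt_sq_le 0 hχ hf).2.1
  have hle := ae_amp_le hf hχ hχ1
  have hU' := isOpen_ext Q
  have hwp := (hA l lam E3 f D hl0.le hst.three.lowest _ E2 χ Dχ hst.ion.lowest 0).mono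
    (Set.subset_univ (Ext Q))
  have hatt : ∀ x ∈ Ext Q, |attract l x| ≤ 2 + 4 * |l| := fun x hx =>
    (far_facts hQ1 hQl hx).2.2.1.trans (far_facts hQ1 hQl hx).2.2.2.1
  have hmb : ∀ x ∈ Ext Q, |E2 - E3 - attract l x| ≤ M := fun x hx => by
    refine (abs_sub _ _).trans (add_le_add ?_ (hatt x hx))
    rw [abs_of_nonneg hE0]; exact hE1
  have hmb' : ∀ x ∈ Ext Q, |-eu - attract l x| ≤ M' := fun x hx =>
    (abs_sub _ _).trans (add_le_add (by rw [abs_neg]) (hatt x hx))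
  have hb : ∀ᵐ x, x ∈ Ext Q → |amp χ f x| ≤ U₀ ∧ |q0 x| ≤ Kr * U₀ := by
    filter_upwards [hle, hq, hU] with x h1 h2 h3 hx
    exact ⟨h1.1.trans (h3 hx), h2.trans (mul_le_mul_of_nonneg_left (h3 hx) hKr)⟩
  have hloc : LocMemLp 2 (Ext Q) hf0 := by
    intro K' hK' hK'U
    refine MemLp.of_le (((hamp2.norm.const_mul M).add (hT2.norm.const_mul Kr)).const_mul 2
      |>.mono_measure Measure.restrict_le_self)
      (hwp.2.1.aestronglyMeasurable.mono_measure (Measure.restrict_mono hK'U le_rfl)) ?_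
    filter_upwards [ae_restrict_of_ae hq, ae_restrict_mem hK'.measurableSet] with x hx hxK
    have e1 : |(E2 - E3 - attract l x) * amp χ f x| ≤ M * |amp χ f x| := by
      rw [abs_mul]; exact mul_le_mul_of_nonneg_right (hmb x (hK'U hxK)) (abs_nonneg _)
    have e2 : |lam * q0 x| ≤ Kr * |uTot f x| := by
      rw [abs_mul, abs_of_pos hl0]
      exact (mul_le_of_le_one_left (abs_nonneg _) hl1.le).trans
        (hx.trans (mul_le_mul_of_nonneg_left (le_abs_self _) hKr))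
    simp only [hhf, Pi.add_apply, Real.norm_eq_abs]
    rw [abs_mul, abs_two, abs_of_nonneg (show (0 : ℝ) ≤ 2 * (M * |amp χ f x| + Kr * |uTot f x|) by
      positivity)]
    exact mul_le_mul_of_nonneg_left ((abs_add_le _ _).trans (add_le_add e1 e2)) zero_le_two
  obtain ⟨d, hdc, hde⟩ := exists_continuous_rep hU' hwp hloc
  have hde' : ∀ᵐ x, x ∈ Ext Q → amp χ f x = d x :=
    (ae_restrict_iff' hU'.measurableSet).1 hde
  have hwd : WeakPoisson (Ext Q) d hf0 := hwp.congr_ae hU' hde .rfl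
  have hdb : ∀ x ∈ Ext Q, |d x| ≤ U₀ := fun x hx =>
    le_on_open hU' hdc.abs continuousOn_const
      (by filter_upwards [hb, hde'] with y h1 h2 hy; rw [← h2 hy]; exact (h1 hy).1) hx
  have hmir : ∀ x ∈ Ext Q, mirror x ∈ Ext Q := fun x hx => by
    show Q < ‖mirror x‖
    rw [norm_mirror]; exact hx
  have hdo : ∀ x ∈ Ext Q, d (mirror x) = -d x := by
    have h1 : (fun x => d (mirror x)) =ᵐ[volume.restrict (Ext Q)] fun x => -d x := by
      refine (ae_restrict_iff' hU'.measurableSet).2 ?_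
      have hodd3 : ∀ᵐ z : Cfg 3, f (fun j => mirror (z j)) = -1 * f z :=
        hst.three.odd.mono fun z hz => by rw [hz]; ring
      filter_upwards [ampAt_mirror 0 (τ := 1) (σ := -1) hst.ion.parity hodd3, hde',
        One.measurePreserving_mirror.quasiMeasurePreserving.ae hde'] with x h1 h2 h3 hx
      rw [← h3 (hmir x hx), ← h2 hx]
      simpa [amp] using h1
    exact fun x hx => Measure.eqOn_open_of_ae_eq h1 hU'
      (hdc.comp continuous_mirror.continuousOn hmir) hdc.neg hx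
  have hhd : ∀ᵐ x, x ∈ Ext Q → |hf0 x| ≤ 2 * ((M + Kr) * U₀) := by
    filter_upwards [hb] with x hx hxQ
    obtain ⟨b1, b2⟩ := hx hxQ
    simp only [hhf]
    rw [abs_mul, abs_two]
    refine mul_le_mul_of_nonneg_left ((abs_add_le _ _).trans ?_) zero_le_two
    rw [abs_mul, abs_mul, abs_of_pos hl0, add_mul]
    exact add_le_add (mul_le_mul (hmb x hxQ) b1 (abs_nonneg _) hM0)
      ((mul_le_of_le_one_left (abs_nonneg _) hl1.le).trans b2)
  refine ⟨d, hdc, hde, hwd, hdo, hdb, fun x hx =>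
    abs_le_linear (by positivity) hU₀ hdc hwd hhd hdb hdo hx, fun x hx => ?_⟩
  -- nearness to the state without repulsion
  obtain ⟨mgg, egg⟩ := memLp_prod2 hg2 hg2
  have hG1 : ipN (prod2 g g) (prod2 g g) = 1 := by
    rw [egg hg2 hg2]
    have : ∫ x, g x * g x = 1 := by simpa [sq] using Z.g_mass
    rw [this, one_mul]
  set dd : Space → ℝ := fun x => amp χ f x + (√2)⁻¹ * u x with hdd
  have hdd2 : MemLp dd 2 := hamp2.add (hu2.const_mul _)
  have hclose : ∫ x, dd x ^ 2 ≤ 4 * |C| * lam := by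
    have h := ampAt_close 0 hχ mgg hf (memLp_zero3 hg2 hu2)
    have e : ∀ x, amp χ f x - ampAt 0 (prod2 g g) (zero3 g u) x = dd x := fun x => by
      rw [(ampAt_zero3 hg2 hu2 Z.g_mass Z.u_mass (orth_levels Z) x).1, hdd]; ring
    simp only [amp] at e
    simp only [e, hfi, hG1, mul_one, one_mul] at h
    have c1 : ipN (fun y => χ y - prod2 g g y) (fun y => χ y - prod2 g g y) ≤ C * lam := by
      simpa [ipN, sq] using hst.ion.close
    have c2 : ipN (fun z => f z - zero3 g u z) (fun z => f z - zero3 g u z) ≤ C * lam := by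
      simpa [ipN, sq] using hst.three.close
    have : C * lam ≤ |C| * lam := mul_le_mul_of_nonneg_right (le_abs_self C) hl0.le
    linarith
  set m0 : Space → ℝ := fun x => -eu - attract l x
  set S0 : Space → ℝ := fun x => -((E2 - E3 + eu) * amp χ f x + lam * q0 x) with hS0
  set hD : Space → ℝ := fun x => 2 * (m0 x * dd x - S0 x) with hhD
  have equ := (weakPoisson_level (isH1_of_oneLim Z.u_lim) Z.u_weak).mono (Set.subset_univ (Ext Q))
  have hwD : WeakPoisson (Ext Q) dd hD := by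
    refine (hwp.add (equ.const_mul (√2)⁻¹)).congr_ae hU' .rfl (Eventually.of_forall fun x => ?_)
    simp only [hhD, hS0, hdd, m0, q0, amp]
    ring
  have hS0b : ∀ᵐ x : Space, |S0 x| ≤ lam * (K + Kr) * uTot f x := by
    filter_upwards [hle, hq] with x h1 h2
    rw [hS0, abs_neg]
    refine (abs_add_le _ _).trans ?_
    rw [abs_mul, abs_mul, abs_of_pos hl0]
    have := mul_le_mul hEu h1.1 (abs_nonneg _) (by positivity)
    have := mul_le_mul_of_nonneg_left h2 hl0.le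
    linarith
  have hS2 : MemLp S0 2 (volume.restrict (Ext Q)) := by
    have hm : AEStronglyMeasurable S0 (volume.restrict (Ext Q)) := by
      have h1 : AEStronglyMeasurable (fun x => lam * q0 x) (volume.restrict (Ext Q)) := by
        have e : (fun x => lam * q0 x) =
            fun x => 1 / 2 * hf0 x - (E2 - E3 - attract l x) * amp χ f x := by
          funext x; simp only [hhf]; ring
        rw [e]
        exact (hwp.2.1.aestronglyMeasurable.const_mul _).sub
          (((measurable_attract l).const_sub (E2 - E3)).aestronglyMeasurable.mul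
            hamp2.1.restrict)
      exact ((hamp2.1.restrict.const_mul _).add h1).neg
    refine MemLp.of_le ((hT2.const_mul (lam * (K + Kr))).mono_measure Measure.restrict_le_self) hm ?_
    filter_upwards [ae_restrict_of_ae hS0b] with y hy
    rw [Real.norm_eq_abs, Real.norm_eq_abs]
    exact hy.trans (le_abs_self _)
  have hbd : ∀ᵐ y, y ∈ Ext (Q + 3) → |dd y| ≤ η₀ * Real.sqrt lam := by
    have hSn : Real.sqrt (∫ y in Ext Q, S0 y ^ 2) ≤ (K + Kr) * Real.sqrt lam := by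
      have h1 : ∫ y in Ext Q, S0 y ^ 2 ≤ ((K + Kr) * Real.sqrt lam) ^ 2 := by
        calc ∫ y in Ext Q, S0 y ^ 2 ≤ ∫ y in Ext Q, (lam * (K + Kr)) ^ 2 * uTot f y ^ 2 := by
              refine integral_mono_ae hS2.integrable_sq
                ((hT2.integrable_sq.const_mul _).integrableOn) ?_
              filter_upwards [ae_restrict_of_ae hS0b] with y hy
              rw [← mul_pow, ← sq_abs]
              exact pow_le_pow_left₀ (abs_nonneg _) hy 2
          _ ≤ ∫ y, (lam * (K + Kr)) ^ 2 * uTot f y ^ 2 :=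
              setIntegral_le_integral (hT2.integrable_sq.const_mul _)
                (ae_of_all _ fun y => by positivity)
          _ = (lam * (K + Kr)) ^ 2 := by
              rw [integral_const_mul]
              simp only [uTot]
              rw [integral_sq_slice hf 0, hf1, mul_one]
          _ ≤ ((K + Kr) * Real.sqrt lam) ^ 2 := by
              rw [mul_pow, mul_pow, Real.sq_sqrt hl0.le, mul_comm]
              exact mul_le_mul_of_nonneg_left (by nlinarith) (sq_nonneg _)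
      exact (Real.sqrt_le_sqrt h1).trans_eq (Real.sqrt_sq (by positivity))
    have hdn : Real.sqrt (∫ y in Ext Q, dd y ^ 2) ≤ 2 * Real.sqrt |C| * Real.sqrt lam := by
      refine (Real.sqrt_le_sqrt ((setIntegral_le_integral hdd2.integrable_sq
        (ae_of_all _ fun y => sq_nonneg _)).trans hclose)).trans_eq ?_
      rw [show 4 * |C| * lam = (2 * Real.sqrt |C| * Real.sqrt lam) ^ 2 by
        rw [mul_pow, mul_pow, Real.sq_sqrt (abs_nonneg C), Real.sq_sqrt hl0.le]; ring]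
      exact Real.sqrt_sq (by positivity)
    have htot : Cs * (Real.sqrt (∫ y in Ext Q, dd y ^ 2) + Real.sqrt (∫ y in Ext Q, S0 y ^ 2)) ≤
        η₀ * Real.sqrt lam := by
      refine (mul_le_mul_of_nonneg_left (add_le_add hdn hSn) hCs).trans_eq ?_
      rw [hη₀]; ring
    have h1 := (hsup Q dd m0 S0 hwD.toSub (ae_of_all _ hmb') (hdd2.restrict _) hS2).1
    have hneg : WeakSubPoisson (Ext Q) (fun y => -1 * dd y)
        fun y => 2 * (m0 y * (-1 * dd y) - -1 * S0 y) :=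
      ((hwD.const_mul (-1)).congr_ae hU' .rfl
        (Eventually.of_forall fun y => by simp only [hhD]; ring)).toSub
    have h2 := (hsup Q _ m0 (fun y => -1 * S0 y) hneg (ae_of_all _ hmb')
      ((hdd2.const_mul (-1)).restrict _) (hS2.const_mul (-1))).1
    filter_upwards [h1, h2] with y a1 a2 hy
    have e1 := a2 hy
    simp only [neg_one_mul, neg_sq] at e1
    exact abs_le.2 ⟨by linarith, (a1 hy).trans htot⟩
  have hsub : Ext (Q + 3) ⊆ Ext Q := ext_mono (by linarith)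
  have hc : ContinuousOn (fun y => d y + (√2)⁻¹ * uc y) (Ext (Q + 3)) :=
    (hdc.mono hsub).add (continuousOn_const.mul huc.continuousOn)
  have heq : dd =ᵐ[volume.restrict (Ext (Q + 3))] fun y => d y + (√2)⁻¹ * uc y := by
    refine (ae_restrict_iff' (isOpen_ext _).measurableSet).2 ?_
    filter_upwards [hde', hue] with y a1 a2 hy
    rw [hdd]; simp only; rw [a1 (hsub hy), a2]
  have h := abs_le_linear (R := Q + 3)
    (A := 2 * (M' * η₀ + (K + Kr) * U₀) * Real.sqrt lam) (A₀ := η₀ * Real.sqrt lam)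
    (f := fun y => d y + (√2)⁻¹ * uc y) (h := hD) (by positivity) (by positivity) hc
    ((hwD.mono hsub).congr_ae (isOpen_ext _) heq .rfl) ?_ ?_ ?_ (x := x) (by linarith)
  · refine h.trans_eq ?_; ring
  · have hls : lam ≤ Real.sqrt lam :=
      Real.le_sqrt_of_sq_le (by nlinarith)
    filter_upwards [hbd, hS0b, hU] with y a1 a2 a3 hy
    simp only [hhD]
    rw [abs_mul, abs_two, mul_assoc]
    refine mul_le_mul_of_nonneg_left ((abs_sub _ _).trans ?_) zero_le_two
    rw [abs_mul, add_mul]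
    refine add_le_add ?_ ?_
    · rw [mul_assoc]; exact mul_le_mul (hmb' y (hsub hy)) (a1 hy) (abs_nonneg _) hM'0
    · calc |S0 y| ≤ lam * (K + Kr) * U₀ :=
            a2.trans (mul_le_mul_of_nonneg_left (a3 (hsub hy)) (by positivity))
        _ ≤ Real.sqrt lam * (K + Kr) * U₀ := by gcongr
        _ = _ := by ring
  · intro y hy
    exact le_on_open (isOpen_ext _) hc.abs continuousOn_const
      (by
        filter_upwards [hbd, (ae_restrict_iff' (isOpen_ext _).measurableSet).1 heq] with w a1 a2 hw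
        rw [← a2 hw]; exact a1 hw) hy
  · intro y hy
    simp only [hdo y (hsub hy), hodd y]
    ring

/-- The comparison in the upper half of the outside of a ball. -/
lemma compare_half {R : ℝ} {f h : Space → ℝ} (hf : ContinuousOn f {x | R ≤ ‖x‖})
    (he : WeakSubPoisson {x | R < ‖x‖ ∧ 0 < height x} f h)
    (hh : ∀ᵐ x, x ∈ {x : Space | R < ‖x‖ ∧ 0 < height x} → 0 < f x → 0 ≤ h x)
    (hb : ∀ x, R ≤ ‖x‖ → 0 ≤ height x → (‖x‖ = R ∨ height x = 0) → f x ≤ 0)
    (hinf : ∀ ε > 0, ∃ r : ℝ, ∀ x, R < ‖x‖ → 0 < height x → r ≤ ‖x‖ → f x ≤ ε)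
    {x : Space} (hx : R < ‖x‖) (hz : 0 < height x) : f x ≤ 0 := by
  have hU : IsOpen {x : Space | R < ‖x‖ ∧ 0 < height x} :=
    (isOpen_lt continuous_const continuous_norm).inter
      (isOpen_lt continuous_const continuous_height)
  have hcl : closure {x : Space | R < ‖x‖ ∧ 0 < height x} ⊆ {x | R ≤ ‖x‖ ∧ 0 ≤ height x} :=
    closure_minimal (fun y hy => ⟨hy.1.le, hy.2.le⟩)
      ((isClosed_le continuous_const continuous_norm).inter
        (isClosed_le continuous_const continuous_height))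
  refine maxCont _ f h hU (hf.mono fun y hy => (hcl hy).1) he hh (fun y hy => ?_)
    (fun ε hε => ?_) x (subset_closure ⟨hx, hz⟩)
  · obtain ⟨a1, a2⟩ := hcl (frontier_subset_closure hy)
    refine hb y a1 a2 ?_
    by_contra hn
    push Not at hn
    exact hy.2 (by rw [hU.interior_eq]; exact ⟨a1.lt_of_ne hn.1.symm, a2.lt_of_ne hn.2.symm⟩)
  · obtain ⟨r, hr⟩ := hinf ε hε
    exact ⟨r, fun y hy hyr => hr y hy.1 hy.2 hyr⟩

lemma powExp_sub_three (β a : ℝ) {r : ℝ} (hr : 0 < r) :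
    powExp (β - 3) a r = powExp β a r / r ^ 3 := by
  rw [powExp_eq_mul (β - 3) β a hr, show β - 3 - β = -((3 : ℕ) : ℝ) by push_cast; ring,
    Real.rpow_neg hr.le, Real.rpow_natCast]
  ring

lemma height_le_norm (x : Space) : |height x| ≤ ‖x‖ := by
  simpa [height] using PiLp.norm_apply_le x 2

lemma mul_powExp_succ (β a : ℝ) {r : ℝ} (hr : 0 < r) :
    r * powExp β a r = powExp (β + 1) a r := by
  rw [powExp_eq_mul (β + 1) β a hr, add_sub_cancel_left, Real.rpow_one]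

/-- The equation of the amplitude with the far field potential. -/
lemma amp_facts {l lo Q R RD Kr KD' Ce δ lam a β L K' E2 E3 : ℝ} {f : Cfg 3 → ℝ}
    {χ : Cfg 2 → ℝ} {d : Space → ℝ} (hQ1 : 1 ≤ Q) (hQl : 2 * |l| ≤ Q) (hQD : RD ≤ Q)
    (hQR : Q < R) (hlo : 0 < lo) (haLo : lo ≤ a) (hRL : 2 * (2 + L) / lo ^ 2 ≤ R)
    (hl0 : 0 ≤ lam) (hl1 : lam ≤ 1) (hKr : 0 ≤ Kr) (hKD : 0 ≤ KD') (hL : L = 4 * |l| + Kr)
    (hK' : K' = Kr * KD' * (1 + Ce)) (ha2 : a ^ 2 / 2 = E2 - E3)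
    (hsplit : ∀ᵐ x : Space, 1 ≤ ‖x‖ →
        ipN (fun y => repel x y * χ y) (slice 0 f x) =
          (2 / ‖x‖ + repelShift χ x) * amp χ f x + repelRest χ f x ∧
        |repelShift χ x| ≤ Kr / ‖x‖ ^ 2 ∧ |repelRest χ f x| ≤ Kr / ‖x‖ ^ 2 * uPerp χ f x)
    (hde : ∀ᵐ x, x ∈ Ext Q → amp χ f x = d x)
    (hPerp : ∀ᵐ x : Space, RD ≤ ‖x‖ → uPerp χ f x ≤
      KD' * (lam / ‖x‖ * powExp β a ‖x‖ + Real.exp (-((a + δ) * ‖x‖))))
    (he : ∀ r : ℝ, 1 ≤ r → Real.exp (-((a + δ) * r)) ≤ Ce * powExp (β - 1) a r) :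
    ∀ᵐ x, R < ‖x‖ → ∃ m q : ℝ,
      (2 * ((E2 - E3 - attract l x) * amp χ f x +
        lam * ipN (fun y => repel x y * χ y) (slice 0 f x)) = 2 * (m * d x + lam * q)) ∧
      a ^ 2 / 2 - (2 - 2 * lam) / ‖x‖ - L / ‖x‖ ^ 2 ≤ m ∧
      m ≤ a ^ 2 / 2 - (2 - 2 * lam) / ‖x‖ + L / ‖x‖ ^ 2 ∧ 0 ≤ m ∧
      |q| ≤ K' * powExp (β - 3) a ‖x‖ := by
  filter_upwards [hsplit, hde, hPerp] with x hs hd hp hxR
  have hr1 : 1 ≤ ‖x‖ := by linarith
  have hr0 : 0 < ‖x‖ := by linarith
  have hxQ : x ∈ Ext Q := show Q < ‖x‖ by linarith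
  obtain ⟨e, hsh, hrest⟩ := hs hr1
  obtain ⟨-, hatt, -⟩ := far_facts hQ1 hQl hxQ
  obtain ⟨a1, a2⟩ := abs_le.1 hatt
  have hls : |lam * repelShift χ x| ≤ Kr / ‖x‖ ^ 2 := by
    rw [abs_mul, abs_of_nonneg hl0]
    exact (mul_le_of_le_one_left (abs_nonneg _) hl1).trans hsh
  obtain ⟨b1, b2⟩ := abs_le.1 hls
  have eL : L / ‖x‖ ^ 2 = 4 * |l| / ‖x‖ ^ 2 + Kr / ‖x‖ ^ 2 := by rw [hL, add_div]
  have ek : (2 - 2 * lam) / ‖x‖ = 2 / ‖x‖ - 2 * lam / ‖x‖ := sub_div _ _ _
  set m := E2 - E3 - attract l x + 2 * lam / ‖x‖ + lam * repelShift χ x with hm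
  have hlow : a ^ 2 / 2 - (2 - 2 * lam) / ‖x‖ - L / ‖x‖ ^ 2 ≤ m := by linarith
  refine ⟨m, repelRest χ f x, ?_, hlow, by linarith, le_trans ?_ hlow, ?_⟩
  · rw [e, hd hxQ, hm]; ring
  · have h1 : 2 * (2 + L) / lo ^ 2 ≤ ‖x‖ := hRL.trans hxR.le
    rw [div_le_iff₀ (by positivity)] at h1
    have hL0 : 0 ≤ L := by rw [hL]; positivity
    have h2 : (2 - 2 * lam) / ‖x‖ + L / ‖x‖ ^ 2 ≤ (2 + L) / ‖x‖ := by
      rw [add_div]
      refine add_le_add (div_le_div_of_nonneg_right (by linarith) hr0.le)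
        (div_le_div_of_nonneg_left hL0 hr0 (by nlinarith))
    have h3 : (2 + L) / ‖x‖ ≤ a ^ 2 / 2 := by
      rw [div_le_iff₀ hr0]
      nlinarith [mul_le_mul_of_nonneg_right (pow_le_pow_left₀ hlo.le haLo 2) hr0.le]
    linarith
  · refine hrest.trans ?_
    have hP := powExp_pos β a hr0
    have he1 := he ‖x‖ hr1
    have e1 : powExp (β - 1) a ‖x‖ = powExp β a ‖x‖ / ‖x‖ := by
      rw [powExp_eq_mul (β - 1) β a hr0, show β - 1 - β = (-1 : ℝ) by ring, Real.rpow_neg_one]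
      ring
    have h1 : lam / ‖x‖ * powExp β a ‖x‖ + Real.exp (-((a + δ) * ‖x‖)) ≤
        (1 + Ce) * (powExp β a ‖x‖ / ‖x‖) := by
      have h2 : lam / ‖x‖ * powExp β a ‖x‖ ≤ powExp β a ‖x‖ / ‖x‖ := by
        rw [div_mul_eq_mul_div]
        exact div_le_div_of_nonneg_right (mul_le_of_le_one_left hP.le hl1) hr0.le
      rw [e1] at he1
      linarith
    calc Kr / ‖x‖ ^ 2 * uPerp χ f x
        ≤ Kr / ‖x‖ ^ 2 * (KD' * ((1 + Ce) * (powExp β a ‖x‖ / ‖x‖))) :=
          mul_le_mul_of_nonneg_left ((hp (by linarith)).trans (mul_le_mul_of_nonneg_left h1 hKD))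
            (div_nonneg hKr (sq_nonneg _))
      _ = _ := by rw [powExp_sub_three β a hr0, hK']; field_simp

/-- The barriers on the sphere of radius `R`. -/
lemma amp_sphere {R c0 c K Kd Kl N hi lam a β M : ℝ} {d uc : Space → ℝ} {x : Space}
    (hR : 4 ≤ R) (hc0 : 0 < c0) (hc : c = c0 / (2 * √2 * (2 * R ^ N))) (hKl : 0 ≤ Kl)
    (hK : 2 * Kd / powExp (-N) hi R ≤ K) (hK0 : 0 ≤ K) (hM : 0 ≤ M) (hl0 : 0 ≤ lam)
    (hl1 : lam ≤ (c0 / (2 * √2 * (Kl + 1))) ^ 2) (ha : 0 ≤ a) (haHi : a ≤ hi)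
    (hb : |β| ≤ N) (hxR : ‖x‖ = R) (hxz : 0 ≤ height x)
    (hul : c0 * height x ≤ uc x) (hdlin : |d x| ≤ Kd * |height x|)
    (hdu : |d x + (√2)⁻¹ * uc x| ≤ Kl * Real.sqrt lam * |height x|)
    (hup : K / 2 * (height x * powExp β a ‖x‖) ≤ upBar K M lam β a x) :
    lowBar c M lam β a x + d x ≤ 0 ∧ -d x ≤ upBar K M lam β a x := by
  obtain ⟨b1, b2, -, -⟩ := leadBar_bounds β a (x := x) (hR.trans hxR.ge) hxz
  obtain ⟨c1, -⟩ := corrBar_bounds β a (x := x) (by linarith) hxz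
  rw [abs_of_nonneg hxz] at hdu hdlin
  have hR1 : 1 ≤ R := by linarith
  have hRN : 0 < R ^ N := Real.rpow_pos_of_pos (by linarith) N
  have hcpos : 0 < c := by rw [hc]; positivity
  have hPle : powExp β a ‖x‖ ≤ R ^ N := by
    rw [hxR]
    refine (mul_le_of_le_one_right (Real.rpow_nonneg (by linarith) _)
      (Real.exp_le_one_iff.2 (by nlinarith))).trans
      (Real.rpow_le_rpow_of_exponent_le hR1 (by linarith [le_abs_self β]))
  have hPge : powExp (-N) hi R ≤ powExp β a ‖x‖ := by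
    rw [hxR]
    exact powExp_lower hb haHi (ha.trans haHi) hR1 le_rfl
  have hP0pos : 0 < powExp (-N) hi R := powExp_pos _ _ (by linarith)
  have hsl : Kl * Real.sqrt lam ≤ c0 / (2 * √2) := by
    have h1 : Real.sqrt lam ≤ c0 / (2 * √2 * (Kl + 1)) :=
      (Real.sqrt_le_sqrt hl1).trans_eq (Real.sqrt_sq (by positivity))
    calc Kl * Real.sqrt lam ≤ (Kl + 1) * (c0 / (2 * √2 * (Kl + 1))) :=
          mul_le_mul (by linarith) h1 (Real.sqrt_nonneg _) (by linarith)
      _ = _ := by field_simp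
  constructor
  · simp only [lowBar]
    have h1 := (abs_le.1 hdu).2
    have h2 := mul_le_mul_of_nonneg_left hul (show (0 : ℝ) ≤ (√2)⁻¹ by positivity)
    have h3 := mul_le_mul_of_nonneg_right hsl hxz
    have h4 := mul_le_mul_of_nonneg_left b2 hcpos.le
    have h5 : c * (2 * (height x * powExp β a ‖x‖)) ≤ c * (2 * (height x * R ^ N)) := by gcongr
    have h6 : c * (2 * (height x * R ^ N)) = c0 / (2 * √2) * height x := by
      rw [hc]; field_simp
    have h7 : (√2)⁻¹ * (c0 * height x) = 2 * (c0 / (2 * √2) * height x) := by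
      field_simp
    have := mul_nonneg (show 0 ≤ M * lam by positivity) c1
    linarith
  · refine le_trans ?_ hup
    have h1 : Kd * height x ≤ K / 2 * powExp (-N) hi R * height x := by
      refine mul_le_mul_of_nonneg_right ?_ hxz
      rw [div_le_iff₀ hP0pos] at hK
      linarith
    have h2 : K / 2 * powExp (-N) hi R * height x ≤ K / 2 * (height x * powExp β a ‖x‖) := by
      rw [mul_assoc, mul_comm (powExp (-N) hi R)]
      gcongr
    linarith [(abs_le.1 hdlin).1]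

/-- The amplitude between the two barriers in the upper half space. -/
lemma amp_compare {R c K M lam β a k L K' : ℝ} {d S : Space → ℝ} (hR : 4 ≤ R)
    (hl0 : 0 ≤ lam) (hc : 0 < c) (hcK : c ≤ K)
    (hbar : ∀ x : Space, R ≤ ‖x‖ → 0 ≤ height x →
      (M * lam ≤ c / 2 ∧ c / 2 * (height x * powExp β a ‖x‖) ≤ lowBar c M lam β a x) ∧
      ∀ m : ℝ, (a ^ 2 / 2 - k / ‖x‖ - L / ‖x‖ ^ 2 ≤ m → m ≤ a ^ 2 / 2 - k / ‖x‖ + L / ‖x‖ ^ 2 →
          2 * m * lowBar c M lam β a x + 2 * lam * K' * powExp (β - 3) a ‖x‖ ≤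
            lap (lowBar c M lam β a) x) ∧
        (K / 2 * (height x * powExp β a ‖x‖) ≤ upBar K M lam β a x ∧
          (a ^ 2 / 2 - k / ‖x‖ - L / ‖x‖ ^ 2 ≤ m →
            lap (upBar K M lam β a) x ≤
              2 * m * upBar K M lam β a x - 2 * lam * K' * powExp (β - 3) a ‖x‖)))
    (hM : 0 ≤ M) (hdc : ContinuousOn d {x | R ≤ ‖x‖})
    (hwd : WeakPoisson {x : Space | R < ‖x‖ ∧ 0 < height x} d S)
    (hfacts : ∀ᵐ x, R < ‖x‖ → ∃ m q : ℝ, S x = 2 * (m * d x + lam * q) ∧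
      a ^ 2 / 2 - k / ‖x‖ - L / ‖x‖ ^ 2 ≤ m ∧
      m ≤ a ^ 2 / 2 - k / ‖x‖ + L / ‖x‖ ^ 2 ∧ 0 ≤ m ∧ |q| ≤ K' * powExp (β - 3) a ‖x‖)
    (hsphere : ∀ x : Space, ‖x‖ = R → 0 ≤ height x →
      lowBar c M lam β a x + d x ≤ 0 ∧ -d x ≤ upBar K M lam β a x)
    (hd0 : ∀ x : Space, R ≤ ‖x‖ → height x = 0 → d x = 0)
    (hfar : ∀ ε > 0, ∃ r : ℝ, ∀ x, R < ‖x‖ → 0 ≤ height x → r ≤ ‖x‖ →
      |d x| ≤ ε / 2 ∧ 2 * K * (height x * powExp β a ‖x‖) ≤ ε / 2)
    {x : Space} (hx : R < ‖x‖) (hxz : 0 < height x) :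
    c / 2 * height x * powExp β a ‖x‖ ≤ -d x ∧
      -d x ≤ 2 * K * height x * powExp β a ‖x‖ := by
  have hbase : ∀ x : Space, R ≤ ‖x‖ → 0 ≤ height x →
      c / 2 * (height x * powExp β a ‖x‖) ≤ lowBar c M lam β a x ∧
      lowBar c M lam β a x ≤ 2 * K * (height x * powExp β a ‖x‖) ∧
      K / 2 * (height x * powExp β a ‖x‖) ≤ upBar K M lam β a x ∧
      upBar K M lam β a x ≤ 2 * K * (height x * powExp β a ‖x‖) := by
    intro x hx hxz
    obtain ⟨⟨hMl, hlow⟩, hh⟩ := hbar x hx hxz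
    obtain ⟨-, hu1, -⟩ := hh 0
    obtain ⟨b1, b2, b3, b4⟩ := leadBar_bounds β a (x := x) (hR.trans hx) hxz
    obtain ⟨c1, c2⟩ := corrBar_bounds β a (x := x) (by linarith) hxz
    have hP0 : 0 ≤ height x * powExp β a ‖x‖ :=
      mul_nonneg hxz (powExp_pos _ _ (by linarith)).le
    refine ⟨hlow, ?_, hu1, ?_⟩
    · simp only [lowBar]
      have := mul_nonneg (show 0 ≤ M * lam by positivity) c1
      have := mul_le_mul_of_nonneg_left b2 hc.le
      have := mul_le_mul_of_nonneg_right hcK hP0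
      linarith
    · simp only [upBar]
      have := mul_le_mul_of_nonneg_left b4 (hc.le.trans hcK)
      have := mul_le_mul_of_nonneg_left c2 (show 0 ≤ M * lam by positivity)
      have := mul_le_mul_of_nonneg_right (hMl.trans (show c / 2 ≤ K by linarith)) hP0
      linarith
  have hne : {x : Space | R ≤ ‖x‖} ⊆ {x | x ≠ 0} := fun x hx => by
    have : R ≤ ‖x‖ := hx
    exact norm_pos_iff.1 (by linarith)
  set H : Set Space := {x : Space | R < ‖x‖ ∧ 0 < height x}
  have hHo : IsOpen H := (isOpen_lt continuous_const continuous_norm).inter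
    (isOpen_lt continuous_const continuous_height)
  have hHR : H ⊆ {x : Space | R ≤ ‖x‖} := fun x hx => hx.1.le
  have hlow : lowBar c M lam β a x + d x ≤ 0 := by
    refine compare_half (R := R)
      (((contDiffOn_lowBar c M lam β a).continuousOn.mono hne).add hdc)
      ((WeakPoisson.of_contDiffOn hHo ((contDiffOn_lowBar c M lam β a).mono
        (hHR.trans hne))).toSub.add hwd.toSub) ?_ (fun y hy hyz hor => ?_) (fun ε hε => ?_) hx hxz
    · filter_upwards [hfacts] with y hy hyH hpos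
      obtain ⟨m, q, e, m1, m2, m0, hq⟩ := hy hyH.1
      simp only [Pi.add_apply, Pi.mul_apply] at hpos
      have h1 := ((hbar y hyH.1.le hyH.2.le).2 m).1 m1 m2
      have h2 := mul_le_mul_of_nonneg_left (neg_le_of_abs_le hq) hl0
      have h3 := mul_nonneg m0 hpos.le
      show 0 ≤ lap (lowBar c M lam β a) y + S y
      rw [e]
      linarith
    · rcases hor with h | h
      · exact (hsphere y h hyz).1
      · simp [lowBar, leadBar, corrBar, h, hd0 y hy h]
    · obtain ⟨r, hr⟩ := hfar ε hε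
      refine ⟨r, fun y hy hyz hyr => ?_⟩
      obtain ⟨h1, h2⟩ := hr y hy hyz.le hyr
      obtain ⟨-, hlb, -, -⟩ := hbase y hy.le hyz.le
      show lowBar c M lam β a y + d y ≤ ε
      linarith [le_abs_self (d y)]
  have hup : -1 * upBar K M lam β a x + -1 * d x ≤ 0 := by
    refine compare_half (R := R)
      ((continuousOn_const.mul ((contDiffOn_upBar K M lam β a).continuousOn.mono hne)).add
        (continuousOn_const.mul hdc))
      (((WeakPoisson.of_contDiffOn hHo ((contDiffOn_upBar K M lam β a).mono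
        (hHR.trans hne))).const_mul (-1)).toSub.add (hwd.const_mul (-1)).toSub)
      ?_ (fun y hy hyz hor => ?_) (fun ε hε => ?_) hx hxz
    · filter_upwards [hfacts] with y hy hyH hpos
      obtain ⟨m, q, e, m1, m2, m0, hq⟩ := hy hyH.1
      simp only [Pi.add_apply, Pi.mul_apply] at hpos
      have h1 := ((hbar y hyH.1.le hyH.2.le).2 m).2.2 m1
      have h2 := mul_le_mul_of_nonneg_left ((le_abs_self _).trans hq) hl0
      have h3 := mul_nonneg m0 hpos.le
      show 0 ≤ -1 * lap (upBar K M lam β a) y + -1 * S y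
      rw [e]
      linarith
    · rcases hor with h | h
      · show -1 * upBar K M lam β a y + -1 * d y ≤ 0
        linarith [(hsphere y h hyz).2]
      · simp [upBar, leadBar, corrBar, h, hd0 y hy h]
    · obtain ⟨r, hr⟩ := hfar ε hε
      refine ⟨r, fun y hy hyz hyr => ?_⟩
      obtain ⟨h1, -⟩ := hr y hy hyz.le hyr
      obtain ⟨-, -, hu, -⟩ := hbase y hy.le hyz.le
      have : 0 ≤ K / 2 * (height y * powExp β a ‖y‖) :=
        mul_nonneg (by linarith) (mul_nonneg hyz.le (powExp_pos _ _ (by linarith)).le)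
      show -1 * upBar K M lam β a y + -1 * d y ≤ ε
      linarith [neg_abs_le (d y)]
  obtain ⟨b1, -, -, b4⟩ := hbase x hx.le hxz.le
  exact ⟨by linarith, by linarith⟩

/-- The amplitude and the barriers vanish at infinity. -/
lemma amp_far {R lo U₀ K Cg β a : ℝ} {d : Space → ℝ} (hlo : 0 < lo) (hU0 : 0 ≤ U₀) (hK : 0 ≤ K)
    (hCg : 0 ≤ Cg) (hd : ∀ x : Space, R < ‖x‖ → |d x| ≤ U₀ * Real.exp (-(lo / 2 * ‖x‖)))
    (hR1 : 1 ≤ R) (hexp : ∀ r : ℝ, 1 ≤ r → powExp (β + 1) a r ≤ Cg * Real.exp (-(lo / 2 * r))) :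
    ∀ ε > 0, ∃ r : ℝ, ∀ x, R < ‖x‖ → 0 ≤ height x → r ≤ ‖x‖ →
      |d x| ≤ ε / 2 ∧ 2 * K * (height x * powExp β a ‖x‖) ≤ ε / 2 := by
  intro ε hε
  have ht : Tendsto (fun r : ℝ => (U₀ + 2 * K * Cg) * Real.exp (-(lo / 2 * r))) atTop (𝓝 0) := by
    simpa using ((Real.tendsto_exp_neg_atTop_nhds_zero.comp
      (tendsto_id.const_mul_atTop (half_pos hlo))).const_mul (U₀ + 2 * K * Cg))
  obtain ⟨r₀, hr₀⟩ := eventually_atTop.1 (ht.eventually (gt_mem_nhds (half_pos hε)))
  refine ⟨r₀, fun x hxR hxz hxr => ?_⟩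
  have h1 := hr₀ ‖x‖ hxr
  have h2 : height x * powExp β a ‖x‖ ≤ Cg * Real.exp (-(lo / 2 * ‖x‖)) := by
    refine le_trans ?_ (hexp _ (by linarith))
    rw [← mul_powExp_succ β a (show 0 < ‖x‖ by linarith)]
    exact mul_le_mul_of_nonneg_right ((le_abs_self _).trans (height_le_norm x))
      (powExp_pos _ _ (by linarith)).le
  constructor
  · have := hd x hxR
    have : 0 ≤ 2 * K * Cg * Real.exp (-(lo / 2 * ‖x‖)) := by positivity
    linarith
  · have := mul_le_mul_of_nonneg_left h2 (show 0 ≤ 2 * K by linarith)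
    have : 0 ≤ U₀ * Real.exp (-(lo / 2 * ‖x‖)) := by positivity
    linarith

/-- From the upper half space to the whole outside by oddness. -/
lemma two_sided_of_half {R c K : ℝ} {d G : Space → ℝ} (hc : 0 < c)
    (hG : ∀ x : Space, R < ‖x‖ → 0 < G x) (hGm : ∀ x : Space, G (mirror x) = G x)
    (hodd : ∀ x : Space, R ≤ ‖x‖ → d (mirror x) = -d x)
    (hpos : ∀ x : Space, R < ‖x‖ → 0 < height x →
      c / 2 * height x * G x ≤ -d x ∧ -d x ≤ 2 * K * height x * G x)
    {x : Space} (hx : R < ‖x‖) :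
    d (mirror x) = -d x ∧ c / 2 * |height x| * G x ≤ |d x| ∧
      |d x| ≤ 2 * K * |height x| * G x ∧ (0 < height x → d x < 0) := by
  have ho := hodd x hx.le
  refine ⟨ho, ?_⟩
  rcases lt_trichotomy (height x) 0 with h | h | h
  · obtain ⟨p1, p2⟩ := hpos (mirror x) (by rwa [norm_mirror]) (by rw [height_mirror]; linarith)
    rw [ho, height_mirror, hGm, neg_neg] at p1 p2
    have : 0 < c / 2 * -height x * G x :=
      mul_pos (mul_pos (by positivity) (by linarith)) (hG x hx)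
    rw [abs_of_neg h, abs_of_pos (by linarith : 0 < d x)]
    exact ⟨p1, p2, fun hc => absurd hc (by linarith)⟩
  · rw [show mirror x = x by simp [mirror, h]] at ho
    have : d x = 0 := by linarith
    simp [h, this]
  · obtain ⟨p1, p2⟩ := hpos x hx h
    have : 0 < c / 2 * height x * G x := mul_pos (mul_pos (by positivity) h) (hG x hx)
    rw [abs_of_pos h, abs_of_neg (by linarith : d x < 0)]
    exact ⟨p1, p2, fun _ => by linarith⟩

theorem ampBound (hA : AmpStmt) (hRep : RepelStmt) (hDec : DecayStmt) : AmpBoundStmt := by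
  intro l g u Dg Du eg eu e' Z C
  obtain ⟨gc, uc, hz⟩ := zeroFacts Z
  obtain ⟨lam₁, lo, hi, N, Kp, hlam₁, hlam₁', hlo, hlohi, hN, hKp, hpar⟩ := params Z C
  obtain ⟨lam₂, εr, Kr₀, hlam₂, -, hrep⟩ := hRep l g u Dg Du eg eu e' Z C
  obtain ⟨lam₃, RD, KD, δ, εd, hlam₃, hRD, hδ, -, hdec⟩ := hDec l g u Dg Du eg eu e' Z C
  set Kr := max Kr₀ 0 with hKr
  set KD' := max KD 0
  obtain ⟨Cg, hCg, hgap⟩ := powExp_le_of_gap hN (half_pos hlo)
  obtain ⟨Ce, hCe, hgape⟩ := powExp_le_of_gap hN hδ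
  set Q := max (max 1 (2 * |l|)) RD with hQ
  have hQ1 : 1 ≤ Q := (le_max_left _ _).trans (le_max_left _ _)
  have hQl : 2 * |l| ≤ Q := (le_max_right _ _).trans (le_max_left _ _)
  have hQD : RD ≤ Q := le_max_right _ _
  set U₀ := KD' * Cg with hU₀
  obtain ⟨Kd, Kl, hKd, hKl, hrep'⟩ := amp_rep Z C hA (Q := Q) (hi := hi) (K := Kp) (Kr := Kr)
    (U₀ := U₀) hQ1 hQl hKp (le_max_right _ _) (mul_nonneg (le_max_right _ _) hCg) uc hz.u_cont
    hz.u_eq hz.u_odd
  set K' := Kr * KD' * (1 + Ce) with hK'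
  have hK'0 : 0 ≤ K' := mul_nonneg (mul_nonneg (le_max_right _ _) (le_max_right _ _)) (by linarith)
  set L := 4 * |l| + Kr with hL
  obtain ⟨Rb, M, hRb, hM, hbar⟩ :=
    amp_barriers (N := N + 2) (A := hi) (L := L) (K' := K') hlo (by linarith) hK'0
  set R := max (max Rb (Q + 7)) (2 * (2 + L) / lo ^ 2) with hR
  have hRQ : Q + 7 ≤ R := (le_max_right _ _).trans (le_max_left _ _)
  have hRb' : Rb ≤ R := (le_max_left _ _).trans (le_max_left _ _)
  have hR1 : 1 ≤ R := by linarith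
  obtain ⟨c0, hc0, hlin⟩ := hz.u_linear R
  have hRN : 0 < R ^ N := Real.rpow_pos_of_pos (by linarith) N
  set c := c0 / (2 * √2 * (2 * R ^ N)) with hc
  have hcpos : 0 < c := by positivity
  set P₀ := powExp (-N) hi R with hP₀
  have hP₀pos : 0 < P₀ := powExp_pos _ _ (by linarith)
  set K := max c (2 * Kd / P₀) with hK
  obtain ⟨lam₄, hlam₄, hbar'⟩ := hbar c hcpos
  set lam₀ := min (min lam₁ lam₂) (min (min lam₃ lam₄)
    ((c0 / (2 * √2 * (Kl + 1))) ^ 2)) with hlam₀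
  refine ⟨lam₀, R + 1, 2 * K, c / 2, ?_, by linarith, by positivity,
    fun lam hlam E3 f D E2 χ Dχ Es χs Ds Et χt Dt hst => ?_⟩
  · exact lt_min (lt_min hlam₁ hlam₂) (lt_min (lt_min hlam₃ hlam₄) (by positivity))
  obtain ⟨hl0, hl1⟩ := hlam
  simp only [hlam₀, lt_min_iff] at hl1
  obtain ⟨⟨hl1a, hl1b⟩, ⟨hl1c, hl1d⟩, hl1e⟩ := hl1
  obtain ⟨⟨haLo, haHi, ha2, haeu, haN⟩, -⟩ :=
    hpar lam ⟨hl0, hl1a⟩ E3 f D E2 χ Dχ Es χs Ds Et χt Dt hst
  obtain ⟨-, hW⟩ := hrep lam ⟨hl0, hl1b⟩ E3 f D E2 χ Dχ Es χs Ds Et χt Dt hst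
  obtain ⟨-, hTot, -, -, hPerp⟩ := hdec lam ⟨hl0, hl1c⟩ E3 f D E2 χ Dχ Es χs Ds Et χt Dt hst
  set a := decayRate E2 E3
  set β := (2 - 2 * lam) / a - 2 with hβdef
  have hlam' : lam ≤ 1 / 4 := hl1a.le.trans hlam₁'
  have ha0 : 0 < a := hlo.trans_le haLo
  have hk : a * (β + 2) = 2 - 2 * lam := by rw [hβdef]; field_simp; ring
  have hk2 : |2 - 2 * lam| ≤ 2 := by rw [abs_le]; constructor <;> linarith
  have hb0 : |β| + 1 ≤ N := by
    have h1 := abs_sub ((2 - 2 * lam) / a) 2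
    rw [abs_two] at h1
    linarith
  have hG : ∀ r : ℝ, molTail lam E2 E3 r = powExp β a r := fun r => rfl
  have hexp : ∀ r : ℝ, 1 ≤ r → powExp (β + 1) a r ≤ Cg * Real.exp (-(lo / 2 * r)) := fun r hr => by
    rw [← powExp_zero]
    exact hgap 0 (β + 1) (lo / 2) a r (by simpa using hN)
      ((abs_add_le _ _).trans (by simpa using hb0)) (by linarith) hr
  have hf : MemLp f 2 := hst.three.lowest.lim.1
  have hχ : MemLp χ 2 := hst.ion.lowest.lim.1
  have hχ1 : ∫ y, χ y ^ 2 = 1 := hst.ion.lowest.mass_one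
  have hsplit := source_split (Kr := Kr) hf hχ (by simpa [ipN, sq] using hχ1)
    (fun x => ((hW x).1 χ (by simp)).1)
    (fun x => ((hW x).1 χ (by simp)).2.1.trans (le_max_left _ _))
    (fun x hx => (((hW x).1 χ (by simp)).2.2 hx).trans
      (div_le_div_of_nonneg_right (le_max_left _ _) (sq_nonneg _)))
  have hTot' : ∀ᵐ x : Space, Q < ‖x‖ → uTot f x ≤ KD' * powExp (β + 1) a ‖x‖ := by
    filter_upwards [hTot] with x hx hxQ
    refine (hx (hQD.trans hxQ.le)).trans ?_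
    rw [hG, mul_assoc, mul_powExp_succ β a (show 0 < ‖x‖ by linarith)]
    exact mul_le_mul_of_nonneg_right (le_max_left _ _) (powExp_pos _ _ (by linarith)).le
  obtain ⟨d, hdc, hde, hwd, hdo, -, hdlin, hdu⟩ := hrep' lam ⟨hl0, by linarith⟩ E3 f D E2 χ Dχ
    Es χs Ds Et χt Dt hst (by rw [← ha2]; positivity)
    (by rw [← ha2]; gcongr) (by rw [← ha2]; exact haeu)
    (hsplit.mono fun x hx => hx.1) (by
      filter_upwards [hTot'] with x hx hxQ
      have hxQ' : Q < ‖x‖ := hxQ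
      refine (hx hxQ').trans (mul_le_mul_of_nonneg_left ((hexp _ (by linarith)).trans ?_)
        (le_max_right _ _))
      exact mul_le_of_le_one_right hCg (Real.exp_le_one_iff.2 (by nlinarith)))
  have hde' : ∀ᵐ x, x ∈ Ext Q → amp χ f x = d x :=
    (ae_restrict_iff' (isOpen_ext _).measurableSet).1 hde
  have hsub : {x : Space | R ≤ ‖x‖} ⊆ Ext Q := fun x hx => by
    show Q < ‖x‖
    have : R ≤ ‖x‖ := hx
    linarith
  have hdexp : ∀ x ∈ Ext Q, |d x| ≤ U₀ * Real.exp (-(lo / 2 * ‖x‖)) := fun x hx =>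
    le_on_open (g := fun x => U₀ * Real.exp (-(lo / 2 * ‖x‖))) (isOpen_ext _) hdc.abs
      (by fun_prop) (by
      filter_upwards [hde', hTot', ae_amp_le hf hχ hχ1] with y h1 h2 h3 hy
      have hy' : Q < ‖y‖ := hy
      rw [← h1 hy, hU₀, mul_assoc]
      exact h3.1.trans ((h2 hy').trans (mul_le_mul_of_nonneg_left
        (hexp _ (by linarith)) (le_max_right _ _)))) hx
  have hd0 : ∀ x ∈ Ext Q, height x = 0 → d x = 0 := fun x hx hx0 => by
    have := hdo x hx
    rw [show mirror x = x by simp [mirror, hx0]] at this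
    linarith
  have hKnn : 0 ≤ K := hcpos.le.trans (le_max_left _ _)
  have hfacts := amp_facts (R := R) (lo := lo) (L := L) (K' := K') (Kr := Kr) (KD' := KD')
    hQ1 hQl hQD (by linarith) hlo haLo (le_max_right _ _) hl0.le (by linarith) (le_max_right _ _)
    (le_max_right _ _) hL hK' ha2 (hsplit.mono fun x hx => hx.2) hde'
    (hPerp.mono fun x hx hxD => (hx hxD).trans (mul_le_mul (le_max_left _ _) (le_of_eq (by rw [hG]))
      (by rw [hG]; have := powExp_pos β a (show 0 < ‖x‖ by linarith); positivity) (le_max_right _ _)))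
    (fun r hr => by
      rw [← powExp_zero]
      exact hgape (β - 1) 0 a (a + δ) r ((abs_sub _ _).trans (by simpa using hb0))
        (by simpa using hN) le_rfl hr)
  have hfar := amp_far (R := R) (K := K) hlo (mul_nonneg (le_max_right _ _) hCg) hKnn hCg
    (fun x hx => hdexp x (hsub hx.le)) hR1 hexp
  have hbarx : ∀ (x : Space) (m : ℝ), R ≤ ‖x‖ → 0 ≤ height x → _ := fun x m hx hxz =>
    hbar' lam a β (2 - 2 * lam) m hl0.le hl1d.le haLo haHi
      (by linarith [abs_sub ((2 - 2 * lam) / a) 2, abs_two (α := ℝ)]) hk2 hk x (hRb'.trans hx) hxz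
  have hpos : ∀ x : Space, R < ‖x‖ → 0 < height x →
      c / 2 * height x * powExp β a ‖x‖ ≤ -d x ∧
        -d x ≤ 2 * K * height x * powExp β a ‖x‖ := fun x hx hxz =>
    amp_compare (k := 2 - 2 * lam) (L := L) (K' := K') (M := M) (by linarith) hl0.le hcpos
      (le_max_left _ _)
      (fun y hy hyz => ⟨(hbarx y 0 hy hyz).1, fun m =>
        ⟨(hbarx y m hy hyz).2.1, (hbarx y m hy hyz).2.2 K (le_max_left _ _)⟩⟩)
      hM (hdc.mono hsub) (hwd.mono ((fun y hy => hsub (le_of_lt hy.1)))) hfacts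
      (fun y hyR hyz => amp_sphere (N := N) (hi := hi) (by linarith) hc0 hc hKl (le_max_right _ _)
        hKnn hM hl0.le hl1e.le ha0.le haHi (by linarith) hyR hyz (hlin y hyR.le hyz)
        (hdlin y (by linarith)) (hdu y (by linarith))
        ((hbarx y 0 hyR.ge hyz).2.2 K (le_max_left _ _)).1)
      (fun y hy => hd0 y (hsub hy)) hfar hx hxz
  refine ⟨d, hdc.mono fun x hx => ?_, ?_, fun x hx => ?_⟩
  · have : R + 1 - 1 < ‖x‖ := hx
    show Q < ‖x‖
    linarith
  · filter_upwards [hde'] with x h hx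
    exact h (show Q < ‖x‖ by linarith)
  rw [hG]
  exact two_sided_of_half (G := fun x => powExp β a ‖x‖) hcpos
    (fun y hy => powExp_pos _ _ (by linarith)) (fun y => by simp only [norm_mirror])
    (fun y hy => hdo y (hsub hy)) hpos (show R < ‖x‖ by linarith)

end Vale.Agent.P363.Inter
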