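import Vale.Agent.P363.Inter.Bar.AmpBasics
import Vale.Agent.P363.Inter.Bar.Decay
import Vale.Agent.P363.Inter.Slice.States
import Vale.Agent.P363.Inter.Slice.Proj

/-!
P363, interacting side: the triplet channel of the down electron is positive everywhere. The
amplitude of the lowest antisymmetric ion state in the down slice is close to `g` on a fixed ball,
and outside it stays above a barrier with the critical exponent plus a half power.
-/

noncomputable section

namespace Vale.Agent.P363.Inter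

open MeasureTheory Metric Filter
open scoped BigOperators Topology

/-- The barrier of the down channel. -/
def downBar (β b : ℝ) (x : Space) : ℝ := powExp β b ‖x‖ + powExp (β - 1 / 2) b ‖x‖

lemma contDiffOn_downBar (β b : ℝ) : ContDiffOn ℝ 2 (downBar β b) {x | x ≠ 0} :=
  (contDiffOn_powExp_norm β b).add (contDiffOn_powExp_norm _ b)

lemma downBar_bounds (β b : ℝ) {x : Space} (hx : 1 ≤ ‖x‖) :
    powExp β b ‖x‖ ≤ downBar β b x ∧ downBar β b x ≤ 2 * powExp β b ‖x‖ := by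
  have h0 := powExp_pos (β - 1 / 2) b (show 0 < ‖x‖ by linarith)
  have h1 : powExp (β - 1 / 2) b ‖x‖ ≤ powExp β b ‖x‖ :=
    mul_le_mul_of_nonneg_right (Real.rpow_le_rpow_of_exponent_le hx (by linarith))
      (Real.exp_pos _).le
  constructor <;> unfold downBar <;> linarith

lemma down_algebra {β b k r s m L : ℝ} (hr : 0 < r) (hs0 : 0 ≤ s) (hs1 : s ≤ 1)
    (hsr : s * r = Real.sqrt r) (hk : b * (β + 1) = k)
    (hbig : 3 + 4 * |L| ≤ b * Real.sqrt r) (hm : m ≤ b ^ 2 / 2 - k / r + L / r ^ 2) :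
    2 * m * (1 + s) + 2 / r ^ 2 ≤
      (b ^ 2 - 2 * b * (β + 1) / r + β * (β + 1) / r ^ 2) +
        s * (b ^ 2 - 2 * b * (β - 1 / 2 + 1) / r + (β - 1 / 2) * (β - 1 / 2 + 1) / r ^ 2) := by
  have c1 : -(1 / 4) ≤ β * (β + 1) := by nlinarith [sq_nonneg (β + 1 / 2)]
  have c2 : -(1 / 4) ≤ s * ((β - 1 / 2) * (β - 1 / 2 + 1)) := by
    nlinarith [mul_nonneg hs0 (sq_nonneg β)]
  have c3 : L * (1 + s) ≤ |L| * 2 :=
    (mul_le_mul_of_nonneg_right (le_abs_self L) (by linarith)).trans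
      (mul_le_mul_of_nonneg_left (by linarith) (abs_nonneg L))
  have c4 : 2 ≤ β * (β + 1) + s * ((β - 1 / 2) * (β - 1 / 2 + 1)) - 2 * L * (1 + s) +
      b * (s * r) := by rw [hsr]; linarith
  have key := div_le_div_of_nonneg_right c4 (sq_nonneg r)
  have h3 := mul_le_mul_of_nonneg_left hm (show 0 ≤ 2 * (1 + s) by linarith)
  have e : (b ^ 2 - 2 * b * (β + 1) / r + β * (β + 1) / r ^ 2) +
      s * (b ^ 2 - 2 * b * (β - 1 / 2 + 1) / r + (β - 1 / 2) * (β - 1 / 2 + 1) / r ^ 2) =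
      2 * (1 + s) * (b ^ 2 / 2 - k / r + L / r ^ 2) + (β * (β + 1) +
        s * ((β - 1 / 2) * (β - 1 / 2 + 1)) - 2 * L * (1 + s) + b * (s * r)) / r ^ 2 := by
    rw [← hk]; field_simp; ring
  rw [e]
  linarith

/-- The barrier is a subsolution with margin outside a ball. -/
lemma downBar_sub {β b k m L : ℝ} {x : Space} (hx : 1 ≤ ‖x‖) (hk : b * (β + 1) = k)
    (hbig : 3 + 4 * |L| ≤ b * Real.sqrt ‖x‖)
    (hm : m ≤ b ^ 2 / 2 - k / ‖x‖ + L / ‖x‖ ^ 2) :
    2 * m * downBar β b x + 2 / ‖x‖ ^ 2 * powExp β b ‖x‖ ≤ lap (downBar β b) x := by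
  have hr : 0 < ‖x‖ := by linarith
  have hx0 : x ≠ 0 := norm_pos_iff.1 hr
  have hU : IsOpen {y : Space | y ≠ 0} := isOpen_ne
  set s := ‖x‖ ^ (-(1 / 2 : ℝ)) with hs
  have hse : s = (Real.sqrt ‖x‖)⁻¹ := by rw [hs, Real.rpow_neg hr.le, ← Real.sqrt_eq_rpow]
  have hsr : s * ‖x‖ = Real.sqrt ‖x‖ := by rw [hse, inv_mul_eq_div, Real.div_sqrt]
  have hs1 : s ≤ 1 := Real.rpow_le_one_of_one_le_of_nonpos hx (by norm_num)
  have hP := powExp_pos β b hr
  have e1 : powExp (β - 1 / 2) b ‖x‖ = s * powExp β b ‖x‖ := by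
    rw [powExp_eq_mul (β - 1 / 2) β b hr, show β - 1 / 2 - β = -(1 / 2 : ℝ) by ring]
  have hd : lap (downBar β b) x = lap (fun y => powExp β b ‖y‖) x +
      lap (fun y => powExp (β - 1 / 2) b ‖y‖) x :=
    lap_add hU (contDiffOn_powExp_norm β b) (contDiffOn_powExp_norm (β - 1 / 2) b) hx0
  rw [hd, lap_powExp β b hx0, lap_powExp (β - 1 / 2) b hx0, downBar, e1]
  have h := mul_le_mul_of_nonneg_left
    (down_algebra hr (Real.rpow_nonneg hr.le _) hs1 hsr hk hbig hm) hP.le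
  linarith

/-- A slot times the attraction, in mean square. -/
lemma attract_slot_sq {f : Cfg 3 → ℝ} {D : Fin 3 → Fin 3 → Cfg 3 → ℝ} (h : InH1 f D) (l : ℝ)
    (i : Fin 3) : MemLp (fun z => attract l (z i) * f z) 2 ∧
      ∫ z, (attract l (z i) * f z) ^ 2 ≤ 16 * slotKin i D := by
  have hp : ∀ p : Space, Integrable (fun z => (f z / ‖z i - p‖) ^ 2) ∧
      ∫ z, (f z / ‖z i - p‖) ^ 2 ≤ 4 * slotKin i D := fun p => by
    simpa only [pole] using h.hardy i (c := fun _ => p) continuous_const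
  refine ⟨h.memLp_attract l i, ?_⟩
  calc ∫ z, (attract l (z i) * f z) ^ 2
      ≤ ∫ z, (2 * (f z / ‖z i - nuc l‖) ^ 2 + 2 * (f z / ‖z i - -nuc l‖) ^ 2) := by
        refine integral_mono (h.memLp_attract l i).integrable_sq
          (((hp _).1.const_mul 2).add ((hp _).1.const_mul 2)) fun z => ?_
        rw [show attract l (z i) * f z = f z / ‖z i - nuc l‖ + f z / ‖z i - -nuc l‖ by
          simp only [attract, sub_neg_eq_add]; ring]
        nlinarith [sq_nonneg (f z / ‖z i - nuc l‖ - f z / ‖z i - -nuc l‖)]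
    _ ≤ 16 * slotKin i D := by
        rw [integral_add ((hp _).1.const_mul 2) ((hp _).1.const_mul 2), integral_const_mul,
          integral_const_mul]
        linarith [(hp (nuc l)).2, (hp (-nuc l)).2]

/-- The amplitude of a normalised state is at most the down slice. -/
lemma ampAt_le_uDown {f : Cfg 3 → ℝ} {φ : Cfg 2 → ℝ} (hf : MemLp f 2) (hφ : MemLp φ 2)
    (h1 : ipN φ φ = 1) : ∀ᵐ x : Space, |ampAt 2 φ f x| ≤ uDown f x := by
  filter_upwards [(ampAt_sq_le 2 hφ hf).1] with x hx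
  refine abs_le_of_sq_le_sq ?_ (Real.sqrt_nonneg _)
  rw [h1, one_mul] at hx
  rw [uDown, nrmN_sq]
  exact hx

/-- The down slice times the attraction, in mean square. -/
lemma attract_uDown {f : Cfg 3 → ℝ} {D : Fin 3 → Fin 3 → Cfg 3 → ℝ} (h : InH1 f D) (l : ℝ) :
    Integrable (fun x => attract l x ^ 2 * uDown f x ^ 2) ∧
      ∫ x, attract l x ^ 2 * uDown f x ^ 2 ≤ 16 * slotKin 2 D := by
  obtain ⟨hm, hb⟩ := attract_slot_sq h l 2
  have e : ∀ x : Space, nrmN (slice 2 (fun z => attract l (z 2) * f z) x) ^ 2 =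
      attract l x ^ 2 * uDown f x ^ 2 := fun x => by
    rw [uDown, sq_nrmN, sq_nrmN, ← integral_const_mul]
    refine integral_congr_ae (ae_of_all _ fun y => ?_)
    simp only [slice, Fin.insertNth_apply_same]
    ring
  refine ⟨(integrable_sq_slice hm 2).congr (ae_of_all _ e), ?_⟩
  have h2 := integral_sq_slice hm 2
  simp only [e] at h2
  linarith

/-- A function near a positive one in mean square, with a modulus of continuity, stays positive. -/
lemma pos_of_close {x : Space} {δ η : ℝ} {p q t g : Space → ℝ} (hη : 0 < η)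
    (hp : ∀ y ∈ ball x δ, |p x - p y| ≤ η) (hq : ∀ y ∈ ball x δ, |q x - q y| ≤ η)
    (hpt : ∀ᵐ y, y ∈ ball x δ → t y = p y) (hqg : ∀ᵐ y, g y = q y)
    (ht : MemLp (fun y => t y - g y) 2)
    (hsmall : ∫ y, (t y - g y) ^ 2 < η ^ 2 * volume.real (ball (0 : Space) δ)) :
    q x - 3 * η ≤ p x := by
  obtain ⟨y, hy, hyd⟩ : ∃ y ∈ ball x δ, |p y - q y| < η := by
    by_contra hno
    push Not at hno
    have h1 : ∀ᵐ y ∂(volume.restrict (ball x δ)), η ^ 2 ≤ (t y - g y) ^ 2 := by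
      filter_upwards [ae_restrict_of_ae hpt, ae_restrict_of_ae hqg,
        ae_restrict_mem measurableSet_ball] with y a1 a2 hy
      rw [a1 hy, a2, ← sq_abs (p y - q y)]
      exact pow_le_pow_left₀ hη.le (hno y hy) 2
    have h2 : ∫ _ in ball x δ, η ^ 2 ≤ ∫ y in ball x δ, (t y - g y) ^ 2 :=
      integral_mono_ae (integrableOn_const measure_ball_lt_top.ne) ht.integrable_sq.restrict h1
    have h3 : ∫ y in ball x δ, (t y - g y) ^ 2 ≤ ∫ y, (t y - g y) ^ 2 :=
      setIntegral_le_integral ht.integrable_sq (ae_of_all _ fun y => sq_nonneg _)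
    have e : volume.real (ball x δ) = volume.real (ball (0 : Space) δ) := by
      simp only [Measure.real, Measure.addHaar_ball_center]
    rw [setIntegral_const, smul_eq_mul, e, mul_comm] at h2
    linarith
  have := abs_lt.1 hyd
  have := abs_le.1 (hp y hy)
  have := abs_le.1 (hq y hy)
  linarith

/-- The source of the down amplitude in mean square. -/
lemma down_source {l lam e ε Km Kr A : ℝ} {f : Cfg 3 → ℝ} {D : Fin 3 → Fin 3 → Cfg 3 → ℝ}
    {φ : Cfg 2 → ℝ} {K : ℝ} (hmb : MolBound ε K f D) (hε : 0 ≤ ε) (hφ : MemLp φ 2)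
    (hφi : ipN φ φ = 1) (hf1 : ∫ z, f z ^ 2 = 1) (hl0 : 0 ≤ lam) (hl1 : lam ≤ 1)
    (he : |e| ≤ A)
    (hW : ∀ x : Space, MemLp (fun y => repel x y * φ y) 2 ∧
      nrmN (fun y => repel x y * φ y) ≤ Kr) (hKm : K ≤ Km) :
    MemLp (fun x => 2 * ((e - attract l x) * ampAt 2 φ f x +
        lam * ipN (fun y => repel x y * φ y) (slice 2 f x))) 2 ∧
      ∫ x, (2 * ((e - attract l x) * ampAt 2 φ f x +
        lam * ipN (fun y => repel x y * φ y) (slice 2 f x))) ^ 2 ≤
        8 * (A + Kr) ^ 2 + 8 * (16 * (3 * Km)) := by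
  have hf := hmb.inH1.memLp
  have ht2 := (ampAt_sq_le 2 hφ hf).2.1
  set t := ampAt 2 φ f
  set q : Space → ℝ := fun x => ipN (fun y => repel x y * φ y) (slice 2 f x)
  have hq2 : MemLp q 2 :=
    (memLp_rAmp hφ hmb.inH1 2).ae_eq (ae_of_all _ fun x => rAmp_eq 2 φ f x)
  have hat2 : MemLp (fun x => attract l x * t x) 2 := memLp_attract_slIp hφ hmb.inH1 l 2
  have hh2 : MemLp (fun x => 2 * ((e - attract l x) * t x + lam * q x)) 2 :=
    ((((ht2.const_mul e).sub hat2).add (hq2.const_mul lam)).const_mul 2).ae_eq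
      (ae_of_all _ fun x => by simp; ring)
  refine ⟨hh2, ?_⟩
  obtain ⟨ia, ib⟩ := attract_uDown hmb.inH1 l
  have hA : 0 ≤ A := (abs_nonneg e).trans he
  have hpt : ∀ᵐ x, (2 * ((e - attract l x) * t x + lam * q x)) ^ 2 ≤
      8 * (A + Kr) ^ 2 * uDown f x ^ 2 + 8 * (attract l x ^ 2 * uDown f x ^ 2) := by
    filter_upwards [ampAt_le_uDown hf hφ hφi, ae_memLp_slice hf 2] with x ha hx
    have hu0 : 0 ≤ uDown f x := Real.sqrt_nonneg _
    have a0 := attract_nonneg l x
    have hq : |q x| ≤ Kr * uDown f x :=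
      (abs_ipN_le (hW x).1 hx).trans (mul_le_mul_of_nonneg_right (hW x).2 hu0)
    have h2 : |(e - attract l x) * t x| ≤ (A + attract l x) * uDown f x := by
      rw [abs_mul]
      exact mul_le_mul ((abs_sub _ _).trans (add_le_add he (abs_of_nonneg a0).le)) ha
        (abs_nonneg _) (by positivity)
    have h4 : |lam * q x| ≤ Kr * uDown f x := by
      rw [abs_mul, abs_of_nonneg hl0]
      exact (mul_le_of_le_one_left (abs_nonneg _) hl1).trans hq
    have h5 : |(e - attract l x) * t x + lam * q x| ≤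
        (A + Kr) * uDown f x + attract l x * uDown f x :=
      (abs_add_le _ _).trans ((add_le_add h2 h4).trans_eq (by ring))
    have h6 := pow_le_pow_left₀ (abs_nonneg _) h5 2
    have h7 := add_sq_le (a := (A + Kr) * uDown f x) (b := attract l x * uDown f x)
    rw [sq_abs] at h6
    simp only [mul_pow] at h7 ⊢
    linarith
  have i0 : Integrable fun x => uDown f x ^ 2 := integrable_sq_slice hf 2
  refine (integral_mono_ae hh2.integrable_sq ((i0.const_mul _).add (ia.const_mul _)) hpt).trans ?_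
  rw [integral_add' (i0.const_mul _) (ia.const_mul _), integral_const_mul, integral_const_mul,
    show ∫ x, uDown f x ^ 2 = 1 from (integral_sq_slice hf 2).trans hf1]
  have hK : slotKin 2 D ≤ 3 * Km := by
    have h1 : ∀ a, ∫ z, D 2 a z ^ 2 ≤ Km := fun a => by
      refine (integral_mono (hmb.inH1.grad_memLp 2 a).integrable_sq
        (hmb.grad_mem 2 2 a).integrable_sq fun z => ?_).trans ((hmb.grad_le 2 2 a).trans hKm)
      have h0 : ∀ j, 0 ≤ (Pi.single 2 ε : Fin 3 → ℝ) j := fun j => by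
        by_cases hj : j = 2 <;> simp [hj, hε]
      rw [mul_pow]
      exact le_mul_of_one_le_left (sq_nonneg _) (one_le_pow₀ (one_le_wexp h0 le_rfl z))
    simp only [slotKin, Fin.sum_univ_three]
    linarith [h1 0, h1 1, h1 2]
  linarith

/-- On a fixed ball the amplitude of the lowest antisymmetric ion state is positive. -/
theorem down_near {l : ℝ} {g u : Space → ℝ} {Dg Du : Fin 3 → Space → ℝ} {eg eu e' : ℝ}
    (Z : ZeroOrder l g u Dg Du eg eu e') (C : ℝ) (hA : AmpStmt) (hRep : RepelStmt) {R₁ : ℝ}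
    (hR₁ : 0 ≤ R₁) :
    ∃ lam₀ η : ℝ, 0 < lam₀ ∧ 0 < η ∧ ForStates l C g u Dg Du eg eu
      (fun _ _ f _ _ _ _ _ _ _ χt => ∀ᵐ x : Space, ‖x‖ ≤ R₁ → η ≤ ampAt 2 χt f x) lam₀ := by
  obtain ⟨gc, uc, hz⟩ := zeroFacts Z
  obtain ⟨lam₁, lo, hi, N, Kp, hlam₁, hlam₁', hlo, hlohi, -, -, hpar⟩ := params Z C
  obtain ⟨lam₂, εr, Kr, hlam₂, -, hrep⟩ := hRep l g u Dg Du eg eu e' Z C
  obtain ⟨lam₃, ε₀, Km, hlam₃, -, hε₀, hmol⟩ := mol_decay Z C
  set E := hi ^ 2 / 2 + |Kr| with hE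
  set B := volume.real (ball (0 : Space) (R₁ + 3)) + 1 +
    Real.sqrt (8 * E ^ 2 + 8 * (16 * (3 * |Km|))) with hB
  obtain ⟨α, ⟨hα0, -⟩, hhol⟩ := Yuk.localHolder 2 (by norm_num)
  obtain ⟨Ch, hhol⟩ := hhol (R₁ + 2) (R₁ + 3) (by linarith) (by linarith)
  obtain ⟨x₀, -, hmin⟩ := (isCompact_closedBall (0 : Space) R₁).exists_isMinOn
    (nonempty_closedBall.2 hR₁) hz.g_cont.continuousOn
  set m0 := gc x₀ / 8 with hm0
  have hm0p : 0 < m0 := div_pos (hz.g_pos x₀) (by norm_num)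
  obtain ⟨δ₁, hδ₁, hunif⟩ := Metric.uniformContinuousOn_iff.1
    ((isCompact_closedBall (0 : Space) (R₁ + 1)).uniformContinuousOn_of_continuous
      hz.g_cont.continuousOn) m0 hm0p
  have hB0 : 0 ≤ B := by positivity
  set H := |Ch| * B
  have ht0 : Tendsto (fun d : ℝ => H * d ^ α) (𝓝[>] 0) (𝓝 0) := by
    have hc : Continuous fun d : ℝ => H * d ^ α :=
      continuous_const.mul (Real.continuous_rpow_const hα0.le)
    simpa [Real.zero_rpow hα0.ne'] using (hc.tendsto 0).mono_left nhdsWithin_le_nhds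
  obtain ⟨δ, hδH, hδI⟩ := ((ht0.eventually (gt_mem_nhds hm0p)).and
    (Ioo_mem_nhdsGT (lt_min hδ₁ one_pos))).exists
  obtain ⟨hδ, hδ'⟩ := hδI
  set V := volume.real (ball (0 : Space) δ)
  have hV : 0 < V := ENNReal.toReal_pos (measure_ball_pos volume _ hδ).ne' measure_ball_lt_top.ne
  set G : Cfg 2 → ℝ := fun y => (prod2 g u y - prod2 u g y) / √2 with hG
  have hg2 : MemLp g 2 := Z.g_lim.1
  have hu2 : MemLp u 2 := Z.u_lim.1
  have mG : MemLp G 2 := (((memLp_prod2 hg2 hu2).1.sub (memLp_prod2 hu2 hg2).1).const_mul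
    (√2)⁻¹).ae_eq (ae_of_all _ fun y => by simp [hG]; ring)
  have hGG : 0 ≤ ipN G G := integral_nonneg fun _ => mul_self_nonneg _
  set lam₄ := m0 ^ 2 * V / (2 * |C| * (1 + ipN G G) + 1) with hlam₄
  refine ⟨min (min lam₁ lam₂) (min lam₃ lam₄), 4 * m0,
    lt_min (lt_min hlam₁ hlam₂) (lt_min hlam₃ (by positivity)), by positivity,
    fun lam hlam E3 f D E2 χ Dχ Es χs Ds Et χt Dt hst => ?_⟩
  obtain ⟨hl0, hlt⟩ := hlam
  simp only [lt_min_iff] at hlt
  obtain ⟨⟨hl1, hl2⟩, hl3, hl4⟩ := hlt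
  obtain ⟨-, hbLo, hbHi, hb2, -, -⟩ := hpar lam ⟨hl0, hl1⟩ E3 f D E2 χ Dχ Es χs Ds Et χt Dt hst
  have hW := fun x => ((hrep lam ⟨hl0, hl2⟩ E3 f D E2 χ Dχ Es χs Ds Et χt Dt hst).2 x).1 χt
    (by simp)
  obtain ⟨hmb, -, -, -⟩ := hmol lam ⟨hl0, hl3⟩ E3 f D E2 χ Dχ Es χs Ds Et χt Dt hst ε₀
    ⟨hε₀, le_rfl⟩
  have hf : MemLp f 2 := hst.three.lowest.lim.1
  have hφ : MemLp χt 2 := hst.triplet.lowest.lim.1
  have hf1 : ∫ z, f z ^ 2 = 1 := hst.three.lowest.mass_one
  have hφi : ipN χt χt = 1 := by simpa [ipN, sq] using hst.triplet.lowest.mass_one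
  have hfi : ipN f f = 1 := by simpa [ipN, sq] using hf1
  set t := ampAt 2 χt f
  set q : Space → ℝ := fun x => ipN (fun y => repel x y * χt y) (slice 2 f x)
  set h : Space → ℝ := fun x => 2 * ((Et - E3 - attract l x) * t x + lam * q x) with hh
  have hwp : WeakPoisson Set.univ t h :=
    hA l lam E3 f D hl0.le hst.three.lowest _ Et χt Dt hst.triplet.lowest 2
  obtain ⟨-, ht2, htn⟩ := ampAt_sq_le 2 hφ hf
  rw [hφi, hfi, one_mul] at htn
  have he : |Et - E3| ≤ hi ^ 2 / 2 := by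
    rw [← hb2, abs_of_nonneg (by positivity)]
    gcongr
    exact hlo.le.trans hbLo
  obtain ⟨hh2, hsq⟩ := down_source (Kr := |Kr|) (Km := |Km|) hmb hε₀.le hφ hφi hf1 hl0.le
    (by linarith) he (fun x => ⟨(hW x).1, (hW x).2.1.trans (le_abs_self _)⟩) (le_abs_self _)
  have hfin : IsFiniteMeasure (volume.restrict (ball (0 : Space) (R₁ + 3))) :=
    isFiniteMeasure_restrict.2 measure_ball_lt_top.ne
  have hball : ballData (ENNReal.ofReal 2) 0 (R₁ + 3) t h ≤ B := by
    refine add_le_add ?_ ?_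
    · have i1 : IntegrableOn (fun x => 1 + t x ^ 2) (ball (0 : Space) (R₁ + 3)) :=
        (integrable_const _).add ht2.integrable_sq.restrict
      refine (integral_mono ((ht2.restrict _).integrable one_le_two).norm i1
        fun x => ?_).trans ?_
      · simp only [Real.norm_eq_abs]
        nlinarith [sq_abs (t x), sq_nonneg (|t x| - 1), abs_nonneg (t x)]
      · rw [integral_add (integrable_const _) ht2.integrable_sq.restrict, setIntegral_const,
          smul_eq_mul, mul_one]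
        gcongr
        exact (setIntegral_le_integral ht2.integrable_sq
          (ae_of_all _ fun x => sq_nonneg _)).trans htn
    · rw [ENNReal.ofReal_ofNat, eLpNorm_two_toReal (hh2.restrict _)]
      exact Real.sqrt_le_sqrt ((setIntegral_le_integral hh2.integrable_sq
        (ae_of_all _ fun x => sq_nonneg _)).trans hsq)
  obtain ⟨tc, -, hte, -, htH⟩ := hhol 0 t h (hwp.mono (Set.subset_univ _))
    ((ht2.restrict _).integrable one_le_two) (by rw [ENNReal.ofReal_ofNat]; exact hh2.restrict _)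
  have hte' : ∀ᵐ y, y ∈ ball (0 : Space) (R₁ + 2) → t y = tc y :=
    (ae_restrict_iff' measurableSet_ball).1 hte
  have htg : MemLp (fun y => t y - g y) 2 := ht2.sub hg2
  have hclose : ∫ y, (t y - g y) ^ 2 < m0 ^ 2 * V := by
    have h1 := ampAt_close 2 hφ mG hf (memLp_zero3 hg2 hu2)
    have e : ∀ x, ampAt 2 G (zero3 g u) x = g x := fun x =>
      (ampAt_zero3 hg2 hu2 Z.g_mass Z.u_mass (orth_levels Z) x).2
    simp only [e, hfi, mul_one] at h1
    have c1 : ipN (fun y => χt y - G y) (fun y => χt y - G y) ≤ C * lam := by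
      simpa [ipN, sq, hG] using hst.triplet.close
    have c2 : ipN (fun z => f z - zero3 g u z) (fun z => f z - zero3 g u z) ≤ C * lam := by
      simpa [ipN, sq] using hst.three.close
    have c3 : C * lam ≤ |C| * lam := mul_le_mul_of_nonneg_right (le_abs_self C) hl0.le
    have c4 := mul_le_mul_of_nonneg_left (c2.trans c3) hGG
    rw [hlam₄, lt_div_iff₀ (by positivity)] at hl4
    linarith
  filter_upwards [hte'] with x hx hxR
  have hxb : x ∈ ball (0 : Space) (R₁ + 2) := by rw [mem_ball_zero_iff]; linarith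
  have hyb : ∀ y ∈ ball x δ, ‖y‖ ≤ R₁ + 1 := fun y hy => by
    have : dist y x < δ := hy
    rw [dist_eq_norm] at this
    linarith [norm_le_norm_add_norm_sub x y, norm_sub_rev x y, min_le_right δ₁ (1 : ℝ)]
  have hyb' : ∀ y ∈ ball x δ, y ∈ ball (0 : Space) (R₁ + 2) := fun y hy => by
    rw [mem_ball_zero_iff]; linarith [hyb y hy]
  have key := pos_of_close (p := tc) (q := gc) (t := t) (g := g) (x := x) (δ := δ) hm0p
    (fun y hy => ?_) (fun y hy => ?_) (hte'.mono fun y h1 hy => h1 (hyb' y hy)) hz.g_eq htg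
    hclose
  · rw [hx hxb]
    have : gc x₀ ≤ gc x := hmin (show x ∈ closedBall (0 : Space) R₁ by simpa using hxR)
    linarith [hm0p]
  · refine (htH x hxb y (hyb' y hy)).trans ?_
    have hd : ‖x - y‖ ≤ δ := by
      rw [← dist_eq_norm, dist_comm]; exact le_of_lt hy
    have hD : Ch * ballData (ENNReal.ofReal 2) 0 (R₁ + 3) t h ≤ H :=
      (mul_le_mul_of_nonneg_right (le_abs_self Ch)
        (add_nonneg (integral_nonneg fun _ => abs_nonneg _) ENNReal.toReal_nonneg)).trans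
        (mul_le_mul_of_nonneg_left hball (abs_nonneg _))
    calc Ch * ballData (ENNReal.ofReal 2) 0 (R₁ + 3) t h * ‖x - y‖ ^ α
        ≤ H * δ ^ α := mul_le_mul hD (Real.rpow_le_rpow (norm_nonneg _) hd hα0.le)
          (Real.rpow_nonneg (norm_nonneg _) _) (mul_nonneg (abs_nonneg _) hB0)
      _ ≤ m0 := hδH.le
  · have := hunif x (by rw [mem_closedBall_zero_iff]; linarith) y
      (mem_closedBall_zero_iff.2 (hyb y hy))
      (by rw [dist_comm]; exact lt_of_lt_of_le hy (hδ'.le.trans (min_le_left _ _)))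
    exact le_of_lt (by rwa [Real.dist_eq] at this)

/-- The source of the down amplitude after the Coulomb tail. -/
def downRest (χt : Cfg 2 → ℝ) (f : Cfg 3 → ℝ) (x : Space) : ℝ :=
  ipN (fun y => repel x y * χt y) (slice 2 f x) - 2 / ‖x‖ * ampAt 2 χt f x

lemma downRest_le {f : Cfg 3 → ℝ} {χt : Cfg 2 → ℝ} {Kr : ℝ} (hf : MemLp f 2) (hφ : MemLp χt 2)
    (hW : ∀ x : Space, MemLp (fun y => repel x y * χt y) 2)
    (hWf : ∀ x : Space, 1 ≤ ‖x‖ →
      nrmN (fun y => (repel x y - 2 / ‖x‖) * χt y) ≤ Kr / ‖x‖ ^ 2) :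
    ∀ᵐ x : Space, 1 ≤ ‖x‖ → |downRest χt f x| ≤ Kr / ‖x‖ ^ 2 * uDown f x := by
  filter_upwards [ae_memLp_slice hf 2] with x hx hr
  have hA2 : MemLp (fun y => (repel x y - 2 / ‖x‖) * χt y) 2 :=
    ((hW x).sub (hφ.const_mul (2 / ‖x‖))).ae_eq (ae_of_all _ fun y => by simp; ring)
  have e : downRest χt f x = ipN (fun y => (repel x y - 2 / ‖x‖) * χt y) (slice 2 f x) := by
    simp only [downRest, ipN, ampAt, sub_mul, mul_assoc]
    rw [integral_sub, integral_const_mul]
    · refine ((hW x).integrable_mul hx).congr (ae_of_all _ fun y => ?_)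
      simp only [Pi.mul_apply, mul_assoc]
    · exact (hφ.integrable_mul hx).const_mul _
  rw [e]
  exact (abs_ipN_le hA2 hx).trans (mul_le_mul_of_nonneg_right (hWf x hr) (Real.sqrt_nonneg _))

/-- The comparison outside a ball. -/
lemma down_compare {l R b lam Kr KD c β L e : ℝ} {t rest uD : Space → ℝ}
    (hR : 1 ≤ R) (hRl : 2 * |l| ≤ R) (hl0 : 0 ≤ lam) (hc : 0 ≤ c) (hKr : 0 ≤ Kr)
    (hL : L = 4 * |l|) (hb2 : b ^ 2 / 2 = e) (hk : b * (β + 1) = 2 - 2 * lam)
    (hbig : ∀ x ∈ Ext R, 3 + 4 * |L| ≤ b * Real.sqrt ‖x‖ ∧ (2 + 4 * |l|) / ‖x‖ ≤ e)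
    (hwp : WeakPoisson (Ext R) t fun x =>
      2 * ((e - attract l x) * t x + lam * (2 / ‖x‖ * t x + rest x)))
    (habs : ∀ᵐ x, |t x| ≤ uD x)
    (hrest : ∀ᵐ x : Space, 1 ≤ ‖x‖ → |rest x| ≤ Kr / ‖x‖ ^ 2 * uD x)
    (hD : ∀ᵐ x : Space, R ≤ ‖x‖ → uD x ≤ KD * powExp β b ‖x‖) (hlam : lam * (Kr * KD) ≤ c)
    (hloc : ∃ U, ∀ x ∈ Ext R, powExp β b ‖x‖ ≤ U) (hKD : 0 ≤ KD)
    (hin : ∀ᵐ x, x ∈ Ext R → ‖x‖ < R + 1 → c * (2 * powExp β b ‖x‖) ≤ t x)
    (hdec : ∀ ε > 0, ∃ r : ℝ, ∀ x ∈ Ext R, r < ‖x‖ → (KD + 2 * c) * powExp β b ‖x‖ ≤ ε) :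
    ∀ᵐ x, x ∈ Ext R → c * powExp β b ‖x‖ ≤ t x := by
  have hne : Ext R ⊆ {x : Space | x ≠ 0} := ext_subset_ne_zero (by linarith)
  have hr1 : ∀ x ∈ Ext R, 1 ≤ ‖x‖ := fun x hx => hR.trans (le_of_lt hx)
  set m : Space → ℝ := fun x => e - attract l x + 2 * lam / ‖x‖ with hm
  set B : Space → ℝ := fun x => -c * downBar β b x with hB
  have hmc : ContinuousOn m (Ext R) := (continuousOn_const.sub
    (continuousOn_attract l (by linarith [abs_nonneg l]))).add
    (continuousOn_const.div continuous_norm.continuousOn fun x hx => by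
      linarith [hr1 x hx])
  have hBd : ContDiffOn ℝ 2 B (Ext R) := contDiffOn_const.mul ((contDiffOn_downBar β b).mono hne)
  have hu : WeakSubPoisson (Ext R) (fun x => -1 * t x)
      fun x => 2 * (m x * (-1 * t x) - lam * rest x) :=
    ((hwp.const_mul (-1)).congr_ae (isOpen_ext R) .rfl
      (Eventually.of_forall fun x => by simp only [hm]; ring)).toSub
  have key := compare_ext hu hmc (fun x hx => ?_) hBd ?_ (fun K _ hKU => ?_)
    ⟨R + 1, by linarith, ?_⟩ (fun ε hε => ?_)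
  · filter_upwards [key] with x hx hxR
    have h1 := hx hxR
    have h2 := mul_le_mul_of_nonneg_left (downBar_bounds β b (hr1 x hxR)).1 hc
    simp only [hB] at h1
    linarith
  · obtain ⟨-, -, h1, -, -⟩ := far_facts hR hRl hx
    have : 0 ≤ 2 * lam / ‖x‖ := by positivity
    show 0 ≤ m x
    linarith [(hbig x hx).2, le_abs_self (attract l x)]
  · filter_upwards [hrest, hD] with x h1 h2 hx
    have hr := hr1 x hx
    have hP := powExp_pos β b (show 0 < ‖x‖ by linarith)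
    obtain ⟨-, hat, -⟩ := far_facts hR hRl hx
    have hmu : m x ≤ b ^ 2 / 2 - (2 - 2 * lam) / ‖x‖ + L / ‖x‖ ^ 2 := by
      rw [hm, hb2, hL, sub_div]
      linarith [(abs_le.1 hat).1]
    have h3 := mul_le_mul_of_nonneg_left
      (downBar_sub hr hk (hbig x hx).1 hmu) hc
    have h4 : |lam * rest x| ≤ c / ‖x‖ ^ 2 * powExp β b ‖x‖ := by
      rw [abs_mul, abs_of_nonneg hl0]
      calc lam * |rest x| ≤ lam * (Kr / ‖x‖ ^ 2 * (KD * powExp β b ‖x‖)) :=
            mul_le_mul_of_nonneg_left ((h1 hr).trans (mul_le_mul_of_nonneg_left (h2 (le_of_lt hx))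
              (by positivity))) hl0
        _ = lam * (Kr * KD) / ‖x‖ ^ 2 * powExp β b ‖x‖ := by ring
        _ ≤ _ := by gcongr
    have e1 : lap B x = -c * lap (downBar β b) x :=
      lap_const_mul (-c) isOpen_ne (contDiffOn_downBar β b) (hne hx)
    rw [e1]
    simp only [hB]
    have := (abs_le.1 h4).2
    ring_nf at h3 this ⊢
    linarith
  · obtain ⟨U, hU⟩ := hloc
    refine ⟨KD * U, ?_⟩
    filter_upwards [habs, hD] with x h1 h2 hx
    rw [abs_mul, abs_neg, abs_one, one_mul]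
    exact h1.trans ((h2 (le_of_lt (hKU hx))).trans
      (mul_le_mul_of_nonneg_left (hU x (hKU hx)) hKD))
  · filter_upwards [hin] with x hx hxR hlt
    have h1 := hx hxR hlt
    have h2 := mul_le_mul_of_nonneg_left (downBar_bounds β b (hr1 x hxR)).2 hc
    simp only [hB]
    linarith
  · obtain ⟨r, hr⟩ := hdec ε hε
    refine ⟨r, ?_⟩
    filter_upwards [habs, hD] with x h1 h2 hxR hlt
    have h3 := hr x hxR hlt
    have h4 := mul_le_mul_of_nonneg_left (downBar_bounds β b (hr1 x hxR)).2 hc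
    have h5 := (neg_abs_le (t x))
    have h6 := h1.trans (h2 (le_of_lt hxR))
    simp only [hB]
    linarith

theorem downLower (hA : AmpStmt) (hRep : RepelStmt) (hDec : DecayStmt) : DownLowerStmt := by
  intro l g u Dg Du eg eu e' Z C
  obtain ⟨lam₁, lo, hi, N, Kp, hlam₁, hlam₁', hlo, hlohi, hN, -, hpar⟩ := params Z C
  obtain ⟨lam₂, εr, Kr₀, hlam₂, -, hrep⟩ := hRep l g u Dg Du eg eu e' Z C
  obtain ⟨lam₃, RD, KD₀, δ, εd, hlam₃, hRD, -, -, hdec⟩ := hDec l g u Dg Du eg eu e' Z C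
  obtain ⟨Cg, hCg, hgap⟩ := powExp_le_of_gap hN (half_pos hlo)
  set Kr := max Kr₀ 0
  set KD := max KD₀ 0
  set L := 4 * |l| with hL
  set R := max (max RD (2 * |l|))
    (max (((3 + 4 * |L|) / lo) ^ 2) (2 * (2 + 4 * |l|) / lo ^ 2)) with hR
  have hRD' : RD ≤ R := (le_max_left _ _).trans (le_max_left _ _)
  have hRl : 2 * |l| ≤ R := (le_max_right _ _).trans (le_max_left _ _)
  have hR1 : 1 ≤ R := hRD.trans hRD'
  obtain ⟨lam₄, η, hlam₄, hη, hnear⟩ :=
    down_near Z C hA hRep (R₁ := R + 1) (by linarith)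
  have hpow : 0 < (R + 1) ^ N := Real.rpow_pos_of_pos (by linarith) N
  set c := η / (2 * (R + 1) ^ N) with hc
  have hc0 : 0 < c := by positivity
  refine ⟨min (min lam₁ lam₂) (min (min lam₃ lam₄) (c / (Kr * KD + 1))),
    lt_min (lt_min hlam₁ hlam₂) (lt_min (lt_min hlam₃ hlam₄) (by positivity)),
    fun lam hlam E3 f D E2 χ Dχ Es χs Ds Et χt Dt hst => ?_⟩
  obtain ⟨hl0, hlt⟩ := hlam
  simp only [lt_min_iff] at hlt
  obtain ⟨⟨hl1, hl2⟩, ⟨hl3, hl4⟩, hl5⟩ := hlt
  obtain ⟨-, hbLo, hbHi, hb2, -, hbN⟩ := hpar lam ⟨hl0, hl1⟩ E3 f D E2 χ Dχ Es χs Ds Et χt Dt hst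
  have hW := fun x => ((hrep lam ⟨hl0, hl2⟩ E3 f D E2 χ Dχ Es χs Ds Et χt Dt hst).2 x).1 χt
    (by simp)
  obtain ⟨-, -, hD, -, -⟩ := hdec lam ⟨hl0, hl3⟩ E3 f D E2 χ Dχ Es χs Ds Et χt Dt hst
  have hn := hnear lam ⟨hl0, hl4⟩ E3 f D E2 χ Dχ Es χs Ds Et χt Dt hst
  set b := decayRate Et E3
  set β := (2 - 2 * lam) / b - 1 with hβ
  have hb0 : 0 < b := hlo.trans_le hbLo
  have hk : b * (β + 1) = 2 - 2 * lam := by rw [hβ]; field_simp; ring
  have hβN : |β| ≤ N := by
    have := abs_sub ((2 - 2 * lam) / b) 1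
    rw [abs_one] at this
    rw [hβ]
    linarith
  have hexp : ∀ r : ℝ, 1 ≤ r → powExp β b r ≤ Cg * Real.exp (-(lo / 2 * r)) := fun r hr => by
    rw [← powExp_zero]
    exact hgap 0 β (lo / 2) b r (by simpa using hN) hβN (by linarith) hr
  have hf : MemLp f 2 := hst.three.lowest.lim.1
  have hφ : MemLp χt 2 := hst.triplet.lowest.lim.1
  have hφi : ipN χt χt = 1 := by simpa [ipN, sq] using hst.triplet.lowest.mass_one
  have habs := ampAt_le_uDown hf hφ hφi
  have hrest := downRest_le (Kr := Kr) hf hφ (fun x => (hW x).1) fun x hx =>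
    ((hW x).2.2 hx).trans (div_le_div_of_nonneg_right (le_max_left _ _) (sq_nonneg _))
  have hwp : WeakPoisson (Ext R) (ampAt 2 χt f) fun x => 2 * ((Et - E3 - attract l x) *
      ampAt 2 χt f x + lam * (2 / ‖x‖ * ampAt 2 χt f x + downRest χt f x)) := by
    refine ((hA l lam E3 f D hl0.le hst.three.lowest _ Et χt Dt hst.triplet.lowest 2).mono
      (Set.subset_univ _)).congr_ae (isOpen_ext R) .rfl (Eventually.of_forall fun x => ?_)
    simp only [downRest]; ring
  have hbig : ∀ x ∈ Ext R, 3 + 4 * |L| ≤ b * Real.sqrt ‖x‖ ∧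
      (2 + 4 * |l|) / ‖x‖ ≤ Et - E3 := fun x hx => by
    have hxR : R ≤ ‖x‖ := le_of_lt hx
    have h1 := Real.le_sqrt_of_sq_le (((le_max_left _ _).trans (le_max_right _ _)).trans hxR)
    rw [div_le_iff₀ hlo] at h1
    refine ⟨h1.trans ((mul_comm _ _).trans_le
      (mul_le_mul_of_nonneg_right hbLo (Real.sqrt_nonneg _))), ?_⟩
    have h2 := ((le_max_right _ _).trans (le_max_right _ _)).trans hxR
    rw [div_le_iff₀ (by positivity)] at h2
    rw [← hb2, div_le_iff₀ (by linarith)]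
    nlinarith [mul_le_mul_of_nonneg_right (pow_le_pow_left₀ hlo.le hbLo 2) (norm_nonneg x)]
  have hlamc : lam * (Kr * KD) ≤ c := by
    rw [lt_div_iff₀ (by positivity)] at hl5
    linarith
  have hD' : ∀ᵐ x : Space, R ≤ ‖x‖ → uDown f x ≤ KD * powExp β b ‖x‖ := by
    filter_upwards [hD] with x hx hxR
    exact (hx (hRD'.trans hxR)).trans
      (mul_le_mul_of_nonneg_right (le_max_left _ _) (powExp_pos _ _ (by linarith)).le)
  have hout := down_compare (c := c) hR1 hRl hl0.le hc0.le (le_max_right _ _) hL hb2 hk hbig hwp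
    habs hrest hD' hlamc
    ⟨Cg, fun x hx => (hexp _ (hR1.trans (le_of_lt hx))).trans
      (mul_le_of_le_one_right hCg (Real.exp_le_one_iff.2 (by nlinarith [norm_nonneg x])))⟩
    (le_max_right _ _) ?_ (fun ε hε => ?_)
  · intro ρ
    set ρ' := max ρ (R + 1)
    have hP : 0 < powExp (-N) hi ρ' :=
      powExp_pos _ _ (lt_of_lt_of_le (by linarith) (le_max_right _ _))
    refine ⟨min η (c * powExp (-N) hi ρ'), lt_min hη (by positivity), ?_⟩
    filter_upwards [hn, hout, habs] with x h1 h2 h3 hx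
    refine le_trans ?_ ((le_abs_self _).trans h3)
    rcases le_or_gt ‖x‖ (R + 1) with h | h
    · exact (min_le_left _ _).trans (h1 h)
    · refine (min_le_right _ _).trans (le_trans ?_ (h2 (show R < ‖x‖ by linarith)))
      exact mul_le_mul_of_nonneg_left (powExp_lower hβN hbHi (hb0.le.trans hbHi) (by linarith)
        (hx.trans (le_max_left _ _))) hc0.le
  · filter_upwards [hn] with x hx hxR hlt
    have hxR' : R < ‖x‖ := hxR
    have hle : powExp β b ‖x‖ ≤ (R + 1) ^ N := by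
      refine (mul_le_of_le_one_right (Real.rpow_nonneg (norm_nonneg x) _)
        (Real.exp_le_one_iff.2 (by nlinarith [norm_nonneg x]))).trans
        ((Real.rpow_le_rpow_of_exponent_le (by linarith) ((le_abs_self β).trans hβN)).trans
          (Real.rpow_le_rpow (norm_nonneg x) hlt.le hN))
    refine le_trans ?_ (hx hlt.le)
    calc c * (2 * powExp β b ‖x‖) ≤ c * (2 * (R + 1) ^ N) := by gcongr
      _ = η := by rw [hc]; field_simp
  · have ht : Tendsto (fun r : ℝ => (KD + 2 * c) * (Cg * Real.exp (-(lo / 2 * r)))) atTop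
        (𝓝 0) := by
      simpa using (((Real.tendsto_exp_neg_atTop_nhds_zero.comp
        (tendsto_id.const_mul_atTop (half_pos hlo))).const_mul Cg).const_mul (KD + 2 * c))
    obtain ⟨r, hr⟩ := eventually_atTop.1 (ht.eventually (gt_mem_nhds hε))
    refine ⟨r, fun x hx hxr => le_trans ?_ (hr ‖x‖ hxr.le).le⟩
    exact mul_le_mul_of_nonneg_left (hexp _ (hR1.trans (le_of_lt hx)))
      (add_nonneg (le_max_right _ _) (by positivity))

end Vale.Agent.P363.Inter
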