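import Vale.Agent.P363.Inter.Bar.PerpBoundPar

/-!
P363, interacting side: the two parities compared, and their sum above the plane.
-/

noncomputable section

namespace Vale.Agent.P363.Inter

open MeasureTheory Metric Filter
open scoped BigOperators Topology

/-- The numbers and the potential of the rough source used by both comparisons. -/
structure ParCtx (l lam E3 E2 gp ε K R₀ R β a κ k δ N A K₀ M Dc τ : ℝ) (f : Cfg 3 → ℝ)
    (χ : Cfg 2 → ℝ) (D : Fin 3 → Fin 3 → Cfg 3 → ℝ) (Dχ : Fin 2 → Fin 3 → Cfg 2 → ℝ)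
    (Ψ : Space → ℝ) : Prop where
  four_le : 4 ≤ R
  r0_le : R₀ ≤ R
  m_cont : ContinuousOn (fun x => E2 + gp / 2 - E3 - attract l x) (Ext R)
  m_ge : ∀ x ∈ Ext R, a ^ 2 / 2 + δ ≤ E2 + gp / 2 - E3 - attract l x ∧
    κ ^ 2 / 2 + δ ≤ E2 + gp / 2 - E3 - attract l x ∧
    k ^ 2 / 2 ≤ E2 + gp / 2 - E3 - attract l x
  par : ∀ x ∈ Ext R, barConst N A / ‖x‖ + (2 * (N + A) + 1) * (2 / K₀ ^ 2) ≤ δ ∧
    2 ≤ 2 / K₀ ^ 2 * ‖x‖
  k0 : 1 ≤ K₀
  beta_le : |β| ≤ N
  beta_sub : |β - 1| ≤ N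
  a0 : 0 ≤ a
  a_le : a ≤ A
  kap0 : 0 ≤ κ
  kap_le : κ ≤ A
  m0 : 0 ≤ M
  tau : 0 < τ
  delta : 0 < δ
  pot : WeakPoisson Set.univ Ψ fun x => k ^ 2 * Ψ x - 2 * farPart ε K R₀ χ f D Dχ x
  far_int : LocallyIntegrableOn (farPart ε K R₀ χ f D Dχ) (Ext R)
  pot_nonneg : ∀ x, 0 ≤ Ψ x
  pot_le : ∀ x ∈ Ext R, Ψ x ≤ Dc * Real.exp (-(τ * ‖x‖))
  perp_bound : ∀ᵐ x, x ∈ Ext R → uPerp χ f x ≤ Dc * Real.exp (-(τ * ‖x‖))
  perp_shell : ∀ᵐ x, x ∈ Ext R → ‖x‖ < R + 1 → uPerp χ f x ≤ M * powExp 0 κ ‖x‖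

variable {l lam E3 E2 gp ε K R₀ R β a κ k δ N A K₀ M Dc τ K₁ T : ℝ} {f : Cfg 3 → ℝ}
  {χ : Cfg 2 → ℝ} {D : Fin 3 → Fin 3 → Cfg 3 → ℝ} {Dχ : Fin 2 → Fin 3 → Cfg 2 → ℝ}
  {Ψ : Space → ℝ}

/-- The part even in `x`. -/
theorem par_even_bound (c : ParCtx l lam E3 E2 gp ε K R₀ R β a κ k δ N A K₀ M Dc τ f χ D Dχ Ψ)
    (h : ParHyp l lam E3 E2 gp ε K R₀ β a κ K₁ T f χ D Dχ) {S₀ : ℝ}
    (hS₀M : 2 * S₀ ≤ M * δ)
    (hsrc : ∀ᵐ x : Space, x ∈ Ext R₀ →
      K * lam * ((|height x| / ‖x‖ ^ 3 + Real.exp (-(ε * ‖x‖))) * |amp χ f x| +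
          |height x| / ‖x‖ ^ 3 * uWeight ε 0 χ f x + farSource ε χ f D Dχ x) ≤
        S₀ * (powExp (β - 1) a ‖x‖ * (height x ^ 2 + 1)) + farPart ε K R₀ χ f D Dχ x) :
    ∀ᵐ x : Space, x ∈ Ext R →
      uPar (-1) χ f x ≤ gapBar M (β - 1) a κ (profB K₀) x + Ψ x := by
  have hR4 := c.four_le
  have hU := isOpen_ext R
  have hne : Ext R ⊆ {x : Space | x ≠ 0} := ext_subset_ne_zero (by linarith)
  have hR1 : Ext R ⊆ {x : Space | 1 < ‖x‖} := fun x (hx : R < ‖x‖) =>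
    lt_trans (by linarith : (1 : ℝ) < R) hx
  obtain ⟨hd1, hd2, hpf⟩ := profB_facts (zero_lt_one.trans_le c.k0)
  have hSc : ContinuousOn (fun x => S₀ * (powExp (β - 1) a ‖x‖ * (height x ^ 2 + 1))) (Ext R) :=
    continuousOn_const.mul (((contDiffOn_powExp_norm (β - 1) a).continuousOn.mono hne).mul
      ((continuous_height.pow 2).add continuous_const).continuousOn)
  have hu := h.par_even.mono hR1
  have hu' : WeakSubPoisson (Ext R) (uPar (-1) χ f) fun x =>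
      2 * ((E2 + gp / 2 - E3 - attract l x) * uPar (-1) χ f x -
        S₀ * (powExp (β - 1) a ‖x‖ * (height x ^ 2 + 1)) - farPart ε K R₀ χ f D Dχ x) := by
    refine hu.weaken ?_ ?_ hU
    · exact (((hu.1.continuousOn_mul c.m_cont hU.isLocallyClosed).sub
        (hSc.locallyIntegrableOn hU.measurableSet)).sub c.far_int).smul (2 : ℝ)
    · filter_upwards [ae_restrict_mem hU.measurableSet, ae_restrict_of_ae hsrc] with x hx hb
      have hb' := hb (ext_mono c.r0_le hx)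
      linarith only [hb']
  refine compare_far c.tau hu' c.pot c.far_int c.pot_nonneg c.m_cont (fun x hx => (c.m_ge x hx).2.2)
    (D := Dc) ?_ c.pot_le ((contDiffOn_gapBar M _ a κ (contDiff_profB K₀)).mono hne)
    (fun x hx => (gapBar_ge c.m0 (hne hx) (hpf _).1).2.2) (ae_of_all _ fun x hx => ?_) ?_
  · filter_upwards [h.parity, c.perp_bound] with x hp hb hx
    rw [abs_of_nonneg (show 0 ≤ uPar (-1) χ f x from Real.sqrt_nonneg _)]
    exact hp.2.1.trans (hb hx)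
  · obtain ⟨hsm, hth⟩ := c.par x hx
    obtain ⟨hp0, hpb, hpc⟩ := hpf (height x)
    have hl := gap_super hd1 hd2 (contDiff_profB K₀) c.m0 (show 0 ≤ 2 / K₀ ^ 2 by positivity)
      c.beta_sub c.a0 c.a_le c.kap0 c.kap_le (le_of_lt (hR1 hx)) hp0
      (hpb.trans (mul_le_mul_of_nonneg_right hth hp0)) hpc (c.m_ge x hx).1 (c.m_ge x hx).2.1 hsm
    have hP := (powExp_pos (β - 1) a (norm_pos_iff.2 (hne hx))).le
    have e1 := mul_le_mul_of_nonneg_left (gapBar_ge (β := β - 1) (a := a) (κ := κ)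
      (p := profB K₀) c.m0 (hne hx) hp0).1 c.delta.le
    have e2 : height x ^ 2 + 1 ≤ profB K₀ (height x) := by
      have := pow_le_pow_left₀ zero_le_one c.k0 2
      simp only [profB]
      linarith only [this]
    have e3 := mul_le_mul hS₀M (mul_le_mul_of_nonneg_left e2 hP) (by positivity)
      (mul_nonneg c.m0 c.delta.le)
    linarith only [hl, e1, e3]
  · filter_upwards [h.parity, c.perp_shell] with x hp hb hx hlt
    exact (hp.2.1.trans (hb hx hlt)).trans (gapBar_ge c.m0 (hne hx) (hpf _).1).2.1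

/-- The part odd in `x`, above its linear barrier. -/
theorem par_odd_bound (c : ParCtx l lam E3 E2 gp ε K R₀ R β a κ k δ N A K₀ M Dc τ f χ D Dχ Ψ)
    (h : ParHyp l lam E3 E2 gp ε K R₀ β a κ K₁ T f χ D Dχ) {S₁ Mo : ℝ}
    (hMo : 1 ≤ Mo) (hS₁M : 2 * S₁ ≤ Mo * δ)
    (hsrc : ∀ᵐ x : Space, x ∈ Ext R₀ →
      K * lam * (1 / ‖x‖ ^ 2 * |amp χ f x| + |height x| / ‖x‖ ^ 3 * uWeight ε 0 χ f x +
          farSource ε χ f D Dχ x) ≤
        S₁ * (powExp β a ‖x‖ * |height x|) + farPart ε K R₀ χ f D Dχ x) :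
    ∀ᵐ x : Space, x ∈ Ext R → 0 < height x →
      uPar 1 χ f x ≤ gapBar Mo β a κ (fun t => t) x + (M * powExp 0 κ ‖x‖ + Ψ x) := by
  have hR4 := c.four_le
  have hU := isOpen_ext R
  have hne : Ext R ⊆ {x : Space | x ≠ 0} := ext_subset_ne_zero (by linarith)
  have hR1 : Ext R ⊆ {x : Space | 1 < ‖x‖} := fun x (hx : R < ‖x‖) =>
    lt_trans (by linarith : (1 : ℝ) < R) hx
  have hMo0 : 0 ≤ Mo := zero_le_one.trans hMo
  set B : Space → ℝ := gapBar Mo β a κ fun t => t with hB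
  have hBc : ContDiffOn ℝ 2 B (Ext R) := (contDiffOn_gapBar Mo β a κ contDiff_id).mono hne
  have hBge : ∀ x ∈ Ext R, 0 ≤ height x → Mo * (powExp β a ‖x‖ * height x) ≤ B x ∧ 0 < B x := by
    intro x hx hz
    obtain ⟨g1, g2, -⟩ := gapBar_ge (β := β) (a := a) (κ := κ) (p := fun t => t) hMo0 (hne hx) hz
    exact ⟨g1, lt_of_lt_of_le (mul_pos (zero_lt_one.trans_le hMo)
      (powExp_pos _ _ (norm_pos_iff.2 (hne hx)))) g2⟩
  set v : Space → ℝ := fun x => if 0 < height x then max (uPar 1 χ f x - B x) 0 else 0 with hv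
  have hu := h.par_odd B R (by linarith) hBc fun x hx hz => (hBge x hx hz.ge).2
  have hu' : WeakSubPoisson (Ext R) v fun x =>
      2 * ((E2 + gp / 2 - E3 - attract l x) * v x - 0 - farPart ε K R₀ χ f D Dχ x) := by
    refine hu.weaken ?_ ?_ hU
    · have h1 : LocallyIntegrableOn (fun x => (E2 + gp / 2 - E3 - attract l x) * v x) (Ext R) :=
        (show LocallyIntegrableOn v (Ext R) volume from hu.1).continuousOn_mul c.m_cont
          hU.isLocallyClosed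
      simp only [sub_zero]
      exact (h1.sub c.far_int).smul (2 : ℝ)
    · filter_upwards [ae_restrict_mem hU.measurableSet, ae_restrict_of_ae hsrc] with x hx hb
      simp only [hv]
      by_cases hact : 0 < height x ∧ B x < uPar 1 χ f x
      · rw [if_pos hact, if_pos hact.1, max_eq_left (sub_nonneg.2 hact.2.le)]
        have hz := hact.1
        obtain ⟨hsm, hth⟩ := c.par x hx
        have hl := gap_super (p := fun t => t) (p1 := fun _ => 1) (p2 := fun _ => 0)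
          (fun t => hasDerivAt_id t) (fun t => hasDerivAt_const t 1) contDiff_id hMo0
          (show 0 ≤ 2 / K₀ ^ 2 by positivity) c.beta_le c.a0 c.a_le c.kap0 c.kap_le
          (le_of_lt (hR1 hx)) hz.le
          (by rw [mul_one, abs_of_pos hz]; exact le_mul_of_one_le_left hz.le (by linarith))
          (by positivity) (c.m_ge x hx).1 (c.m_ge x hx).2.1 hsm
        have e1 := mul_le_mul_of_nonneg_left (hBge x hx hz.le).1 c.delta.le
        have e2 := mul_le_mul_of_nonneg_right hS₁M (mul_nonneg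
          (powExp_pos β a (norm_pos_iff.2 (hne hx))).le hz.le)
        have hb' := hb (ext_mono c.r0_le hx)
        rw [abs_of_pos hz] at hb'
        rw [← hB] at hl
        simp only [abs_of_pos hz]
        linarith only [hl, e1, e2, hb']
      · rw [if_neg hact]
        have : (if 0 < height x then max (uPar 1 χ f x - B x) 0 else 0) = 0 := by
          split_ifs with hz
          · exact max_eq_right (sub_nonpos.2 (not_lt.1 fun hlt => hact ⟨hz, hlt⟩))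
          · rfl
        rw [this, mul_zero, sub_zero, zero_sub]
        exact mul_nonpos_of_nonneg_of_nonpos zero_le_two
          (neg_nonpos.2 (farPart_nonneg x))
  have hvle : ∀ x ∈ Ext R, 0 ≤ v x ∧ v x ≤ max (uPar 1 χ f x) 0 := by
    intro x hx
    simp only [hv]
    split_ifs with hz
    · exact ⟨le_max_right _ _, max_le_max (sub_le_self _ (hBge x hx hz.le).2.le) le_rfl⟩
    · exact ⟨le_rfl, le_max_right _ _⟩
  have hBs : ContDiffOn ℝ 2 (fun x : Space => M * powExp 0 κ ‖x‖) (Ext R) :=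
    contDiffOn_const.mul ((contDiffOn_powExp_norm 0 κ).mono hne)
  have key := compare_far c.tau hu' c.pot c.far_int c.pot_nonneg c.m_cont
    (fun x hx => (c.m_ge x hx).2.2) (D := Dc) ?_ c.pot_le hBs
    (fun x hx => mul_nonneg c.m0 (powExp_pos _ _ (norm_pos_iff.2 (hne hx))).le)
    (ae_of_all _ fun x hx => ?_) ?_
  · filter_upwards [key] with x hk hx hz
    have h1 := hk hx
    simp only [hv, if_pos hz] at h1
    have h2 := (le_max_left (uPar 1 χ f x - B x) 0).trans h1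
    linarith only [h2]
  · filter_upwards [h.parity, c.perp_bound] with x hp hb hx
    rw [abs_of_nonneg (hvle x hx).1]
    exact (hvle x hx).2.trans (max_le (hp.1.trans (hb hx))
      ((Real.sqrt_nonneg _).trans (hb hx)))
  · rw [lap_const_mul M hU ((contDiffOn_powExp_norm 0 κ).mono hne) hx]
    have hs1 := (c.par x hx).1
    have hN0 : 0 ≤ N := (abs_nonneg _).trans c.beta_le
    have hA0 : 0 ≤ A := c.a0.trans c.a_le
    have hl := lap_powExp_gap (β := 0) (N := N) (by simpa using hN0) c.kap0 c.kap_le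
      (le_of_lt (hR1 hx)) (c.m_ge x hx).2.1
      (le_trans (le_add_of_nonneg_right (by positivity)) hs1)
    have hp : 0 ≤ M * (δ * powExp 0 κ ‖x‖) :=
      mul_nonneg c.m0 (mul_nonneg c.delta.le (powExp_pos _ _ (norm_pos_iff.2 (hne hx))).le)
    have := mul_le_mul_of_nonneg_left hl c.m0
    linarith only [this, hp]
  · filter_upwards [h.parity, c.perp_shell] with x hp hb hx hlt
    exact (hvle x hx).2.trans (max_le (hp.1.trans (hb hx hlt))
      ((Real.sqrt_nonneg _).trans (hb hx hlt)))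

lemma par_combine {u P Y Z pb z2 Me Mo Kp c : ℝ}
    (hu : u ≤ Me * (P * pb + Z) + Kp * Z + (Mo * (Y + Z) + (Me * Z + Kp * Z)))
    (hpb : pb ≤ c * z2) (hP : 0 ≤ P) (hY : 0 ≤ Y) (hZ : 0 ≤ Z) (hz : 0 ≤ z2) (hMe : 0 ≤ Me)
    (hMo : 0 ≤ Mo) (hKp : 0 ≤ Kp) (hc : 0 ≤ c) :
    u ≤ (Me * c + 2 * Mo + 2 * Me + 2 * Kp) * (P * z2 + Y + Z) := by
  have hPz := mul_nonneg hP hz
  have e1 := mul_le_mul_of_nonneg_left (mul_le_mul_of_nonneg_left hpb hP) hMe
  have e2 := mul_nonneg (mul_nonneg hMe hc) (add_nonneg hY hZ)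
  have e3 := mul_nonneg hMo (add_nonneg hPz hY)
  have e4 := mul_nonneg hMe (add_nonneg hPz hY)
  have e5 := mul_nonneg hKp (add_nonneg hPz hY)
  have e6 := mul_nonneg hMo (add_nonneg hPz hZ)
  nlinarith only [hu, e1, e2, e3, e4, e5, e6]

lemma far_sq_facts {κ T K R₀ : ℝ} (hκ : 0 ≤ κ)
    (hm : MemLp (fun x => Real.exp (κ * ‖x‖) * (Ext R₀).indicator (farSource ε χ f D Dχ) x) 2)
    (hT : ∫ x, (Real.exp (κ * ‖x‖) * (Ext R₀).indicator (farSource ε χ f D Dχ) x) ^ 2 ≤ T) :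
    MemLp (fun y => Real.exp (κ * ‖y‖) * (2 * farPart ε K R₀ χ f D Dχ y)) 2 ∧
      ∫ y, (Real.exp (κ * ‖y‖) * (2 * farPart ε K R₀ χ f D Dχ y)) ^ 2 ≤ (2 * |K|) ^ 2 * |T| ∧
      LocallyIntegrable (farPart ε K R₀ χ f D Dχ) := by
  have hqe : MemLp (fun y => Real.exp (κ * ‖y‖) * (2 * farPart ε K R₀ χ f D Dχ y)) 2 :=
    (hm.const_mul (2 * |K|)).ae_eq (ae_of_all _ fun y => by simp only [farPart]; ring)
  refine ⟨hqe, ?_, ?_⟩
  · calc ∫ y, (Real.exp (κ * ‖y‖) * (2 * farPart ε K R₀ χ f D Dχ y)) ^ 2 = (2 * |K|) ^ 2 *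
        ∫ y, (Real.exp (κ * ‖y‖) * (Ext R₀).indicator (farSource ε χ f D Dχ) y) ^ 2 := by
          rw [← integral_const_mul]
          exact integral_congr_ae (ae_of_all _ fun y => by simp only [farPart]; ring)
      _ ≤ _ := mul_le_mul_of_nonneg_left (hT.trans (le_abs_self T)) (sq_nonneg _)
  · have hq2 : MemLp (farPart ε K R₀ χ f D Dχ) 2 := by
      refine hqe.mono ?_ (ae_of_all _ fun y => ?_)
      · refine ((Measurable.aestronglyMeasurable (μ := volume)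
          (show Measurable fun x : Space => Real.exp (-(κ * ‖x‖)) / 2 by fun_prop)).mul
          hqe.1).congr (ae_of_all _ fun y => ?_)
        simp only [Pi.mul_apply]
        rw [Real.exp_neg]
        field_simp
      · have hq := farPart_nonneg (ε := ε) (K := K) (R₀ := R₀) (χ := χ) (f := f) (D := D)
          (Dχ := Dχ) y
        rw [Real.norm_eq_abs, Real.norm_eq_abs, abs_of_nonneg hq,
          abs_of_nonneg (mul_nonneg (Real.exp_pos _).le (mul_nonneg zero_le_two hq))]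
        exact (le_mul_of_one_le_left hq one_le_two).trans
          (le_mul_of_one_le_left (mul_nonneg zero_le_two hq) (Real.one_le_exp (by positivity)))
    exact hq2.locallyIntegrable one_le_two

/-- The excited slice above the plane, from the two parities. -/
theorem par_bound (l N A ε gp K K₁ T R₀ : ℝ) {δ d a₀ : ℝ} (hN : 0 ≤ N) (hA : 0 ≤ A)
    (hK₁ : 0 ≤ K₁) (hR₀ : 1 ≤ R₀) (hl : |l| ≤ R₀) (hε : 0 < ε) (hδ : 0 < δ) (hd : 0 < d)
    (ha₀ : 0 < a₀) :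
    ∃ R K' : ℝ, 4 ≤ R ∧ 0 ≤ K' ∧ ∀ (lam E3 E2 β a κ : ℝ) (f : Cfg 3 → ℝ) (χ : Cfg 2 → ℝ)
      (D : Fin 3 → Fin 3 → Cfg 3 → ℝ) (Dχ : Fin 2 → Fin 3 → Cfg 2 → ℝ),
      ParHyp l lam E3 E2 gp ε K R₀ β a κ K₁ T f χ D Dχ →
      |β + 2| ≤ N → |β - 1| ≤ N → |β + 1| ≤ N → |β| ≤ N → a₀ ≤ a → a ≤ A →
      a₀ / 2 ≤ κ → κ ≤ A →
      (∀ x ∈ Ext R₀, a ^ 2 / 2 + δ ≤ E2 + gp / 2 - E3 - attract l x ∧
        κ ^ 2 / 2 + δ ≤ E2 + gp / 2 - E3 - attract l x ∧
        (κ + d) ^ 2 / 2 ≤ E2 + gp / 2 - E3 - attract l x) →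
      ∀ᵐ x : Space, R < ‖x‖ → 0 < height x → uPerp χ f x ≤
        K' * (powExp (β - 1) a ‖x‖ * (height x ^ 2 + 1) + powExp β a ‖x‖ * |height x| +
          powExp 0 κ ‖x‖) := by
  obtain ⟨Cg, Cτ, hCg, hCτ, hpow⟩ := gap_pow (A := A) hN hε ha₀
  obtain ⟨K₀, R₁, hK₀, hR₁, hpar⟩ := exists_gap_params N A hδ
  obtain ⟨R, hRd⟩ : ∃ R, R = max R₁ R₀ := ⟨_, rfl⟩
  have hR4 : 4 ≤ R := hR₁.trans (hRd ▸ le_max_left _ _)
  have hRR : R₀ ≤ R := hRd ▸ le_max_right _ _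
  have hR1R : R₁ ≤ R := hRd ▸ le_max_left _ _
  obtain ⟨low, hlow⟩ : ∃ v, v = powExp (-N) A (R + 1) := ⟨_, rfl⟩
  have hlow0 : 0 < low := hlow ▸ powExp_pos _ _ (by linarith)
  obtain ⟨Kp, hKp⟩ : ∃ v, v = Real.sqrt (∫ y, yuk d y ^ 2) * (2 * |K| * Real.sqrt |T|) := ⟨_, rfl⟩
  have hKp0 : 0 ≤ Kp := hKp ▸ by positivity
  obtain ⟨DD, hDD⟩ : ∃ v, v = max (2 * (K₁ * Cτ)) Kp := ⟨_, rfl⟩
  have hDD0 : 0 ≤ DD := hDD ▸ hKp0.trans (le_max_right _ _)
  obtain ⟨Mo, hMo⟩ : ∃ v, v = max 1 (2 * (|K| * (K₁ * 3)) / δ) := ⟨_, rfl⟩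
  have hMo1 : 1 ≤ Mo := hMo ▸ le_max_left _ _
  have hMoS : 2 * (|K| * (K₁ * 3)) ≤ Mo * δ := (div_le_iff₀ hδ).1 (hMo ▸ le_max_right _ _)
  obtain ⟨Me, hMe⟩ : ∃ v, v = max (DD / low) (2 * (|K| * (K₁ * (3 + Cg))) / δ) := ⟨_, rfl⟩
  have hMe0 : 0 ≤ Me := (div_nonneg hDD0 hlow0.le).trans (hMe ▸ le_max_left _ _)
  have hMeS : 2 * (|K| * (K₁ * (3 + Cg))) ≤ Me * δ :=
    (div_le_iff₀ hδ).1 (hMe ▸ le_max_right _ _)
  have hMeD : DD ≤ Me * low := (div_le_iff₀ hlow0).1 (hMe ▸ le_max_left _ _)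
  refine ⟨R, Me * (1 + K₀ ^ 2) + 2 * Mo + 2 * Me + 2 * Kp, hR4, by positivity,
    fun lam E3 E2 β a κ f χ D Dχ h hb2 hbm hb1 hb ha haA hκ0 hκA hm => ?_⟩
  have hκp : 0 ≤ κ := le_trans (by linarith only [ha₀]) hκ0
  obtain ⟨hqe, hqT, hqI⟩ := far_sq_facts (K := K) hκp h.far_mem h.far_le
  obtain ⟨hΨ, hΨb⟩ := pot_far_explicit hd hκp
    (fun x => mul_nonneg zero_le_two (farPart_nonneg x)) hqe hqT (κ + d) le_rfl
  have hΨle : ∀ x, Yuk.pot (κ + d) (fun y => 2 * farPart ε K R₀ χ f D Dχ y) x ≤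
      Kp * Real.exp (-(κ * ‖x‖)) := fun x => by
    refine (hΨb x).2.trans (le_of_eq ?_)
    rw [hKp, Real.sqrt_mul (sq_nonneg _), Real.sqrt_sq (show 0 ≤ 2 * |K| by positivity)]
  have hexp : ∀ x : Space, Real.exp (-(κ * ‖x‖)) ≤ Real.exp (-(a₀ / 2 * ‖x‖)) := fun x =>
    Real.exp_le_exp.2 (neg_le_neg (mul_le_mul_of_nonneg_right hκ0 (norm_nonneg x)))
  have hτ : ∀ x : Space, 1 ≤ ‖x‖ →
      K₁ * (powExp β a ‖x‖ * (|height x| + 1)) ≤ DD * Real.exp (-(a₀ / 2 * ‖x‖)) := by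
    intro x hx
    have hzr : |height x| + 1 ≤ 2 * ‖x‖ := by
      have hz : |height x| ≤ ‖x‖ := PiLp.norm_apply_le x 2
      linarith only [hz, hx]
    have h1 := (hpow β a ‖x‖ hb2 hbm hb1 ha haA hx).2
    rw [powExp_eq_mul (β + 1) β a (by linarith), show β + 1 - β = 1 by ring, Real.rpow_one] at h1
    calc K₁ * (powExp β a ‖x‖ * (|height x| + 1)) ≤ K₁ * (powExp β a ‖x‖ * (2 * ‖x‖)) :=
          mul_le_mul_of_nonneg_left (mul_le_mul_of_nonneg_left hzr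
            (powExp_pos β a (by linarith)).le) hK₁
      _ = 2 * (K₁ * (‖x‖ * powExp β a ‖x‖)) := by ring
      _ ≤ 2 * (K₁ * (Cτ * Real.exp (-(a₀ / 2 * ‖x‖)))) :=
          mul_le_mul_of_nonneg_left (mul_le_mul_of_nonneg_left h1 hK₁) zero_le_two
      _ = 2 * (K₁ * Cτ) * Real.exp (-(a₀ / 2 * ‖x‖)) := by ring
      _ ≤ _ := mul_le_mul_of_nonneg_right (hDD ▸ le_max_left _ _) (Real.exp_pos _).le
  have hub : ∀ᵐ x, x ∈ Ext R → uPerp χ f x ≤ DD * Real.exp (-(a₀ / 2 * ‖x‖)) := by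
    filter_upwards [h.perp_le] with x hp hx
    exact (hp (ext_mono hRR hx)).trans
      (hτ x (le_trans (by linarith only [hR4]) (le_of_lt hx)))
  have hshell : ∀ᵐ x, x ∈ Ext R → ‖x‖ < R + 1 → uPerp χ f x ≤ Me * powExp 0 κ ‖x‖ := by
    filter_upwards [hub] with x hu hx hlt
    have hl := powExp_lower (β := 0) (ρ := R + 1) (N := N) (by simpa using hN) hκA hA
      (le_trans (by linarith only [hR4]) (le_of_lt hx)) hlt.le
    have h2 : DD * Real.exp (-(a₀ / 2 * ‖x‖)) ≤ DD := mul_le_of_le_one_right hDD0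
      (Real.exp_le_one_iff.2 (neg_nonpos.2 (by positivity)))
    rw [← hlow] at hl
    exact ((hu hx).trans h2).trans (hMeD.trans (mul_le_mul_of_nonneg_left hl hMe0))
  have c : ParCtx l lam E3 E2 gp ε K R₀ R β a κ (κ + d) δ N A K₀ Me DD (a₀ / 2) f χ D Dχ
      (Yuk.pot (κ + d) fun y => 2 * farPart ε K R₀ χ f D Dχ y) :=
    { four_le := hR4
      r0_le := hRR
      m_cont := continuousOn_const.sub (continuousOn_attract l (hl.trans hRR))
      m_ge := fun x hx => hm x (ext_mono hRR hx)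
      par := fun x hx => hpar x (hR1R.trans (le_of_lt hx))
      k0 := hK₀
      beta_le := hb
      beta_sub := hbm
      a0 := ha₀.le.trans ha
      a_le := haA
      kap0 := hκp
      kap_le := hκA
      m0 := hMe0
      tau := half_pos ha₀
      delta := hδ
      pot := hΨ
      far_int := hqI.locallyIntegrableOn _
      pot_nonneg := fun x => (hΨb x).1
      pot_le := fun x _ => (hΨle x).trans (mul_le_mul (hDD ▸ le_max_right _ _) (hexp x)
        (Real.exp_pos _).le hDD0)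
      perp_bound := hub
      perp_shell := hshell }
  have hsrc := par_sources h hK₁ hR₀ hCg fun r hr => (hpow β a r hb2 hbm hb1 ha haA hr).1
  have hE := par_even_bound c h hMeS
    (by filter_upwards [hsrc] with x hx hxR; exact (hx hxR).1)
  have hO := par_odd_bound c h hMo1 hMoS
    (by filter_upwards [hsrc] with x hx hxR; exact (hx hxR).2)
  filter_upwards [hE, hO, h.parity] with x hxE hxO hxp hxR hz
  have hr : 0 < ‖x‖ := by linarith only [hxR, hR4]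
  have hb3 : profB K₀ (height x) ≤ (1 + K₀ ^ 2) * (height x ^ 2 + 1) := by
    simp only [profB]
    nlinarith only [sq_nonneg (height x), sq_nonneg (K₀ * height x)]
  refine par_combine (Y := powExp β a ‖x‖ * |height x|) ?_ hb3 (powExp_pos _ _ hr).le
    (mul_nonneg (powExp_pos _ _ hr).le (abs_nonneg _)) (powExp_pos _ _ hr).le (by positivity)
    hMe0 (zero_le_one.trans hMo1) hKp0 (by positivity)
  have h4 := hΨle x
  rw [← powExp_zero] at h4
  have h1 := hxE hxR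
  have h2 := hxO hxR hz
  simp only [gapBar] at h1 h2
  rw [abs_of_pos hz]
  linarith only [hxp.2.2, h1, h2, h4]

end Vale.Agent.P363.Inter
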