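import Vale.Agent.P363.Inter.Bar.PerpBoundGain
import Vale.Agent.P363.Inter.Bar.PerpBoundParity
import Vale.Agent.P363.Inter.Bar.OddLinear
import Vale.Agent.P363.Exist.One.Sign

/-!
P363, interacting side: the excited slice gains a power of the distance, and one more near the
mirror plane.
-/

noncomputable section

namespace Vale.Agent.P363.Inter

open MeasureTheory Metric Filter
open scoped BigOperators Topology

variable {l gp g₀ Q A N a₀ δ Ka lam E3 E2 a β : ℝ} {f : Cfg 3 → ℝ} {χ : Cfg 2 → ℝ}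

/-- The premise of the parity inequalities. -/
lemma moment_premise {ε K : ℝ} (hε : 0 ≤ ε) {D : Fin 3 → Fin 3 → Cfg 3 → ℝ}
    (h : MolBound (4 * ε) K f D) :
    Integrable fun x : Cfg 3 => (∑ i, Real.exp (8 * ε * ‖x i‖)) * f x ^ 2 := by
  refine (integrable_finsetSum Finset.univ fun i _ => (h.mem i).integrable_sq).mono'
    ((Measurable.aestronglyMeasurable (by fun_prop)).mul (h.inH1.memLp.1.pow 2))
    (ae_of_all _ fun x => ?_)
  rw [Real.norm_eq_abs, abs_of_nonneg (by positivity), Finset.sum_mul]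
  refine Finset.sum_le_sum fun i _ => ?_
  rw [mul_pow, wexp_single, ← Real.exp_nat_mul, expo_zero]
  refine mul_le_mul_of_nonneg_right (Real.exp_le_exp.2 ?_) (sq_nonneg _)
  calc 8 * ε * ‖x i‖ ≤ 8 * ε * smoothNorm (x i) :=
        mul_le_mul_of_nonneg_left (norm_le_smoothNorm _) (by positivity)
    _ = _ := by push_cast; ring

/-- From the upper half space to the claimed bound everywhere. -/
lemma both_sides {R K C κ lam E2 E3 : ℝ} (hR : 1 ≤ R) (hK : 0 ≤ K) (hC : 0 ≤ C)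
    (hb : β + 2 = (2 - 2 * lam) / decayRate E2 E3 - 2) (ha : a = decayRate E2 E3)
    (hg : ∀ r : ℝ, 1 ≤ r → powExp 0 κ r ≤ C * powExp (β - 1) a r)
    (hmir : ∀ᵐ x : Space, uPerp χ f (mirror x) = uPerp χ f x)
    (h : ∀ᵐ x : Space, R < ‖x‖ → 0 < height x → uPerp χ f x ≤
      K * (powExp (β - 1) a ‖x‖ * (height x ^ 2 + 1) + powExp β a ‖x‖ * |height x| +
        powExp 0 κ ‖x‖)) :
    ∀ᵐ x : Space, R + 1 ≤ ‖x‖ → uPerp χ f x ≤
      K * (2 + C) * (|height x| / ‖x‖ ^ 2 + (‖x‖ ^ 3)⁻¹) * molTail lam E2 E3 ‖x‖ := by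
  have h' : ∀ᵐ x : Space, R < ‖x‖ → height x < 0 → uPerp χ f x ≤
      K * (powExp (β - 1) a ‖x‖ * (height x ^ 2 + 1) + powExp β a ‖x‖ * |height x| +
        powExp 0 κ ‖x‖) := by
    filter_upwards [One.measurePreserving_mirror.quasiMeasurePreserving.ae h, hmir]
      with x hx hm hxR hz
    rw [norm_mirror, One.height_mirror, hm, neg_sq, abs_neg] at hx
    exact hx hxR (by linarith)
  filter_upwards [h, h', One.ae_height_ne] with x hp hn hne hxR
  have hr : 1 ≤ ‖x‖ := by linarith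
  have hr0 : 0 < ‖x‖ := by linarith
  have hb' : uPerp χ f x ≤ K * (powExp (β - 1) a ‖x‖ * (height x ^ 2 + 1) +
      powExp β a ‖x‖ * |height x| + powExp 0 κ ‖x‖) := by
    rcases lt_or_gt_of_ne hne with hz | hz
    · exact hn (by linarith) hz
    · exact hp (by linarith) hz
  refine hb'.trans ?_
  rw [molTail, ← hb, ← ha]
  have e2 : powExp (β + 2) a ‖x‖ = ‖x‖ ^ 3 * powExp (β - 1) a ‖x‖ := by
    rw [powExp_eq_mul (β + 2) (β - 1) a hr0, show β + 2 - (β - 1) = ((3 : ℕ) : ℝ) by push_cast; ring,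
      Real.rpow_natCast]
  have e1 : powExp β a ‖x‖ = ‖x‖ * powExp (β - 1) a ‖x‖ := by
    rw [powExp_eq_mul β (β - 1) a hr0, show β - (β - 1) = 1 by ring, Real.rpow_one]
  have hg' := hg _ hr
  rw [e1, e2]
  set P := powExp (β - 1) a ‖x‖
  have hP : 0 ≤ P := (powExp_pos _ _ hr0).le
  have hz2 : height x ^ 2 ≤ |height x| * ‖x‖ := by
    rw [← sq_abs, sq]
    exact mul_le_mul_of_nonneg_left (PiLp.norm_apply_le x 2) (abs_nonneg _)
  rw [show K * (2 + C) * (|height x| / ‖x‖ ^ 2 + (‖x‖ ^ 3)⁻¹) * (‖x‖ ^ 3 * P) =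
    K * ((2 + C) * (|height x| * ‖x‖ * P + P)) by field_simp]
  refine mul_le_mul_of_nonneg_left ?_ hK
  have e3 := mul_le_mul_of_nonneg_left hz2 hP
  have e4 : 0 ≤ C * (|height x| * ‖x‖ * P) := by positivity
  linarith only [e3, e4, hg', hP]

/-- The excited part, with the gain near the plane. -/
theorem perpBound (hP : PerpStmt) (hW : WeightStmt) (hE : WeightEnergyStmt) (hPar : ParStmt)
    (hA : AmpBoundStmt) : PerpBoundStmt := by
  intro l g u Dg Du eg eu e' Z C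
  obtain ⟨lam₁, δ, A, a₀, N₀, hR, hrate⟩ := exists_rates Z C
  obtain ⟨lam₂, K₃, hlam₂, hperp⟩ := hP l g u Dg Du eg eu e' Z C
  obtain ⟨lam₃, εW, K₆, hlam₃, hεW, hweight⟩ := hW l g u Dg Du eg eu e' Z C
  obtain ⟨lam₄, εE, K₅, hlam₄, hεE, henergy⟩ := hE l g u Dg Du eg eu e' Z C
  obtain ⟨lam₅, εP, KP, hlam₅, hεP, hparity⟩ := hPar l g u Dg Du eg eu e' Z C
  obtain ⟨lam₆, RA, Ka₀, cA, hlam₆, hRA, -, hamp⟩ := hA l g u Dg Du eg eu e' Z C
  obtain ⟨lam₇, εM, Km, hlam₇, -, hεM, hmol⟩ := mol_decay Z C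
  have hgap : 0 < eu - eg := sub_pos.2 Z.eg_lt
  have hδ := hR.δ_pos
  have ha₀ := hR.a₀_pos
  set g₀ := min ((eu - eg) / 8) (a₀ * δ / 4) with hg₀
  have hg₀p : 0 < g₀ := lt_min (by positivity) (by positivity)
  set Q := max (max (max 1 (2 * |l|)) ((2 + 4 * |l|) / g₀)) RA with hQ
  have hQ1 : 1 ≤ Q := ((le_max_left _ _).trans (le_max_left _ _)).trans (le_max_left _ _)
  have hQl : 2 * |l| ≤ Q := ((le_max_right _ _).trans (le_max_left _ _)).trans (le_max_left _ _)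
  have hQg : (2 + 4 * |l|) / Q ≤ g₀ := by
    rw [div_le_iff₀ (show 0 < Q by linarith), ← div_le_iff₀' hg₀p]
    exact (le_max_right _ _).trans (le_max_left _ _)
  have F : FarCtx l (eu - eg) g₀ Q A (N₀ + 6) a₀ δ (max Ka₀ 0) :=
    { g₀_pos := hg₀p
      g₀_gp := by linarith [min_le_left ((eu - eg) / 8) (a₀ * δ / 4)]
      g₀_δ := by linarith [min_le_right ((eu - eg) / 8) (a₀ * δ / 4)]
      one_le := hQ1
      l_le := hQl
      small := fun x hx => by
        obtain ⟨-, -, e, -, e'⟩ := far_facts hQ1 hQl hx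
        exact e.trans (e'.trans hQg)
      a₀_pos := ha₀
      δ_pos := hδ
      N_nonneg := by linarith [hR.N_nonneg]
      A_nonneg := ha₀.le.trans hR.a₀_le
      Ka_nonneg := le_max_right _ _ }
  set ε := min (min εW εE) (min (min εP (εM / 4)) (min δ a₀)) with hεdef
  have hε : 0 < ε := lt_min (lt_min hεW hεE) (lt_min (lt_min hεP (by positivity)) (lt_min hδ ha₀))
  have hεW' : ε ≤ εW := (min_le_left _ _).trans (min_le_left _ _)
  have hεE' : ε ≤ εE := (min_le_left _ _).trans (min_le_right _ _)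
  have hεP' : ε ≤ εP := (min_le_right _ _).trans ((min_le_left _ _).trans (min_le_left _ _))
  have hεM' : ε ≤ εM / 4 := (min_le_right _ _).trans ((min_le_left _ _).trans (min_le_right _ _))
  have hεδ : ε ≤ δ := (min_le_right _ _).trans ((min_le_right _ _).trans (min_le_left _ _))
  have hεa : ε ≤ a₀ := (min_le_right _ _).trans ((min_le_right _ _).trans (min_le_right _ _))
  obtain ⟨R₂, Kp, -, hR₂, -, hgain₁⟩ := uPerp_gain F K₃
  obtain ⟨R₃, Kw, -, hR₃, -, hgain₂⟩ := uWeight_gain F ε K₆ Km Kp R₂ hε.le hR₂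
  obtain ⟨T, hgain₃⟩ := far_gain F ε Km K₅ Kp Kw R₃ hε hεδ hεa (hR₂.trans hR₃)
  set K₁ := max (max Kp Kw) (max Ka₀ 0) with hK₁
  set R₄ := 2 * (R₃ + 1) with hR₄
  have hR₄Q : Q ≤ R₄ := by linarith [hR₂.trans hR₃]
  obtain ⟨R₅, K', hR₅, hK', hpar⟩ := par_bound l (N₀ + 6) A ε (eu - eg) (KP / ε) K₁ T R₄
    (δ := g₀) (d := ε / 4) (a₀ := a₀) F.N_nonneg F.A_nonneg
    (le_trans (le_max_right _ _) (le_max_right _ _)) (hQ1.trans hR₄Q)
    (by linarith [abs_nonneg l]) hε hg₀p (by positivity) ha₀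
  obtain ⟨Cg, hCg, hgapε⟩ := powExp_le_of_gap F.N_nonneg (show 0 < ε / 4 by positivity)
  refine ⟨min (min (min lam₁ lam₂) (min lam₃ lam₄)) (min (min lam₅ lam₆) lam₇), R₅ + 1,
    K' * (2 + Cg), lt_min (lt_min (lt_min hR.lam_pos hlam₂) (lt_min hlam₃ hlam₄))
      (lt_min (lt_min hlam₅ hlam₆) hlam₇), by linarith, ?_⟩
  intro lam hlam E3 f D E2 χ Dχ Es χs Ds Et χt Dt hst
  obtain ⟨hl0, hl⟩ := hlam
  simp only [lt_min_iff] at hl
  obtain ⟨⟨⟨hl1, hl2⟩, hl3, hl4⟩, ⟨hl5, hl6⟩, hl7⟩ := hl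
  obtain ⟨ha2, -, haa, hab, hbA, hadA, hκ, hNb⟩ :=
    hrate lam ⟨hl0, hl1⟩ E3 f D E2 χ Dχ Es χs Ds Et χt Dt hst
  obtain ⟨d, -, hdeq, hdb⟩ := hamp lam ⟨hl0, hl6⟩ E3 f D E2 χ Dχ Es χs Ds Et χt Dt hst
  have hp := hperp lam ⟨hl0, hl2⟩ E3 f D E2 χ Dχ Es χs Ds Et χt Dt hst
  have hw := hweight lam ⟨hl0, hl3⟩ E3 f D E2 χ Dχ Es χs Ds Et χt Dt hst ε ⟨hε, hεW'⟩
  have he := henergy lam ⟨hl0, hl4⟩ E3 f D E2 χ Dχ Es χs Ds Et χt Dt hst ε ⟨hε, hεE'⟩
  have hm := hmol lam ⟨hl0, hl7⟩ E3 f D E2 χ Dχ Es χs Ds Et χt Dt hst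
  have hM := (hm (2 * ε) ⟨by positivity, by linarith⟩).1
  have hI := (hm ε ⟨hε, by linarith⟩).2.1
  obtain ⟨hpe, hpo⟩ := hparity lam ⟨hl0, hl5⟩ E3 f D E2 χ Dχ Es χs Ds Et χt Dt hst ε ⟨hε, hεP'⟩
    (moment_premise hε.le (hm (4 * ε) ⟨by positivity, by linarith⟩).1)
  set a := decayRate E2 E3 with ha
  set β := (2 - 2 * lam) / a - 4 with hβ
  have hb2 : β + 2 = (2 - 2 * lam) / a - 2 := by rw [hβ]; ring
  have hlam1 : lam ≤ 1 := hl1.le.trans hR.lam_le
  have hbeta : ∀ s ∈ Set.Icc (-2 : ℝ) 4, |β + s| ≤ N₀ + 6 := fun s hs => by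
    have h0 := hNb a (by simp) 0 (by norm_num)
    rw [add_zero] at h0
    rw [show β + s = (2 - 2 * lam) / a + (s - 4) by rw [hβ]; ring]
    refine (abs_add_le _ _).trans (add_le_add h0 (abs_le.2 ⟨?_, ?_⟩))
    · linarith [hs.1]
    · linarith [hs.2]
  have h : StateCtx l (eu - eg) g₀ Q A (N₀ + 6) a₀ δ (max Ka₀ 0) lam E3 E2 a β f χ :=
    { lam_nonneg := hl0.le
      lam_le := hlam1
      f_mem := hst.three.lowest.lim.1
      f_one := hst.three.lowest.mass_one
      χ_mem := hst.ion.lowest.lim.1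
      χ_one := hst.ion.lowest.mass_one
      a_ge := haa
      a_le := hadA
      a_sq := ha2
      a_gap := hκ
      beta_le := hbeta
      amp_le := by
        filter_upwards [hdeq] with x hx hxQ
        have hxA : RA ≤ ‖x‖ := ((le_max_right _ _).trans_lt hxQ).le
        rw [hx (by linarith)]
        refine (hdb x hxA).2.2.1.trans ?_
        rw [molTail, ← ha, ← hb2, mul_assoc]
        exact mul_le_mul_of_nonneg_right (le_max_left _ _)
          (mul_nonneg (abs_nonneg _) (powExp_pos _ _ (by linarith)).le) }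
  have hu := hgain₁ lam E3 E2 a β f χ h hp
  have huw := hgain₂ lam E3 E2 a β f χ D Dχ h hM hI hu hw
  obtain ⟨hfm, hfb⟩ := hgain₃ lam E3 E2 a β f χ D Dχ h hM hI he
    (by filter_upwards [hu] with x hx hxR; exact hx (hR₃.trans_lt hxR)) huw
  have hPH : ParHyp l lam E3 E2 (eu - eg) ε (KP / ε) R₄ β a (a + ε / 4) K₁ T f χ D Dχ :=
    { par_even := hpe
      par_odd := hpo
      lam_nonneg := hl0.le
      lam_le := hlam1
      parity := uPar_facts h.f_mem h.χ_mem
      amp_le := by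
        filter_upwards [h.amp_le] with x hx hxR
        exact (hx (hR₄Q.trans_lt hxR)).trans (mul_le_mul_of_nonneg_right (le_max_right _ _)
          (mul_nonneg (abs_nonneg _) (powExp_pos _ _ (by linarith)).le))
      perp_le := by
        filter_upwards [hu] with x hx hxR
        exact (hx (lt_of_le_of_lt (by linarith) hxR)).trans (mul_le_mul_of_nonneg_right
          ((le_max_left _ _).trans (le_max_left _ _))
          (mul_nonneg (powExp_pos _ _ (by linarith)).le (by positivity)))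
      weight_le := by
        filter_upwards [huw] with x hx hxR
        exact (hx (lt_of_le_of_lt (by linarith) hxR)).1.trans (mul_le_mul_of_nonneg_right
          ((le_max_right _ _).trans (le_max_left _ _))
          (mul_nonneg (powExp_pos _ _ (by linarith)).le (by positivity)))
      far_mem := hfm
      far_le := hfb }
  have hmarg : ∀ x ∈ Ext R₄, a ^ 2 / 2 + g₀ ≤ E2 + (eu - eg) / 2 - E3 - attract l x ∧
      (a + ε / 4) ^ 2 / 2 + g₀ ≤ E2 + (eu - eg) / 2 - E3 - attract l x ∧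
      (a + ε / 4 + ε / 4) ^ 2 / 2 ≤ E2 + (eu - eg) / 2 - E3 - attract l x := by
    intro x hx
    have m1 := margins F h (κ := a + ε / 4) (by linarith) (by linarith)
      (c := (eu - eg) / 2) (by linarith) (by linarith) (ext_mono hR₄Q hx)
    have m2 := margins F h (κ := a + ε / 4 + ε / 4) (by linarith) (by linarith)
      (c := (eu - eg) / 2) (by linarith) (by linarith) (ext_mono hR₄Q hx)
    exact ⟨m1.2.1, m1.2.2, by linarith [m2.2.2]⟩
  have hmain := hpar lam E3 E2 β a (a + ε / 4) f χ D Dχ hPH (hbeta 2 (by norm_num))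
    (hbeta (-1) (by norm_num)) (hbeta 1 (by norm_num)) h.beta0 haa (by linarith) (by linarith)
    (by linarith) hmarg
  exact both_sides (C := Cg) (by linarith) hK' hCg hb2 ha
    (fun r hr => hgapε (β - 1) 0 a (a + ε / 4) r (hbeta (-1) (by norm_num))
      (by simpa using F.N_nonneg) le_rfl hr)
    (uPerp_mirror h.f_mem h.χ_mem hst.three.odd hst.ion.parity) hmain

end Vale.Agent.P363.Inter
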