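import Vale.Agent.P363.Inter.Bar.PlaneBase

/-!
P363, interacting side: the lower bound on the plane. The amplitude of the odd singlet in an up
slice is driven by the dipole coupling with the ion ground state, so it stays above a multiple of
`(z² + η) r⁻³ G`.
-/

noncomputable section

namespace Vale.Agent.P363.Inter

open MeasureTheory Filter Metric
open scoped BigOperators Topology

theorem plane (hA : AmpStmt) (hR : RepelStmt) (hDec : DecayStmt) (hAm : AmpBoundStmt)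
    (hPe : PerpBoundStmt) (hDi : DipoleStmt) : PlaneStmt := by
  intro l g u Dg Du eg eu e' Z C
  obtain ⟨l1, R1, KT, _, _, h1, hR1, -, -, hdec⟩ := hDec l g u Dg Du eg eu e' Z C
  obtain ⟨l2, R2, KA, cA, h2, hR2, hcA, hamp⟩ := hAm l g u Dg Du eg eu e' Z C
  obtain ⟨l3, R3, KP, h3, hR3, hperp⟩ := hPe l g u Dg Du eg eu e' Z C
  obtain ⟨l4, R4, KD, cD, εD, h4, hR4, hcD, hεD, hdip⟩ := hDi l g u Dg Du eg eu e' Z C
  obtain ⟨l5, εR, KR, h5, -, hrep⟩ := hR l g u Dg Du eg eu e' Z C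
  set C' := |C| + 1 with hC'
  set θ := min (-eu) (eu - eg) with hθ
  have hθ0 : 0 < θ := lt_min (by linarith [Z.eu_lt, Z.e'_neg]) (sub_pos.2 Z.eg_lt)
  refine ⟨min (min (min l1 l2) (min l3 l4)) (min (min l5 1) (θ / (2 * C'))),
    by positivity, fun lam hlam => ?_⟩
  obtain ⟨hl0, hlt⟩ := hlam
  simp only [lt_min_iff] at hlt
  obtain ⟨⟨⟨hL1, hL2⟩, hL3, hL4⟩, ⟨hL5, hL6⟩, hLθ⟩ := hlt
  intro E3 f D E2 χ Dχ Es χs Ds Et χt Dt hM
  obtain ⟨-, hT, -, -, -⟩ := hdec lam ⟨hl0, hL1⟩ E3 f D E2 χ Dχ Es χs Ds Et χt Dt hM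
  obtain ⟨d, -, hd, hdb⟩ := hamp lam ⟨hl0, hL2⟩ E3 f D E2 χ Dχ Es χs Ds Et χt Dt hM
  have hperp' := hperp lam ⟨hl0, hL3⟩ E3 f D E2 χ Dχ Es χs Ds Et χt Dt hM
  have hdip' := hdip lam ⟨hl0, hL4⟩ E3 f D E2 χ Dχ Es χs Ds Et χt Dt hM
  have hrep' := (hrep lam ⟨hl0, hL5⟩ E3 f D E2 χ Dχ Es χs Ds Et χt Dt hM).2
  -- energies
  have hCl : |C * lam| < θ / 2 := by
    rw [lt_div_iff₀ (by positivity)] at hLθ
    rw [abs_mul, abs_of_pos hl0]
    nlinarith
  obtain ⟨hCl1, hCl2⟩ := abs_lt.1 hCl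
  have hθ1 := min_le_left (-eu) (eu - eg)
  have hθ2 := min_le_right (-eu) (eu - eg)
  have hE : 0 < E2 - E3 := by linarith [hM.three.energy_le, hM.ion.energy_ge]
  set Δ := Es - E2 with hΔ
  have hΔ0 : 0 < Δ := by linarith [hM.singlet.energy_ge, hM.ion.energy_le]
  set a := decayRate E2 E3 with ha
  have ha0 : 0 < a := Real.sqrt_pos.2 (by linarith)
  have ha2 : a ^ 2 = 2 * (E2 - E3) := Real.sq_sqrt (by linarith)
  set γ := (2 - 2 * lam) / a - 2 with hγ
  have hG : ∀ r, molTail lam E2 E3 r = powExp γ a r := fun r => rfl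
  have hPG : ∀ {r : ℝ}, 0 < r → powExp γ a r = powExp (γ - 3) a r * r ^ 3 := fun {r} hr => by
    rw [powExp_eq_mul γ (γ - 3) a hr, show γ - (γ - 3) = ((3 : ℕ) : ℝ) by push_cast; ring,
      Real.rpow_natCast, mul_comm]
  set η := 1 / (8 * Δ) with hη
  set ε := lam * (cA * cD) / (8 * Δ) with hεdef
  have hη0 : 0 < η := by positivity
  have hε0 : 0 < ε := by positivity
  obtain ⟨Cg, hCg0, hgap⟩ := powExp_le_of_gap (N := 4) (δ := εD) (by norm_num) hεD
  obtain ⟨R₀, hR₀, hR₀'⟩ := plane_radius hΔ0 (mul_pos hcA hcD) (2 * |l| + R1 + R2 + R3 + R4)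
    (2 * a * |γ - 3 + 1| + |(γ - 3) * (γ - 3 + 1)| + 4 * (|γ - 3| + a) + 4)
    (4 * (|γ - 3| + a) * η) (|KR| * |KP|) (|KA| * |KD| * Cg + |KR| * |KP|)
  have hfar : ∀ x ∈ Ext R₀, R₀ ≤ ‖x‖ ∧ 1 ≤ ‖x‖ ∧ x ≠ 0 := fun x hx => by
    have h : R₀ < ‖x‖ := hx
    exact ⟨h.le, by linarith, norm_pos_iff.1 (by linarith)⟩
  have hl' := abs_nonneg l
  have hmc : ContinuousOn (fun x => Es - E3 - attract l x + 2 * lam / ‖x‖) (Ext R₀) := by
    have hRl : |l| ≤ R₀ := by linarith [(hR₀' R₀ le_rfl).1]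
    refine ((continuousOn_const.sub (continuousOn_attract l hRl))).add ?_
    exact continuousOn_const.div continuous_norm.continuousOn fun x hx =>
      norm_ne_zero_iff.2 (hfar x hx).2.2
  have hmb : ∀ x ∈ Ext R₀, a ^ 2 / 2 + Δ / 2 ≤ Es - E3 - attract l x + 2 * lam / ‖x‖ ∧
      Es - E3 - attract l x + 2 * lam / ‖x‖ ≤ a ^ 2 / 2 + Δ + 2 / ‖x‖ := by
    intro x hx
    obtain ⟨hxR, hx1, -⟩ := hfar x hx
    obtain ⟨hs, -, -, -, -, h4⟩ := hR₀' _ hxR
    obtain ⟨k1, k2⟩ := plane_mass (l := l) hl0.le hL6.le (by linarith) hx1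
    constructor <;> linarith
  -- the amplitude of the singlet
  set w := ampAt 0 χs f with hw
  have hfm : MemLp f 2 := hM.three.lowest.lim.1
  have hχm : MemLp χ 2 := hM.ion.lowest.lim.1
  have hχsm : MemLp χs 2 := hM.singlet.lowest.lim.1
  have horth : ipN χs χ = 0 := ipN_odd_even_zero hM.singlet.parity hM.ion.parity
  have hnχs : nrmN χs = 1 := by
    rw [nrmN, show ipN χs χs = 1 from (Exist.ip_self χs).trans hM.singlet.lowest.mass_one,
      Real.sqrt_one]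
  obtain ⟨-, hw2, -⟩ := ampAt_sq_le 0 hχsm hfm
  have hwT : ∀ᵐ x : Space, |w x| ≤ uTot f x := by
    filter_upwards [ae_memLp_slice hfm 0] with x hx
    refine (abs_ipN_le hχsm hx).trans ?_
    rw [hnχs, one_mul]; rfl
  have hwp : WeakPoisson Set.univ w fun x => 2 * ((Es - E3 - attract l x) * w x +
      lam * ipN (fun y => repel x y * χs y) (slice 0 f x)) :=
    hA l lam E3 f D hl0.le hM.three.lowest SymmOdd Es χs Ds hM.singlet.lowest 0
  have hineq : ∀ᵐ x : Space, x ∈ Ext R₀ →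
      2 * ((Es - E3 - attract l x + 2 * lam / ‖x‖) * (ε * planeBar (γ - 3) a η x - w x)) ≤
        lap (fun y => ε * planeBar (γ - 3) a η y) x - 2 * ((Es - E3 - attract l x) * w x +
          lam * ipN (fun y => repel x y * χs y) (slice 0 f x)) := by
    filter_upwards [hd, hperp', ae_memLp_slice hfm 0] with x hdx hpx hsl hxU
    obtain ⟨hxR, hx1, hx0⟩ := hfar x hxU
    obtain ⟨hs, hK1, hK2, hKS, hKE, -⟩ := hR₀' _ hxR
    have hr0 : 0 < ‖x‖ := by linarith
    have hsrc := plane_source hχm hχsm horth ((hrep' x).1 χs (by simp)).1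
      (((hrep' x).1 χs (by simp)).2.2 hx1) hsl
    rw [← show w x = ampAt 0 χs f x from rfl] at hsrc
    obtain ⟨hodd, hlo, hhi, hneg⟩ := hdb x (by linarith)
    obtain ⟨-, -, -, hnegm⟩ := hdb (mirror x) (by
      rw [← One.mirrorIso_apply, One.mirrorIso.norm_map]; linarith)
    rw [One.height_mirror] at hnegm
    rw [hG, hPG hr0] at hlo hhi
    have hp := hpx (by linarith)
    rw [hG, hPG hr0] at hp
    have hexp : ‖x‖ ^ 3 * Real.exp (-(εD * ‖x‖)) ≤ Cg / ‖x‖ := by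
      have h := hgap (-1) 3 0 εD ‖x‖ (by norm_num) (by norm_num) (by linarith) hx1
      rw [powExp, powExp, zero_mul, neg_zero, Real.exp_zero, mul_one, Real.rpow_neg_one,
        show (3 : ℝ) = ((3 : ℕ) : ℝ) by norm_num, Real.rpow_natCast] at h
      exact h
    have huP : 0 ≤ uPerp χ f x := Real.sqrt_nonneg _
    have hsource := plane_source_bound hx1 (powExp_pos (γ - 3) a hr0) hcA hcD hΔ0
      huP hlo hhi hodd hneg (fun h => hnegm (by linarith))
      (hdip' x (by linarith)) hexp hp hKS hKE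
    have hdd : amp χ f x = d x := hdx (by linarith)
    rw [← hdd] at hsource
    have hbar := planeBar_super (β := γ - 3) (mx := Es - E3 - attract l x + 2 * lam / ‖x‖)
      ha0.le hε0.le hΔ0 hη hx1 (hmb x hxU).2 hK1 hK2
    have hεeq : ε * (1 - 4 * Δ * height x ^ 2) =
        2 * lam * (-(cA * cD / 4) * height x ^ 2 + cA * cD / (16 * Δ)) := by
      rw [hεdef]; field_simp; ring
    have hs2 := mul_le_mul_of_nonneg_left hsource (by positivity : (0 : ℝ) ≤ 2 * lam)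
    have hs3 := mul_le_mul_of_nonneg_left hsrc (by positivity : (0 : ℝ) ≤ 2 * lam)
    have hz3 : 0 ≤ lam * (cA * cD) * height x ^ 2 * powExp (γ - 3) a ‖x‖ := by
      have := powExp_pos (γ - 3) a hr0
      positivity
    rw [hεeq] at hbar
    have em : (2 * lam / ‖x‖) * w x = lam * (2 / ‖x‖ * w x) := by ring
    linarith
  have hbd : ∀ᵐ x : Space, x ∈ Ext R₀ → |w x| ≤ |KT| * powExp (γ + 1) a ‖x‖ := by
    filter_upwards [hwT, hT] with x hx hTx hxU
    obtain ⟨hxR, hx1, -⟩ := hfar x hxU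
    refine hx.trans ((hTx (by linarith [(hR₀' _ hxR).1])).trans ?_)
    rw [hG, powExp_eq_mul (γ + 1) γ a (by linarith), add_sub_cancel_left, Real.rpow_one,
      ← mul_assoc]
    exact mul_le_mul_of_nonneg_right (mul_le_mul_of_nonneg_right (le_abs_self KT) (norm_nonneg x))
      (powExp_pos γ a (by linarith)).le
  obtain ⟨R, c, hR1', hc, hlow⟩ := lower_of_barrier (β := γ - 3) (γ := γ + 1) (η := η) (ε := ε)
    (K := |KT|) hR₀ ha0 hΔ0 hη0 hε0 hmc (fun x hx => (hmb x hx).1)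
    (hw2.locallyIntegrable one_le_two) hwp hineq hbd
  refine ⟨R, c, hR1', hc, ?_⟩
  filter_upwards [hlow, hwT] with x hx hwx hxR
  have hr0 : 0 < ‖x‖ := by linarith
  refine le_trans (le_of_eq ?_) ((hx hxR).trans hwx)
  rw [hG, hPG hr0]
  field_simp

end Vale.Agent.P363.Inter
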