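import Vale.Agent.P363.Inter.Bar.Compare

/-!
P363, interacting side: the explicit barriers, uniformly in the decay rates.
-/

noncomputable section

namespace Vale.Agent.P363.Inter

open MeasureTheory Metric Filter
open scoped BigOperators Topology

/-- The lower-order constant of the barriers with exponent at most `N` and rate at most `A`. -/
def barConst (N A : ℝ) : ℝ := 2 * A * (N + 1) + (N + 1) ^ 2 + 2 * (N + A)

lemma barConst_nonneg {N A : ℝ} (hN : 0 ≤ N) (hA : 0 ≤ A) : 0 ≤ barConst N A := by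
  unfold barConst; positivity

lemma attract_far {l : ℝ} (hl : 0 ≤ l) {x : Space} (hx : 2 * l ≤ ‖x‖) (hx0 : x ≠ 0) :
    |attract l x - 2 / ‖x‖| ≤ 4 * l / ‖x‖ ^ 2 := by
  have hr : 0 < ‖x‖ := norm_pos_iff.2 hx0
  have hn : ‖nuc l‖ = l := by
    simp [nuc, norm_smul, unit3, abs_of_nonneg hl]
  have key : ∀ c : Space, ‖c‖ = l → |1 / ‖x - c‖ - 1 / ‖x‖| ≤ 2 * l / ‖x‖ ^ 2 := by
    intro c hc
    have h1 := abs_norm_sub_norm_le (x - c) x
    rw [sub_sub_cancel_left, norm_neg, hc, abs_le] at h1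
    have hd : ‖x‖ / 2 ≤ ‖x - c‖ := by linarith [h1.1]
    have hd0 : 0 < ‖x - c‖ := by linarith
    rw [div_sub_div _ _ hd0.ne' hr.ne', abs_div, abs_of_pos (mul_pos hd0 hr),
      div_le_div_iff₀ (mul_pos hd0 hr) (by positivity)]
    have h2 : |1 * ‖x‖ - ‖x - c‖ * 1| ≤ l := by rw [abs_le]; constructor <;> linarith [h1.1, h1.2]
    have h3 : ‖x‖ * ‖x‖ ≤ 2 * (‖x - c‖ * ‖x‖) := by nlinarith
    nlinarith [mul_le_mul_of_nonneg_right h2 (sq_nonneg ‖x‖), mul_le_mul_of_nonneg_left h3 hl]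
  have h1 := key (nuc l) hn
  have h2 := key (-nuc l) (by rw [norm_neg, hn])
  rw [sub_neg_eq_add] at h2
  rw [show attract l x - 2 / ‖x‖ =
    (1 / ‖x - nuc l‖ - 1 / ‖x‖) + (1 / ‖x + nuc l‖ - 1 / ‖x‖) by unfold attract; ring]
  calc _ ≤ _ := abs_add_le _ _
    _ ≤ 2 * l / ‖x‖ ^ 2 + 2 * l / ‖x‖ ^ 2 := add_le_add h1 h2
    _ = _ := by ring

/-- Exponential gain absorbs powers. -/
theorem powExp_le_of_gap {N δ : ℝ} (hN : 0 ≤ N) (hδ : 0 < δ) :
    ∃ C : ℝ, 0 ≤ C ∧ ∀ β β' a κ r : ℝ, |β| ≤ N → |β'| ≤ N → a + δ ≤ κ → 1 ≤ r →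
      powExp β' κ r ≤ C * powExp β a r := by
  obtain ⟨n, hn⟩ := exists_nat_ge (2 * N)
  refine ⟨n.factorial / δ ^ n, by positivity, fun β β' a κ r hβ hβ' hκ hr => ?_⟩
  have hr0 : 0 < r := by linarith
  rw [powExp_eq_mul β' β κ hr0, show powExp β κ r = powExp β a r * Real.exp (-((κ - a) * r)) by
    simp only [powExp, mul_assoc, ← Real.exp_add]; congr 2; ring, mul_comm (powExp β a r), ← mul_assoc]
  refine mul_le_mul_of_nonneg_right ?_ (powExp_pos β a hr0).le
  have h1 : r ^ (β' - β) ≤ r ^ (n : ℝ) := Real.rpow_le_rpow_of_exponent_le hr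
    (by linarith [(abs_le.1 hβ).1, (abs_le.1 hβ').2])
  rw [Real.rpow_natCast] at h1
  have h2 : Real.exp (-((κ - a) * r)) ≤ Real.exp (-(δ * r)) :=
    Real.exp_le_exp.2 (by nlinarith)
  refine (mul_le_mul h1 h2 (Real.exp_pos _).le (by positivity)).trans ?_
  have h3 := Real.pow_div_factorial_le_exp (δ * r) (by positivity) n
  rw [mul_pow, div_le_iff₀ (by positivity)] at h3
  rw [Real.exp_neg, ← div_eq_mul_inv, div_le_iff₀ (Real.exp_pos _)]
  rw [div_mul_eq_mul_div, le_div_iff₀ (by positivity)]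
  linarith

/-- With a gap above `κ² / 2` any mild profile is a supersolution with margin. -/
lemma lap_gap_le {β κ N A θ δ m : ℝ} {p p1 p2 : ℝ → ℝ} (hp : ∀ t, HasDerivAt p (p1 t) t)
    (hp1 : ∀ t, HasDerivAt p1 (p2 t) t) (hβ : |β| ≤ N) (hκ0 : 0 ≤ κ) (hκ : κ ≤ A) {x : Space}
    (hx : 1 ≤ ‖x‖) (hp0 : 0 ≤ p (height x)) (h1 : |height x * p1 (height x)| ≤ θ * ‖x‖ * p (height x))
    (h2 : p2 (height x) ≤ θ * p (height x)) (hm : κ ^ 2 / 2 + δ ≤ m)
    (hsmall : barConst N A / ‖x‖ + (2 * (N + A) + 1) * θ ≤ δ) :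
    lap (fun y => powExp β κ ‖y‖ * p (height y)) x ≤
      2 * (m * (powExp β κ ‖x‖ * p (height x))) - δ * (powExp β κ ‖x‖ * p (height x)) := by
  have hx0 : x ≠ 0 := norm_pos_iff.1 (by linarith)
  rw [lap_powExp_height β κ hp hp1 hx0]
  set r := ‖x‖
  set z := height x
  have hr : 0 < r := by linarith
  have hP := powExp_pos β κ hr
  obtain ⟨hb1, hb2⟩ := abs_le.1 hβ
  have hN : 0 ≤ N := le_trans (abs_nonneg _) hβ
  have hA : 0 ≤ A := hκ0.trans hκ
  have e1 : -2 * κ * (β + 1) ≤ 2 * A * (N + 1) := by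
    nlinarith [mul_le_mul_of_nonneg_left (show -(β + 1) ≤ N + 1 by linarith) hκ0,
      mul_le_mul_of_nonneg_right hκ (show 0 ≤ N + 1 by linarith)]
  have e2 : β * (β + 1) / r ^ 2 ≤ (N + 1) ^ 2 / r := by
    rw [div_le_div_iff₀ (by positivity) hr]
    have hb : β * (β + 1) ≤ (N + 1) ^ 2 := by nlinarith
    nlinarith [mul_le_mul_of_nonneg_right hb hr.le, mul_nonneg (sq_nonneg (N + 1)) (mul_nonneg hr.le (show 0 ≤ r - 1 by linarith))]
  have e3 : κ ^ 2 - 2 * κ * (β + 1) / r + β * (β + 1) / r ^ 2 ≤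
      κ ^ 2 + (2 * A * (N + 1) + (N + 1) ^ 2) / r := by
    rw [add_div]
    have : -(2 * κ * (β + 1) / r) ≤ 2 * A * (N + 1) / r := by
      rw [← neg_div]; exact div_le_div_of_nonneg_right (by linarith) hr.le
    linarith
  have e4 : 2 * (β / r - κ) * (z / r) * p1 z ≤ 2 * (N + A) * θ * p z := by
    have hc : |β / r - κ| ≤ N + A := by
      refine (abs_sub _ _).trans (add_le_add ?_ (by rwa [abs_of_nonneg hκ0]))
      rw [abs_div, abs_of_pos hr]
      exact (div_le_self (abs_nonneg _) hx).trans hβ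
    have hd : |z / r * p1 z| ≤ θ * p z := by
      rw [div_mul_eq_mul_div, abs_div, abs_of_pos hr, div_le_iff₀ hr]
      linarith
    calc 2 * (β / r - κ) * (z / r) * p1 z = 2 * ((β / r - κ) * (z / r * p1 z)) := by ring
      _ ≤ 2 * (|β / r - κ| * |z / r * p1 z|) := by rw [← abs_mul]; linarith [le_abs_self ((β / r - κ) * (z / r * p1 z))]
      _ ≤ 2 * ((N + A) * (θ * p z)) := by
          have := mul_le_mul hc hd (abs_nonneg _) (by linarith); linarith
      _ = _ := by ring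
  have e5 : (2 * A * (N + 1) + (N + 1) ^ 2) / r ≤ barConst N A / r :=
    div_le_div_of_nonneg_right (by unfold barConst; linarith) hr.le
  have key : (κ ^ 2 - 2 * κ * (β + 1) / r + β * (β + 1) / r ^ 2) * p z +
      2 * (β / r - κ) * (z / r) * p1 z + p2 z ≤ (2 * m - δ) * p z := by
    have hc : κ ^ 2 + (2 * A * (N + 1) + (N + 1) ^ 2) / r + (2 * (N + A) + 1) * θ ≤ 2 * m - δ := by
      linarith
    nlinarith [mul_le_mul_of_nonneg_right e3 hp0, mul_le_mul_of_nonneg_right hc hp0]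
  nlinarith [mul_le_mul_of_nonneg_left key hP.le]

/-- The identity behind the marginal barriers: profile `1`. -/
lemma lap_powExp (β a : ℝ) {x : Space} (hx : x ≠ 0) :
    lap (fun y => powExp β a ‖y‖) x = powExp β a ‖x‖ *
      (a ^ 2 - 2 * a * (β + 1) / ‖x‖ + β * (β + 1) / ‖x‖ ^ 2) := by
  have h := lap_powExp_height β a (p := fun _ => 1) (p1 := fun _ => 0) (p2 := fun _ => 0)
    (fun t => hasDerivAt_const t 1) (fun t => hasDerivAt_const t 0) hx
  simpa using h

/-- The identity behind the marginal barriers: profile `z`. -/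
lemma lap_powExp_mul_height (β a : ℝ) {x : Space} (hx : x ≠ 0) :
    lap (fun y => powExp β a ‖y‖ * height y) x = powExp β a ‖x‖ * height x *
      (a ^ 2 - 2 * a * (β + 2) / ‖x‖ + β * (β + 3) / ‖x‖ ^ 2) := by
  have h := lap_powExp_height β a (p := fun t => t) (p1 := fun _ => 1) (p2 := fun _ => 0)
    (fun t => hasDerivAt_id t) (fun t => hasDerivAt_const t 1) hx
  have hr : ‖x‖ ≠ 0 := norm_ne_zero_iff.2 hx
  rw [h]
  field_simp
  ring

/-- The plane corrector `1 - exp (-z)`: concave, strictly so for bounded `z`. -/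
lemma lap_corrector_le {β a N A : ℝ} (hβ : |β| ≤ N) (ha0 : 0 ≤ a) (ha : a ≤ A) {x : Space}
    (hx : 1 ≤ ‖x‖) (hz : 0 ≤ height x) :
    lap (fun y => powExp β a ‖y‖ * (1 - Real.exp (-height y))) x ≤ powExp β a ‖x‖ *
      (a ^ 2 * (1 - Real.exp (-height x)) - Real.exp (-height x) + barConst N A / ‖x‖) := by
  have hx0 : x ≠ 0 := norm_pos_iff.1 (by linarith)
  have d1 : ∀ t : ℝ, HasDerivAt (fun s => 1 - Real.exp (-s)) (Real.exp (-t)) t := fun t => by
    simpa using ((hasDerivAt_id t).neg.exp).const_sub 1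
  have d2 : ∀ t : ℝ, HasDerivAt (fun s => Real.exp (-s)) (-Real.exp (-t)) t := fun t => by
    simpa using (hasDerivAt_id t).neg.exp
  rw [lap_powExp_height β a d1 d2 hx0]
  set r := ‖x‖
  set z := height x
  have hr : 0 < r := by linarith
  refine mul_le_mul_of_nonneg_left ?_ (powExp_pos β a hr).le
  obtain ⟨hb1, hb2⟩ := abs_le.1 hβ
  have hN : 0 ≤ N := le_trans (abs_nonneg _) hβ
  have hA : 0 ≤ A := ha0.trans ha
  have hq0 : 0 ≤ 1 - Real.exp (-z) := sub_nonneg.2 (Real.exp_le_one_iff.2 (by linarith))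
  have hq1 : 1 - Real.exp (-z) ≤ 1 := sub_le_self _ (Real.exp_pos _).le
  have hze : z * Real.exp (-z) ≤ 1 := by
    rw [Real.exp_neg, ← div_eq_mul_inv, div_le_one (Real.exp_pos _)]
    linarith [Real.add_one_le_exp z]
  have c1 : -2 * a * (β + 1) / r + β * (β + 1) / r ^ 2 ≤
      (2 * A * (N + 1) + (N + 1) ^ 2) / r := by
    rw [add_div]
    refine add_le_add (div_le_div_of_nonneg_right ?_ hr.le) ?_
    · nlinarith [mul_le_mul_of_nonneg_left (show -(β + 1) ≤ N + 1 by linarith) ha0,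
        mul_le_mul_of_nonneg_right ha (show 0 ≤ N + 1 by linarith)]
    · rw [div_le_div_iff₀ (by positivity) hr]
      have hb : β * (β + 1) ≤ (N + 1) ^ 2 := by nlinarith
      nlinarith [mul_le_mul_of_nonneg_right hb hr.le,
        mul_nonneg (sq_nonneg (N + 1)) (mul_nonneg hr.le (show 0 ≤ r - 1 by linarith))]
  have c0 : 0 ≤ (2 * A * (N + 1) + (N + 1) ^ 2) / r := by positivity
  have c2 : 2 * (β / r - a) * (z / r) * Real.exp (-z) ≤ 2 * (N + A) / r := by
    have hc : β / r - a ≤ N + A := by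
      have : β / r ≤ N := (div_le_div_of_nonneg_right hb2 hr.le).trans (div_le_self hN hx)
      linarith
    rw [show 2 * (β / r - a) * (z / r) * Real.exp (-z) =
      2 * (β / r - a) * (z * Real.exp (-z)) / r by ring]
    refine div_le_div_of_nonneg_right ?_ hr.le
    nlinarith [mul_le_mul_of_nonneg_right hc (mul_nonneg hz (Real.exp_pos (-z)).le)]
  have e : barConst N A / r = (2 * A * (N + 1) + (N + 1) ^ 2) / r + 2 * (N + A) / r := by
    rw [← add_div]; rfl
  have key := (mul_le_mul_of_nonneg_right c1 hq0).trans (mul_le_of_le_one_right c0 hq1)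
  rw [e]
  calc (a ^ 2 - 2 * a * (β + 1) / r + β * (β + 1) / r ^ 2) * (1 - Real.exp (-z)) +
        2 * (β / r - a) * (z / r) * Real.exp (-z) + -Real.exp (-z)
      = a ^ 2 * (1 - Real.exp (-z)) +
          (-2 * a * (β + 1) / r + β * (β + 1) / r ^ 2) * (1 - Real.exp (-z)) +
          2 * (β / r - a) * (z / r) * Real.exp (-z) + -Real.exp (-z) := by ring
    _ ≤ _ := by linarith

end Vale.Agent.P363.Inter
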