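import Vale.Agent.P363.Inter.Spec
import Vale.Agent.P363.Inter.Bar.Barriers

/-!
P363, interacting side: the bounds obtained from the slice inequalities by comparison with
barriers. `decayRate E2 E3` is the rate `a` with `a ^ 2 / 2 = E2 - E3`; the exponent `k` is
`2 - 2 * lam`, and `G r = tailG a k r`. All constants are uniform in the coupling, except in
`PlaneStmt`.
-/

noncomputable section

namespace Vale.Agent.P363.Inter

open MeasureTheory Filter Metric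
open scoped BigOperators Topology

/-- The decay rate belonging to an ionisation energy. -/
def decayRate (E E3 : ℝ) : ℝ := Real.sqrt (2 * (E - E3))

/-- The tail of the molecule: `G r`. -/
def molTail (lam E2 E3 r : ℝ) : ℝ := powExp ((2 - 2 * lam) / decayRate E2 E3 - 2) (decayRate E2 E3) r

/-- Exponential moments, and the bounds of the three norms before the amplitude is known. -/
def DecayStmt : Prop :=
  ∀ l g u Dg Du eg eu e', ZeroOrder l g u Dg Du eg eu e' → ∀ C : ℝ,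
    ∃ lam₀ R K δ ε : ℝ, 0 < lam₀ ∧ 1 ≤ R ∧ 0 < δ ∧ 0 < ε ∧ ForStates l C g u Dg Du eg eu
      (fun lam E3 f _ E2 χ _ _ _ Et _ =>
        (Integrable (fun x : Cfg 3 => (∑ i, Real.exp (ε * ‖x i‖)) * f x ^ 2) ∧
          ∫ x : Cfg 3, (∑ i, Real.exp (ε * ‖x i‖)) * f x ^ 2 ≤ K) ∧
        (∀ᵐ x : Space, R ≤ ‖x‖ → uTot f x ≤ K * ‖x‖ * molTail lam E2 E3 ‖x‖) ∧
        (∀ᵐ x : Space, R ≤ ‖x‖ → uDown f x ≤
          K * powExp ((2 - 2 * lam) / decayRate Et E3 - 1) (decayRate Et E3) ‖x‖) ∧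
        (∀ᵐ x : Space, R ≤ ‖x‖ → uDown f x ≤
          K * Real.exp (-((decayRate E2 E3 + δ) * ‖x‖))) ∧
        ∀ᵐ x : Space, R ≤ ‖x‖ → uPerp χ f x ≤ K * (lam / ‖x‖ * molTail lam E2 E3 ‖x‖ +
          Real.exp (-((decayRate E2 E3 + δ) * ‖x‖)))) lam₀

/-- The amplitude of the ion ground state: two-sided, linear in the height. -/
def AmpBoundStmt : Prop :=
  ∀ l g u Dg Du eg eu e', ZeroOrder l g u Dg Du eg eu e' → ∀ C : ℝ,
    ∃ lam₀ R K c : ℝ, 0 < lam₀ ∧ 1 ≤ R ∧ 0 < c ∧ ForStates l C g u Dg Du eg eu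
      (fun lam E3 f _ E2 χ _ _ _ _ _ => ∃ d : Space → ℝ, ContinuousOn d {x | R - 1 < ‖x‖} ∧
        (∀ᵐ x : Space, R - 1 < ‖x‖ → amp χ f x = d x) ∧
        ∀ x : Space, R ≤ ‖x‖ → d (mirror x) = -d x ∧
          c * |height x| * molTail lam E2 E3 ‖x‖ ≤ |d x| ∧
          |d x| ≤ K * |height x| * molTail lam E2 E3 ‖x‖ ∧
          (0 < height x → d x < 0)) lam₀

/-- The excited part, with the gain near the plane. -/
def PerpBoundStmt : Prop :=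
  ∀ l g u Dg Du eg eu e', ZeroOrder l g u Dg Du eg eu e' → ∀ C : ℝ,
    ∃ lam₀ R K : ℝ, 0 < lam₀ ∧ 1 ≤ R ∧ ForStates l C g u Dg Du eg eu
      (fun lam E3 f _ E2 χ _ _ _ _ _ => ∀ᵐ x : Space, R ≤ ‖x‖ → uPerp χ f x ≤
        K * (|height x| / ‖x‖ ^ 2 + (‖x‖ ^ 3)⁻¹) * molTail lam E2 E3 ‖x‖) lam₀

/-- The lower bound on the plane, from the odd singlet channel. -/
def PlaneStmt : Prop :=
  ∀ l g u Dg Du eg eu e', ZeroOrder l g u Dg Du eg eu e' → ∀ C : ℝ,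
    ∃ lam₀ : ℝ, 0 < lam₀ ∧ ForStates l C g u Dg Du eg eu
      (fun lam E3 f _ E2 _ _ _ _ _ _ => ∃ R c : ℝ, 1 ≤ R ∧ 0 < c ∧
        ∀ᵐ x : Space, R ≤ ‖x‖ → c / ‖x‖ ^ 3 * molTail lam E2 E3 ‖x‖ ≤ uTot f x) lam₀

/-- The triplet channel of the down electron is positive everywhere. -/
def DownLowerStmt : Prop :=
  ∀ l g u Dg Du eg eu e', ZeroOrder l g u Dg Du eg eu e' → ∀ C : ℝ,
    ∃ lam₀ : ℝ, 0 < lam₀ ∧ ForStates l C g u Dg Du eg eu
      (fun _ _ f _ _ _ _ _ _ _ _ => ∀ ρ : ℝ, ∃ c : ℝ, 0 < c ∧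
        ∀ᵐ x : Space, ‖x‖ ≤ ρ → c ≤ uDown f x) lam₀

/-- The dipole coupling of the ion ground state with the odd singlet, seen from far away. -/
def DipoleStmt : Prop :=
  ∀ l g u Dg Du eg eu e', ZeroOrder l g u Dg Du eg eu e' → ∀ C : ℝ,
    ∃ lam₀ R K c ε : ℝ, 0 < lam₀ ∧ 1 ≤ R ∧ 0 < c ∧ 0 < ε ∧ ForStates l C g u Dg Du eg eu
      (fun _ _ _ _ _ χ _ _ χs _ _ => ∀ x : Space, R ≤ ‖x‖ →
        c * height x ^ 2 / ‖x‖ ^ 3 - K * |height x| * Real.exp (-(ε * ‖x‖)) ≤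
          height x * ipN (fun y => repel x y * χ y) χs) lam₀

/-- The ion gap, and the molecular states, exist at weak coupling. -/
def MolStateGoal : Prop :=
  ∀ l g u Dg Du eg eu e', ZeroOrder l g u Dg Du eg eu e' →
    ∃ lam₀ C : ℝ, 0 < lam₀ ∧ ∀ lam ∈ Set.Ioo 0 lam₀, ∃ E3 f D E2 χ Dχ Es χs Ds Et χt Dt,
      MolState l lam C g u Dg Du eg eu E3 f D E2 χ Dχ Es χs Ds Et χt Dt

end Vale.Agent.P363.Inter
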