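import Vale.Agent.P363.Inter.Defs
import Vale.Agent.P363.Tool.Test

/-!
P363, interacting side: the Laplacian of a radial profile times a profile in the height, and the
power-exponential profiles used as barriers.
-/

noncomputable section

namespace Vale.Agent.P363.Inter

open MeasureTheory Filter
open scoped BigOperators Topology

/-- `r ^ β * exp (-κ r)`. -/
def powExp (β κ r : ℝ) : ℝ := r ^ β * Real.exp (-(κ * r))

lemma powExp_pos (β κ : ℝ) {r : ℝ} (hr : 0 < r) : 0 < powExp β κ r :=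
  mul_pos (Real.rpow_pos_of_pos hr β) (Real.exp_pos _)

lemma powExp_mul (β β' κ κ' : ℝ) {r : ℝ} (hr : 0 < r) :
    powExp β κ r * powExp β' κ' r = powExp (β + β') (κ + κ') r := by
  simp only [powExp, Real.rpow_add hr]
  rw [show -((κ + κ') * r) = -(κ * r) + -(κ' * r) by ring, Real.exp_add]
  ring

lemma powExp_eq_mul (β β' κ : ℝ) {r : ℝ} (hr : 0 < r) :
    powExp β κ r = r ^ (β - β') * powExp β' κ r := by
  simp only [powExp]
  rw [← mul_assoc, ← Real.rpow_add hr, sub_add_cancel]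

lemma hasDerivAt_powExp (β κ : ℝ) {r : ℝ} (hr : 0 < r) :
    HasDerivAt (powExp β κ) ((β / r - κ) * powExp β κ r) r := by
  have h1 := (hasDerivAt_id r).rpow_const (p := β) (Or.inl hr.ne')
  have h2 : HasDerivAt (fun t => Real.exp (-(κ * t))) (Real.exp (-(κ * r)) * -κ) r := by
    simpa using ((hasDerivAt_id r).const_mul κ).neg.exp
  have h3 := h1.mul h2
  refine h3.congr_deriv ?_
  simp only [powExp, id, one_mul]
  rw [Real.rpow_sub_one hr.ne']
  ring

lemma hasDerivAt_powExp_deriv (β κ : ℝ) {r : ℝ} (hr : 0 < r) :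
    HasDerivAt (fun t => (β / t - κ) * powExp β κ t)
      (((β / r - κ) ^ 2 - β / r ^ 2) * powExp β κ r) r := by
  have h1 : HasDerivAt (fun t : ℝ => β / t - κ) (-(β / r ^ 2)) r := by
    simpa [div_eq_mul_inv] using ((hasDerivAt_inv hr.ne').const_mul β).sub_const κ
  exact (h1.mul (hasDerivAt_powExp β κ hr)).congr_deriv (by ring)

lemma hasFDerivAt_norm_space {x : Space} (hx : x ≠ 0) :
    HasFDerivAt (fun y : Space => ‖y‖) (‖x‖⁻¹ • innerSL ℝ x) x := by
  have hr : 0 < ‖x‖ := norm_pos_iff.2 hx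
  have h := ((hasFDerivAt_id x).norm_sq).sqrt (by positivity)
  have he : (fun y : Space => ‖y‖) = fun y : Space => Real.sqrt (‖id y‖ ^ 2) := by
    funext y; simp
  rw [he]
  refine h.congr_fderiv ?_
  ext v
  simp [Real.sqrt_sq hr.le]
  field_simp

section Calculus

variable {F F1 F2 p p1 p2 : ℝ → ℝ}

lemma deriv3_radial_height (hF : ∀ t, 0 < t → HasDerivAt F (F1 t) t)
    (hp : ∀ t, HasDerivAt p (p1 t) t) {x : Space} (hx : x ≠ 0) (a : Fin 3) :
    deriv3 a (fun y => F ‖y‖ * p (height y)) x =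
      F1 ‖x‖ * (x a / ‖x‖) * p (height x) + F ‖x‖ * p1 (height x) * (unit3 2) a := by
  have hn : HasFDerivAt (fun y : Space => ‖y‖) (‖x‖⁻¹ • innerSL ℝ x) x :=
    hasFDerivAt_norm_space hx
  have hh : HasFDerivAt height (EuclideanSpace.proj (2 : Fin 3) : Space →L[ℝ] ℝ) x :=
    (EuclideanSpace.proj (2 : Fin 3) : Space →L[ℝ] ℝ).hasFDerivAt
  have hFd : HasFDerivAt (fun y : Space => F ‖y‖) (F1 ‖x‖ • (‖x‖⁻¹ • innerSL ℝ x)) x :=
    (hF _ (norm_pos_iff.2 hx)).comp_hasFDerivAt x hn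
  have hpd : HasFDerivAt (fun y : Space => p (height y))
      (p1 (height x) • (EuclideanSpace.proj (2 : Fin 3) : Space →L[ℝ] ℝ)) x :=
    (hp _).comp_hasFDerivAt x hh
  rw [deriv3, (hFd.fun_mul hpd).fderiv]
  simp [unit3, EuclideanSpace.inner_single_right]
  fin_cases a <;> simp [EuclideanSpace.inner_single_right] <;> ring

/-- The Laplacian of `F (‖x‖) * p (height x)`. -/
lemma lap_radial_height (hF : ∀ t, 0 < t → HasDerivAt F (F1 t) t)
    (hF1 : ∀ t, 0 < t → HasDerivAt F1 (F2 t) t)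
    (hp : ∀ t, HasDerivAt p (p1 t) t) (hp1 : ∀ t, HasDerivAt p1 (p2 t) t) {x : Space}
    (hx : x ≠ 0) :
    lap (fun y => F ‖y‖ * p (height y)) x =
      (F2 ‖x‖ + 2 / ‖x‖ * F1 ‖x‖) * p (height x) +
        2 * (height x / ‖x‖) * F1 ‖x‖ * p1 (height x) + F ‖x‖ * p2 (height x) := by
  have hr : 0 < ‖x‖ := norm_pos_iff.2 hx
  have hn : HasFDerivAt (fun y : Space => ‖y‖) (‖x‖⁻¹ • innerSL ℝ x) x :=
    hasFDerivAt_norm_space hx
  have hh : HasFDerivAt height (EuclideanSpace.proj (2 : Fin 3) : Space →L[ℝ] ℝ) x :=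
    (EuclideanSpace.proj (2 : Fin 3) : Space →L[ℝ] ℝ).hasFDerivAt
  have hdd : ∀ a : Fin 3, deriv3 a (deriv3 a fun y => F ‖y‖ * p (height y)) x =
      (F2 ‖x‖ * (x a / ‖x‖) ^ 2 + F1 ‖x‖ * ((1 - (x a / ‖x‖) ^ 2) / ‖x‖)) * p (height x) +
      2 * F1 ‖x‖ * (x a / ‖x‖) * p1 (height x) * (unit3 2) a +
      F ‖x‖ * p2 (height x) * (unit3 2) a ^ 2 := by
    intro a
    have he : deriv3 a (fun y => F ‖y‖ * p (height y)) =ᶠ[𝓝 x] fun y =>
        F1 ‖y‖ * (y a / ‖y‖) * p (height y) + F ‖y‖ * p1 (height y) * (unit3 2) a := by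
      filter_upwards [eventually_ne_nhds hx] with y hy
      exact deriv3_radial_height hF hp hy a
    have ha : HasFDerivAt (fun y : Space => y a)
        (EuclideanSpace.proj a : Space →L[ℝ] ℝ) x :=
      (EuclideanSpace.proj a : Space →L[ℝ] ℝ).hasFDerivAt
    have hi : HasFDerivAt (fun y : Space => ‖y‖⁻¹)
        ((-(‖x‖ ^ 2)⁻¹) • (‖x‖⁻¹ • innerSL ℝ x)) x :=
      (hasDerivAt_inv hr.ne').comp_hasFDerivAt x hn
    have hq : HasFDerivAt (fun y : Space => y a / ‖y‖)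
        (x a • ((-(‖x‖ ^ 2)⁻¹) • (‖x‖⁻¹ • innerSL ℝ x)) +
          ‖x‖⁻¹ • (EuclideanSpace.proj a : Space →L[ℝ] ℝ)) x := by
      simpa only [div_eq_mul_inv] using ha.fun_mul hi
    have hall := ((((hF1 _ hr).comp_hasFDerivAt x hn).fun_mul hq).fun_mul
      ((hp _).comp_hasFDerivAt x hh)).fun_add
      ((((hF _ hr).comp_hasFDerivAt x hn).fun_mul
        ((hp1 _).comp_hasFDerivAt x hh)).mul_const ((unit3 2) a))
    rw [show deriv3 a (deriv3 a fun y => F ‖y‖ * p (height y)) x =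
      fderiv ℝ (deriv3 a fun y => F ‖y‖ * p (height y)) x (unit3 a) from rfl, he.fderiv_eq]
    erw [hall.fderiv]
    simp [unit3, EuclideanSpace.inner_single_right]
    fin_cases a <;> simp [EuclideanSpace.inner_single_right] <;> ring
  simp only [lap, hdd, Fin.sum_univ_three]
  have hs : (x 0 / ‖x‖) ^ 2 + (x 1 / ‖x‖) ^ 2 + (x 2 / ‖x‖) ^ 2 = 1 := by
    have h2 : ‖x‖ ^ 2 = x 0 ^ 2 + x 1 ^ 2 + x 2 ^ 2 := by
      simp [EuclideanSpace.norm_sq_eq, Fin.sum_univ_three]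
    field_simp
    linarith
  simp [unit3, height]
  linear_combination (F2 ‖x‖ - F1 ‖x‖ / ‖x‖) * p (x 2) * hs

lemma contDiffOn_radial_height {n : WithTop ℕ∞} (hF : ContDiffOn ℝ n F (Set.Ioi 0))
    (hp : ContDiff ℝ n p) :
    ContDiffOn ℝ n (fun y : Space => F ‖y‖ * p (height y)) {x | x ≠ 0} := by
  refine ContDiffOn.mul ?_ ?_
  · exact hF.comp (fun y hy => (contDiffAt_norm ℝ hy).contDiffWithinAt)
      fun y hy => norm_pos_iff.2 hy
  · exact (hp.comp (EuclideanSpace.proj (2 : Fin 3) : Space →L[ℝ] ℝ).contDiff).contDiffOn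

end Calculus

lemma contDiffOn_powExp (β κ : ℝ) {n : WithTop ℕ∞} :
    ContDiffOn ℝ n (powExp β κ) (Set.Ioi 0) := by
  refine ContDiffOn.mul ?_ ?_
  · exact fun t ht => (Real.contDiffAt_rpow_const_of_ne (ne_of_gt ht)).contDiffWithinAt
  · exact (Real.contDiff_exp.comp (contDiff_const.mul contDiff_id).neg).contDiffOn

/-- The Laplacian of `powExp β κ ‖x‖ * p (height x)`. -/
lemma lap_powExp_height (β κ : ℝ) {p p1 p2 : ℝ → ℝ} (hp : ∀ t, HasDerivAt p (p1 t) t)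
    (hp1 : ∀ t, HasDerivAt p1 (p2 t) t) {x : Space} (hx : x ≠ 0) :
    lap (fun y => powExp β κ ‖y‖ * p (height y)) x =
      powExp β κ ‖x‖ * ((κ ^ 2 - 2 * κ * (β + 1) / ‖x‖ + β * (β + 1) / ‖x‖ ^ 2) * p (height x) +
        2 * (β / ‖x‖ - κ) * (height x / ‖x‖) * p1 (height x) + p2 (height x)) := by
  rw [lap_radial_height (fun t ht => hasDerivAt_powExp β κ ht)
    (fun t ht => hasDerivAt_powExp_deriv β κ ht) hp hp1 hx]
  have hr : ‖x‖ ≠ 0 := norm_ne_zero_iff.2 hx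
  field_simp
  ring

end Vale.Agent.P363.Inter
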