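import Vale.Agent.P363.Inter.Bar.Spec
import Vale.Agent.P363.KS.FormLip

/-!
P363, interacting side: the slice norms as functions of the position, and the ranges of the decay
rates at weak coupling.
-/

noncomputable section

namespace Vale.Agent.P363.Inter

open MeasureTheory Filter
open scoped BigOperators Topology

/-- Gluing a position into a configuration preserves the measure. -/
lemma measurePreserving_insert (i : Fin 3) :
    MeasurePreserving (fun p : Space × Cfg 2 => (i.insertNth p.1 p.2 : Cfg 3))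
      (volume.prod volume) volume :=
  (volume_preserving_piFinSuccAbove (fun _ : Fin 3 => Space) i).symm _

/-- The squared norm of a slice is the integral of the squared function. -/
lemma sq_nrmN (g : Cfg 2 → ℝ) : nrmN g ^ 2 = ∫ y, g y ^ 2 := by
  rw [nrmN, Real.sq_sqrt]
  · simp [ipN, pow_two]
  · exact integral_nonneg fun y => mul_self_nonneg _

lemma nrmN_eq (g : Cfg 2 → ℝ) : nrmN g = Real.sqrt (∫ y, g y ^ 2) := by
  simp [nrmN, ipN, pow_two]

section Slices

variable {f : Cfg 3 → ℝ}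

lemma integrable_insert (hf : MemLp f 2) (i : Fin 3) :
    Integrable (fun p : Space × Cfg 2 => f (i.insertNth p.1 p.2) ^ 2) (volume.prod volume) :=
  (measurePreserving_insert i).integrable_comp_of_integrable hf.integrable_sq

lemma aestronglyMeasurable_insert (hf : MemLp f 2) (i : Fin 3) :
    AEStronglyMeasurable (fun p : Space × Cfg 2 => f (i.insertNth p.1 p.2))
      (volume.prod volume) :=
  hf.1.comp_measurePreserving (measurePreserving_insert i)

lemma ae_memLp_slice (hf : MemLp f 2) (i : Fin 3) :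
    ∀ᵐ x : Space, MemLp (slice i f x) 2 := by
  filter_upwards [(integrable_insert hf i).prod_right_ae,
    (aestronglyMeasurable_insert hf i).prodMk_left] with x hx hm
  exact (memLp_two_iff_integrable_sq hm).2 hx

lemma integrable_sq_slice (hf : MemLp f 2) (i : Fin 3) :
    Integrable fun x => nrmN (slice i f x) ^ 2 := by
  simp only [sq_nrmN]
  exact (integrable_insert hf i).integral_prod_left

lemma integral_sq_slice (hf : MemLp f 2) (i : Fin 3) :
    ∫ x, nrmN (slice i f x) ^ 2 = ∫ z, f z ^ 2 := by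
  simp only [sq_nrmN]
  refine (integral_prod _ (integrable_insert hf i)).symm.trans ?_
  exact (measurePreserving_insert i).integral_comp
    ((MeasurableEquiv.piFinSuccAbove (fun _ : Fin 3 => Space) i).symm.measurableEmbedding)
    fun z => f z ^ 2

lemma memLp_slice_norm (hf : MemLp f 2) (i : Fin 3) :
    MemLp (fun x => nrmN (slice i f x)) 2 := by
  refine (memLp_two_iff_integrable_sq ?_).2 (integrable_sq_slice hf i)
  simp only [nrmN_eq]
  exact Real.continuous_sqrt.comp_aestronglyMeasurable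
    (integrable_insert hf i).integral_prod_left.aestronglyMeasurable

lemma memLp_amp (hf : MemLp f 2) {χ : Cfg 2 → ℝ} (hχ : MemLp χ 2) (h1 : ∫ y, χ y ^ 2 = 1) :
    (∀ᵐ x : Space, uPerp χ f x ^ 2 + amp χ f x ^ 2 = uTot f x ^ 2) ∧
      AEStronglyMeasurable (amp χ f) ∧ AEStronglyMeasurable (uPerp χ f) := by
  have hm : AEStronglyMeasurable (amp χ f) := by
    have h : AEStronglyMeasurable (fun p : Space × Cfg 2 => χ p.2 * f ((0 : Fin 3).insertNth p.1 p.2))
        (volume.prod volume) := hχ.1.comp_snd.mul (aestronglyMeasurable_insert hf 0)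
    exact h.integral_prod_right'
  refine ⟨?_, hm, ?_⟩
  · filter_upwards [ae_memLp_slice hf 0] with x hx
    rw [uPerp, uTot, sq_nrmN, sq_nrmN]
    have e : ∀ y, perp χ f x y ^ 2 = slice 0 f x y ^ 2 -
        2 * amp χ f x * (χ y * slice 0 f x y) + amp χ f x ^ 2 * χ y ^ 2 := fun y => by
      unfold perp; ring
    have i1 : Integrable fun y => χ y * slice 0 f x y := hχ.integrable_mul hx
    have i2 : Integrable fun y => slice 0 f x y ^ 2 := hx.integrable_sq
    simp only [e]
    rw [integral_add (i2.sub' (i1.const_mul _)) (hχ.integrable_sq.const_mul _),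
      integral_sub i2 (i1.const_mul _), integral_const_mul, integral_const_mul, h1]
    have : amp χ f x = ∫ y, χ y * slice 0 f x y := rfl
    rw [← this]; ring
  · unfold uPerp
    simp only [nrmN_eq]
    have h : AEStronglyMeasurable (fun p : Space × Cfg 2 =>
        (f ((0 : Fin 3).insertNth p.1 p.2) - amp χ f p.1 * χ p.2) ^ 2) (volume.prod volume) :=
      ((aestronglyMeasurable_insert hf 0).sub (hm.comp_fst.mul hχ.1.comp_snd)).pow 2
    exact Real.continuous_sqrt.comp_aestronglyMeasurable h.integral_prod_right'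

lemma ae_amp_le (hf : MemLp f 2) {χ : Cfg 2 → ℝ} (hχ : MemLp χ 2) (h1 : ∫ y, χ y ^ 2 = 1) :
    ∀ᵐ x : Space, |amp χ f x| ≤ uTot f x ∧ uPerp χ f x ≤ uTot f x := by
  filter_upwards [(memLp_amp hf hχ h1).1] with x hx
  have h0 : 0 ≤ uTot f x := Real.sqrt_nonneg _
  constructor
  · exact abs_le_of_sq_le_sq (by nlinarith [sq_nonneg (uPerp χ f x)]) h0
  · exact (abs_le_of_sq_le_sq' (by nlinarith [sq_nonneg (amp χ f x)]) h0).2

/-- A slice with exponential decay has exponential moments. -/
lemma moment_of_bound {K R κ ε J : ℝ} (hε : 0 ≤ ε)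
    (hJ : Integrable fun x : Space => Real.exp (-((2 * κ - ε) * ‖x‖)))
    (hJJ : ∫ x : Space, Real.exp (-((2 * κ - ε) * ‖x‖)) ≤ J)
    (hf : MemLp f 2) (h1 : ∫ z, f z ^ 2 = 1) (i : Fin 3)
    (hu : ∀ᵐ x : Space, R ≤ ‖x‖ → nrmN (slice i f x) ≤ K * Real.exp (-(κ * ‖x‖))) :
    Integrable (fun z : Cfg 3 => Real.exp (ε * ‖z i‖) * f z ^ 2) ∧
      ∫ z, Real.exp (ε * ‖z i‖) * f z ^ 2 ≤ Real.exp (ε * R) + K ^ 2 * J := by
  set w : Space → ℝ := fun x => Real.exp (ε * ‖x‖) with hw
  set u : Space → ℝ := fun x => nrmN (slice i f x) with hu'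
  have hi : Integrable fun x => u x ^ 2 := integrable_sq_slice hf i
  have hdom : ∀ᵐ x, w x * u x ^ 2 ≤ Real.exp (ε * R) * u x ^ 2 +
      K ^ 2 * Real.exp (-((2 * κ - ε) * ‖x‖)) := by
    filter_upwards [hu] with x hx
    by_cases h : R ≤ ‖x‖
    · have h0 : 0 ≤ u x := Real.sqrt_nonneg _
      have h2 : u x ^ 2 ≤ (K * Real.exp (-(κ * ‖x‖))) ^ 2 := pow_le_pow_left₀ h0 (hx h) 2
      have h3 : w x * (K * Real.exp (-(κ * ‖x‖))) ^ 2 =
          K ^ 2 * Real.exp (-((2 * κ - ε) * ‖x‖)) := by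
        rw [mul_pow, pow_two (Real.exp _), ← Real.exp_add, hw, mul_left_comm, ← Real.exp_add]
        ring_nf
      have h4 : 0 ≤ Real.exp (ε * R) * u x ^ 2 := by positivity
      linarith [mul_le_mul_of_nonneg_left h2 (Real.exp_pos (ε * ‖x‖)).le]
    · have h2 : w x ≤ Real.exp (ε * R) :=
        Real.exp_le_exp.2 (mul_le_mul_of_nonneg_left (le_of_not_ge h) hε)
      have h4 : 0 ≤ K ^ 2 * Real.exp (-((2 * κ - ε) * ‖x‖)) := by positivity
      linarith [mul_le_mul_of_nonneg_right h2 (sq_nonneg (u x))]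
  have hrhs : Integrable fun x => Real.exp (ε * R) * u x ^ 2 +
      K ^ 2 * Real.exp (-((2 * κ - ε) * ‖x‖)) := (hi.const_mul _).add (hJ.const_mul _)
  have hwu : Integrable fun x => w x * u x ^ 2 := by
    refine hrhs.mono'
      ((Real.continuous_exp.comp (continuous_const.mul continuous_norm)).aestronglyMeasurable.mul
        hi.aestronglyMeasurable) ?_
    filter_upwards [hdom] with x hx
    rw [Real.norm_eq_abs, abs_of_nonneg (mul_nonneg (Real.exp_pos _).le (sq_nonneg _))]
    exact hx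
  have hp := measurePreserving_insert i
  have hemb :=
    (MeasurableEquiv.piFinSuccAbove (fun _ : Fin 3 => Space) i).symm.measurableEmbedding
  have hsec : ∀ x, ∫ y, w x * f (i.insertNth x y) ^ 2 = w x * u x ^ 2 := fun x => by
    rw [integral_const_mul, hu', sq_nrmN]; rfl
  have hprod : Integrable (fun p : Space × Cfg 2 => w p.1 * f (i.insertNth p.1 p.2) ^ 2)
      (volume.prod volume) := by
    refine (integrable_prod_iff ?_).2 ⟨?_, ?_⟩
    · exact ((Real.continuous_exp.comp (continuous_const.mul continuous_norm)).comp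
        continuous_fst).aestronglyMeasurable.mul ((aestronglyMeasurable_insert hf i).pow 2)
    · filter_upwards [(integrable_insert hf i).prod_right_ae] with x hx
      exact hx.const_mul _
    · refine hwu.congr (ae_of_all _ fun x => ?_)
      simp only [← hsec]
      exact integral_congr_ae (ae_of_all _ fun y => by simp [hw])
  have he : (fun p : Space × Cfg 2 => w p.1 * f (i.insertNth p.1 p.2) ^ 2) =
      (fun z : Cfg 3 => w (z i) * f z ^ 2) ∘ fun p => i.insertNth p.1 p.2 := by
    funext p; simp [Fin.insertNth_apply_same]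
  have hall : Integrable fun z : Cfg 3 => w (z i) * f z ^ 2 :=
    (hp.integrable_comp_emb hemb).1 (he ▸ hprod)
  refine ⟨hall, ?_⟩
  show ∫ z, w (z i) * f z ^ 2 ≤ _
  rw [← hp.integral_comp hemb]
  rw [show (fun p : Space × Cfg 2 => w ((i.insertNth p.1 p.2 : Cfg 3) i) * f (i.insertNth p.1 p.2) ^ 2)
    = fun p => w p.1 * f (i.insertNth p.1 p.2) ^ 2 by simp [Fin.insertNth_apply_same],
    integral_prod _ hprod]
  simp only [hsec]
  refine (integral_mono_ae hwu hrhs hdom).trans ?_
  rw [integral_add (hi.const_mul _) (hJ.const_mul _), integral_const_mul, integral_const_mul,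
    integral_sq_slice hf i, h1, mul_one]
  exact add_le_add_right (mul_le_mul_of_nonneg_left hJJ (sq_nonneg K)) _

end Slices

lemma attract_abs (l : ℝ) (x : Space) : attract |l| x = attract l x := by
  rcases abs_choice l with h | h <;> rw [h]
  simp only [attract, nuc, neg_smul, sub_neg_eq_add, ← sub_eq_add_neg, add_comm]

lemma attract_far' (l : ℝ) {x : Space} (hx : 2 * |l| ≤ ‖x‖) (hx0 : x ≠ 0) :
    |attract l x - 2 / ‖x‖| ≤ 4 * |l| / ‖x‖ ^ 2 := by
  rw [← attract_abs]
  exact attract_far (abs_nonneg l) hx hx0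

lemma continuousOn_attract (l : ℝ) {R : ℝ} (hR : |l| ≤ R) :
    ContinuousOn (attract l) (Ext R) := by
  have hn : ‖nuc l‖ = |l| := by simp [nuc, norm_smul, unit3]
  refine ContinuousOn.add ?_ ?_ <;>
    refine continuousOn_const.div (Continuous.continuousOn (by fun_prop)) fun x hx => ?_ <;>
    refine (norm_pos_iff.2 fun h => ?_).ne' <;>
    have hxR : R < ‖x‖ := hx
  · rw [sub_eq_zero.1 h, hn] at hxR; linarith
  · rw [eq_neg_of_add_eq_zero_left h, norm_neg, hn] at hxR; linarith

/-- The constants of the decay rates. -/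
structure Rates (eg eu : ℝ) (lam₀ δ A a₀ N : ℝ) : Prop where
  lam_pos : 0 < lam₀
  lam_le : lam₀ ≤ 1
  δ_pos : 0 < δ
  a₀_pos : 0 < a₀
  a₀_le : a₀ ≤ A
  N_nonneg : 0 ≤ N

/-- The rates of the molecule lie in a fixed range, with a fixed gap between the two channels. -/
lemma exists_rates {l : ℝ} {g u : Space → ℝ} {Dg Du : Fin 3 → Space → ℝ} {eg eu e' : ℝ}
    (h0 : ZeroOrder l g u Dg Du eg eu e') (C : ℝ) :
    ∃ lam₀ δ A a₀ N : ℝ, Rates eg eu lam₀ δ A a₀ N ∧ ForStates l C g u Dg Du eg eu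
      (fun lam E3 _ _ E2 _ _ _ _ Et _ =>
        decayRate E2 E3 ^ 2 / 2 = E2 - E3 ∧ decayRate Et E3 ^ 2 / 2 = Et - E3 ∧
        a₀ ≤ decayRate E2 E3 ∧ decayRate E2 E3 + 2 * δ ≤ decayRate Et E3 ∧
        decayRate Et E3 ≤ A ∧ decayRate E2 E3 + δ ≤ A ∧
        (decayRate E2 E3 + δ) ^ 2 / 2 ≤ E2 - E3 + (eu - eg) / 4 ∧
        ∀ t ∈ [decayRate E2 E3, decayRate Et E3], ∀ s ∈ Set.Icc (-3 : ℝ) 3,
          |(2 - 2 * lam) / t + s| ≤ N) lam₀ := by
  have heu : eu < 0 := h0.eu_lt.trans h0.e'_neg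
  have hg : 0 < eu - eg := sub_pos.2 h0.eg_lt
  set c₀ : ℝ := min (-eu / 2) ((eu - eg) / 4) with hc₀
  have hc₀p : 0 < c₀ := lt_min (by linarith) (by linarith)
  set A : ℝ := Real.sqrt (-3 * eg) + 1 with hA
  set a₀ : ℝ := Real.sqrt (-eu) with ha₀
  have ha₀p : 0 < a₀ := Real.sqrt_pos.2 (by linarith)
  have hA1 : 1 ≤ A := le_add_of_nonneg_left (Real.sqrt_nonneg _)
  set δ : ℝ := min 1 (min a₀ ((eu - eg) / (8 * A))) with hδ
  have hδ0 : 0 < δ := lt_min one_pos (lt_min ha₀p (by positivity))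
  have hδA : 8 * A * δ ≤ eu - eg := by
    have := le_trans (min_le_right (1 : ℝ) _) (min_le_right a₀ ((eu - eg) / (8 * A)))
    rw [le_div_iff₀ (by positivity)] at this
    linarith
  have haA : a₀ ≤ A := (Real.sqrt_le_sqrt (by linarith)).trans (le_add_of_nonneg_right zero_le_one)
  refine ⟨min 1 (c₀ / (|C| + 1)), δ, A, a₀, 2 / a₀ + 3,
    ⟨lt_min one_pos (by positivity), min_le_left _ _, hδ0, ha₀p, haA, by positivity⟩, ?_⟩
  intro lam hlam E3 f D E2 χ Dχ Es χs Ds Et χt Dt h
  have hl0 : 0 < lam := hlam.1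
  have hsmall : |C * lam| ≤ c₀ := by
    have h1 := hlam.2.le.trans (min_le_right _ _)
    rw [le_div_iff₀ (by positivity)] at h1
    rw [abs_mul, abs_of_pos hl0]
    nlinarith
  obtain ⟨hlo, hhi⟩ := abs_le.1 hsmall
  have hc1 : c₀ ≤ -eu / 2 := min_le_left _ _
  have hc2 : c₀ ≤ (eu - eg) / 4 := min_le_right _ _
  have e2a := h.ion.energy_ge
  have e2b := h.ion.energy_le
  have e3a := h.three.energy_ge
  have e3b := h.three.energy_le
  have eta := h.triplet.energy_ge
  have etb := h.triplet.energy_le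
  set a := decayRate E2 E3 with hadef
  set b := decayRate Et E3 with hbdef
  have ha2 : a ^ 2 = 2 * (E2 - E3) := Real.sq_sqrt (by linarith)
  have hb2 : b ^ 2 = 2 * (Et - E3) := Real.sq_sqrt (by linarith)
  have ha0 : a₀ ≤ a := Real.sqrt_le_sqrt (by linarith)
  have hbA : b ≤ A - 1 := by
    rw [hA, add_sub_cancel_right]
    exact Real.sqrt_le_sqrt (by linarith)
  have hb0 : 0 ≤ b := Real.sqrt_nonneg _
  have hab : a + 2 * δ ≤ b := by
    have h1 : a ≤ b := Real.sqrt_le_sqrt (by linarith)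
    nlinarith
  refine ⟨by rw [ha2]; ring, by rw [hb2]; ring, ha0, hab, by linarith, by linarith, ?_, ?_⟩
  · have hd1 : δ ≤ A := (min_le_left _ _).trans hA1
    have h2 : δ * (2 * a + δ) ≤ δ * (3 * A) := mul_le_mul_of_nonneg_left (by linarith) hδ0.le
    nlinarith
  · intro t ht s hs
    have hta : a₀ ≤ t := by
      rcases List.mem_cons.1 ht with rfl | ht
      · exact ha0
      · rw [List.mem_singleton] at ht; subst ht; linarith
    have ht0 : 0 < t := ha₀p.trans_le hta
    have hk : 0 ≤ 2 - 2 * lam := by linarith [hlam.2.le.trans (min_le_left _ _)]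
    refine (abs_add_le _ _).trans (add_le_add ?_ (abs_le.2 hs))
    rw [abs_of_nonneg (div_nonneg hk ht0.le)]
    exact div_le_div₀ zero_le_two (by linarith) ha₀p hta

end Vale.Agent.P363.Inter
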