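import Vale.Agent.P363.Inter.Bar.Barriers
import Vale.Agent.P363.Tool.Sobolev.Main
import Vale.Agent.P363.Tool.Weak
import Vale.Agent.P363.Tool.YukReg
import Vale.Agent.P363.Tool.Hopf
import Vale.Agent.P363.Exist.One.Centres

/-!
P363, interacting side: the two one-electron levels as continuous functions: `g` positive, `u`
odd, positive above the plane and at least linear there.
-/

noncomputable section

namespace Vale.Agent.P363.Inter

open MeasureTheory Metric Filter
open scoped BigOperators Topology ENNReal

lemma norm_nuc {l : ℝ} (hl : 0 ≤ l) : ‖nuc l‖ = l := by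
  simp [nuc, norm_smul, unit3, abs_of_nonneg hl]

lemma attract_nonneg (l : ℝ) (x : Space) : 0 ≤ attract l x := by unfold attract; positivity

lemma measurable_attract (l : ℝ) : Measurable (attract l) := by
  unfold attract; fun_prop

lemma IsRealTest.of_bump {U : Set Space} {η : Space → ℝ} (h : IsBump U η) : IsRealTest η := by
  refine ⟨?_, h.compact⟩
  obtain ⟨B, hB⟩ := (h.compact.fderiv ℝ).exists_bound_of_continuous
    (h.smooth.continuous_fderiv (by simp))
  exact ⟨B.toNNReal, lipschitzWith_of_nnnorm_fderiv_le h.differentiable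
    fun x => NNReal.coe_le_coe.1 ((hB x).trans (Real.le_coe_toNNReal B))⟩

/-- A form limit is in `H¹`. -/
lemma isH1_of_oneLim {P : (Space → ℝ) → Prop} {f : Space → ℝ} {D : Fin 3 → Space → ℝ}
    (h : IsOneLim P f D) : IsH1 f D := by
  obtain ⟨hf, hD, φ, hφ, h0, h1⟩ := h
  refine ⟨hf, hD, HasWeakGrad.of_tendsto_integral (w := φ) (G := fun k a => deriv3 a (φ k))
    (fun k => ?_) (hf.locallyIntegrable one_le_two |>.locallyIntegrableOn _)
    (fun a => ((hD a).locallyIntegrable one_le_two).locallyIntegrableOn _) ?_ ?_⟩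
  · obtain ⟨L, hL⟩ := (hφ k).1.lipschitz
    exact HasWeakGrad.of_lipschitz hL
  · intro η hη
    have hη2 : MemLp η 2 := hη.continuous.memLp_of_hasCompactSupport hη.compact
    have := tendsto_integral_mul_of_L2 hη2
      (fun k => (hφ k).1.lipschitz.choose_spec.continuous.memLp_of_hasCompactSupport
        (hφ k).1.compact) hf h0
    simpa [mul_comm] using this
  · intro η a hη
    have hη2 : MemLp η 2 := hη.continuous.memLp_of_hasCompactSupport hη.compact
    have hd : ∀ k, MemLp (deriv3 a (φ k)) 2 := fun k => by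
      obtain ⟨L, hL⟩ := (hφ k).1.lipschitz
      refine MemLp.of_le (g := fun x => (tsupport (φ k)).indicator (fun _ => (L : ℝ)) x)
        (memLp_indicator_const 2 (isClosed_tsupport _).measurableSet _
          (Or.inr (hφ k).1.compact.measure_lt_top.ne))
        (measurable_fderiv_apply_const ℝ _ _).aestronglyMeasurable (ae_of_all _ fun x => ?_)
      by_cases hx : x ∈ tsupport (φ k)
      · rw [Set.indicator_of_mem hx, Real.norm_eq_abs, Real.norm_eq_abs, NNReal.abs_eq]
        exact (abs_deriv3_le a x).trans (norm_fderiv_le_of_lipschitz ℝ hL)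
      · rw [deriv3_eq_zero_of_notMem a hx, norm_zero]
        exact norm_nonneg _
    have := tendsto_integral_mul_of_L2 hη2 hd (hD a) (h1 a)
    simpa [mul_comm] using this

/-- The attraction maps `H¹` to `L²`. -/
lemma memLp_attract_mul {f : Space → ℝ} {D : Fin 3 → Space → ℝ} (h : IsH1 f D) (l : ℝ) :
    MemLp (fun x => attract l x * f x) 2 := by
  have key : ∀ c : Space, MemLp (fun x => 1 / ‖x - c‖ * f x) 2 := fun c => by
    have hm : AEStronglyMeasurable (fun x : Space => 1 / ‖x - c‖ * f x) volume :=
      ((by fun_prop : Measurable fun x : Space => 1 / ‖x - c‖).aestronglyMeasurable.mul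
        h.memLp.aestronglyMeasurable)
    rw [memLp_two_iff_integrable_sq hm]
    refine (hardy f D h c).1.congr (ae_of_all _ fun x => ?_)
    ring
  have := (key (nuc l)).add (key (-nuc l))
  refine this.ae_eq (ae_of_all _ fun x => ?_)
  simp only [Pi.add_apply, attract, sub_neg_eq_add]
  ring

/-- The weak equation of a level, as a Poisson equation. -/
lemma weakPoisson_level {l e : ℝ} {f : Space → ℝ} {D : Fin 3 → Space → ℝ} (h : IsH1 f D)
    (hw : ∀ η : Space → ℝ, IsRealTest η →
      ∫ x, ((1 / 2 : ℝ) * ∑ a, D a x * deriv3 a η x - (attract l x + e) * f x * η x) = 0) :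
    WeakPoisson Set.univ f fun x => -2 * ((attract l x + e) * f x) := by
  have hL : MemLp (fun x => (attract l x + e) * f x) 2 :=
    ((memLp_attract_mul h l).add (h.memLp.const_mul e)).ae_eq
      (ae_of_all _ fun x => by simp [add_mul])
  refine WeakPoisson.of_grad h.weak
    (((hL.const_mul (-2)).locallyIntegrable one_le_two).locallyIntegrableOn _) fun η hη => ?_
  have i1 : ∀ a, Integrable fun x => D a x * deriv3 a η x := fun a =>
    (hη.deriv a).integrable_mul ((h.grad_memLp a).locallyIntegrable one_le_two |>.locallyIntegrableOn _)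
  have i2 : Integrable fun x => (attract l x + e) * f x * η x :=
    hη.integrable_mul ((hL.locallyIntegrable one_le_two).locallyIntegrableOn _)
  have h0 := hw η (IsRealTest.of_bump hη)
  rw [integral_sub ((integrable_finsetSum _ fun a _ => i1 a).const_mul _) i2,
    integral_const_mul] at h0
  have e2 : ∫ x, -2 * ((attract l x + e) * f x) * η x =
      -2 * ∫ x, (attract l x + e) * f x * η x := by
    rw [← integral_const_mul]; congr 1; funext x; ring
  rw [e2]
  linarith

/-- Weak solutions with a square integrable source have continuous representatives. -/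
lemma exists_continuous_rep {U : Set Space} {f h : Space → ℝ} (hU : IsOpen U)
    (he : WeakPoisson U f h) (hh : LocMemLp 2 U h) :
    ∃ g : Space → ℝ, ContinuousOn g U ∧ f =ᵐ[volume.restrict U] g := by
  classical
  obtain ⟨α, -, hA⟩ := Yuk.localHolder 2 (by norm_num)
  have hp : ∀ x ∈ U, ∃ ρ > 0, ball x ρ ⊆ U ∧ ∃ g : Space → ℝ, Continuous g ∧
      f =ᵐ[volume.restrict (ball x ρ)] g := by
    intro x hx
    obtain ⟨R, hR, hRU⟩ := Metric.isOpen_iff.1 hU x hx
    obtain ⟨C, hC⟩ := hA (R / 4) (R / 2) (by linarith) (by linarith)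
    have hsub : closedBall x (R / 2) ⊆ U := (closedBall_subset_ball (by linarith)).trans hRU
    obtain ⟨g, hg, hfg, -⟩ := hC x f h (he.mono (ball_subset_closedBall.trans hsub))
      ((he.1.integrableOn_compact_subset hsub (isCompact_closedBall _ _)).mono_set
        ball_subset_closedBall)
      (by simpa using ((hh _ (isCompact_closedBall _ _) hsub).mono_measure
        (Measure.restrict_mono ball_subset_closedBall le_rfl)))
    exact ⟨R / 4, by linarith, (ball_subset_ball (by linarith)).trans hRU, g, hg, hfg⟩
  choose ρ hρ hρU g hg hfg using hp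
  set G : Space → ℝ := fun x => if hx : x ∈ U then g x hx x else 0 with hG
  have heq : ∀ x (hx : x ∈ U), ∀ y ∈ ball x (ρ x hx), G y = g x hx y := by
    intro x hx y hy
    have hyU : y ∈ U := hρU x hx hy
    set V := ball x (ρ x hx) ∩ ball y (ρ y hyU)
    have h1 : g x hx =ᵐ[volume.restrict V] g y hyU :=
      ((hfg x hx).filter_mono (ae_mono (Measure.restrict_mono Set.inter_subset_left le_rfl))).symm.trans
        ((hfg y hyU).filter_mono (ae_mono (Measure.restrict_mono Set.inter_subset_right le_rfl)))
    have hV : IsOpen V := isOpen_ball.inter isOpen_ball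
    have := Measure.eqOn_open_of_ae_eq h1 hV (hg x hx).continuousOn (hg y hyU).continuousOn
      ⟨hy, mem_ball_self (hρ y hyU)⟩
    simp only [hG, dif_pos hyU]
    exact this.symm
  refine ⟨G, fun x hx => ?_, ?_⟩
  · refine ContinuousAt.continuousWithinAt ((hg x hx).continuousAt.congr ?_)
    filter_upwards [ball_mem_nhds x (hρ x hx)] with y hy using (heq x hx y hy).symm
  · obtain ⟨t, htU, htc, hcov⟩ :=
      TopologicalSpace.isOpen_biUnion_countable U (fun x => ⋃ hx : x ∈ U, ball x (ρ x hx))
        fun x _ => isOpen_iUnion fun _ => isOpen_ball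
    have hUeq : U = ⋃ x ∈ t, ⋃ hx : x ∈ U, ball x (ρ x hx) := by
      refine Set.Subset.antisymm (fun y hy => ?_) ?_
      · rw [hcov]
        exact Set.mem_biUnion hy (Set.mem_iUnion.2 ⟨hy, mem_ball_self (hρ y hy)⟩)
      · exact Set.iUnion₂_subset fun x _ => Set.iUnion_subset fun hx => hρU x hx
    rw [hUeq, ae_eq_restrict_biUnion_iff _ htc]
    intro x hxt
    have hx : x ∈ U := htU hxt
    have he' : (⋃ h : x ∈ U, ball x (ρ x h)) = ball x (ρ x hx) := iSup_pos hx
    rw [he']
    filter_upwards [hfg x hx, ae_restrict_mem measurableSet_ball] with y hy hyb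
    rw [hy, heq x hx y hyb]

/-- The levels as continuous functions. -/
structure ZeroFacts (g u gc uc : Space → ℝ) : Prop where
  g_cont : Continuous gc
  u_cont : Continuous uc
  g_eq : g =ᵐ[volume] gc
  u_eq : u =ᵐ[volume] uc
  g_pos : ∀ x, 0 < gc x
  u_odd : ∀ x, uc (mirror x) = -uc x
  u_pos : ∀ x, 0 < height x → 0 < uc x
  u_linear : ∀ ρ : ℝ, ∃ c : ℝ, 0 < c ∧ ∀ x, ‖x‖ ≤ ρ → 0 ≤ height x → c * height x ≤ uc x

lemma continuous_height : Continuous height := by unfold height; fun_prop

lemma continuous_mirror : Continuous mirror := by unfold mirror height; fun_prop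

lemma height_unit (a : ℝ) (x : Space) : height (x + a • unit3 2) = height x + a := by
  simp [height, unit3]

lemma height_sub_unit (a : ℝ) (x : Space) : height (x - a • unit3 2) = height x - a := by
  simp [height, unit3]

theorem zeroFacts {l eg eu e' : ℝ} {g u : Space → ℝ} {Dg Du : Fin 3 → Space → ℝ}
    (Z : ZeroOrder l g u Dg Du eg eu e') : ∃ gc uc, ZeroFacts g u gc uc := by
  classical
  have hg := isH1_of_oneLim Z.g_lim
  have hu := isH1_of_oneLim Z.u_lim
  have eqg := weakPoisson_level hg Z.g_weak
  have equ := weakPoisson_level hu Z.u_weak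
  have memh : ∀ {f : Space → ℝ} {D : Fin 3 → Space → ℝ} (e : ℝ), IsH1 f D →
      LocMemLp 2 Set.univ (fun x => -2 * ((attract l x + e) * f x)) := fun e h K _ _ =>
    (((((memLp_attract_mul h l).add (h.memLp.const_mul e)).ae_eq
      (ae_of_all _ fun x => by simp [add_mul])).const_mul (-2)).mono_measure Measure.restrict_le_self)
  obtain ⟨gc, hgc, hge⟩ := exists_continuous_rep isOpen_univ eqg (memh eg hg)
  obtain ⟨uc, huc, hue⟩ := exists_continuous_rep isOpen_univ equ (memh eu hu)
  rw [Measure.restrict_univ] at hge hue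
  rw [← continuousOn_univ.symm.eq] at hgc huc
  have hgc' : Continuous gc := hgc
  have huc' : Continuous uc := huc
  set P : Set Space := {x | 0 < height x} with hP
  have hPo : IsOpen P := isOpen_lt continuous_const continuous_height
  have hPc : IsPreconnected P := by
    refine Convex.isPreconnected ?_
    exact convex_halfSpace_gt (EuclideanSpace.proj (2 : Fin 3) : Space →L[ℝ] ℝ).toLinearMap.isLinear 0
  have nonneg_of_ae : ∀ {U : Set Space} {f : Space → ℝ}, IsOpen U → ContinuousOn f U →
      (∀ᵐ x, x ∈ U → 0 ≤ f x) → ∀ x ∈ U, 0 ≤ f x := by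
    intro U f hU hf hae x hx
    have h1 : (fun y => max (f y) 0) =ᵐ[volume.restrict U] f := by
      filter_upwards [ae_restrict_of_ae hae, ae_restrict_mem hU.measurableSet] with y hy hyU
      exact max_eq_left (hy hyU)
    have := Measure.eqOn_open_of_ae_eq h1 hU (hf.sup continuousOn_const) hf hx
    exact le_of_le_of_eq (le_max_right _ _) this
  have hgnn : ∀ x, 0 ≤ gc x := fun x => nonneg_of_ae isOpen_univ hgc'.continuousOn
    (by filter_upwards [Z.g_pos, hge] with y hy he _; linarith) x (Set.mem_univ x)
  have hunn : ∀ x ∈ P, 0 ≤ uc x := nonneg_of_ae hPo huc'.continuousOn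
    (by filter_upwards [Z.u_pos, hue] with y hy he hyP; linarith [hy hyP])
  have sup : ∀ {f fc : Space → ℝ} {e : ℝ} {U : Set Space}, IsOpen U → f =ᵐ[volume] fc →
      WeakPoisson Set.univ f (fun x => -2 * ((attract l x + e) * f x)) → (∀ x ∈ U, 0 ≤ fc x) →
      WeakSubPoisson U (fun x => -fc x) (fun x => -(-2 * ((attract l x + e) * fc x))) ∧
      ∀ᵐ x, x ∈ U → -2 * ((attract l x + e) * fc x) ≤ 2 * |e| * fc x := by
    intro f fc e U hU hfe he h0
    refine ⟨?_, ae_of_all _ fun x hx => ?_⟩
    · have h1 := ((he.const_mul (-1)).mono (Set.subset_univ U)).toSub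
      refine h1.congr_ae hU ?_ ?_
      · filter_upwards [ae_restrict_of_ae hfe] with x hx; simp [hx]
      · filter_upwards [ae_restrict_of_ae hfe] with x hx; simp [hx]
    · nlinarith [mul_nonneg (attract_nonneg l x) (h0 x hx),
        mul_le_mul_of_nonneg_right (neg_abs_le e) (h0 x hx)]
  obtain ⟨sg, bg⟩ := sup isOpen_univ hge eqg fun x _ => hgnn x
  have gpos : ∀ x, 0 < gc x := by
    rcases positive Set.univ gc (fun x => -2 * ((attract l x + eg) * gc x)) (2 * |eg|) isOpen_univ
      isPreconnected_univ hgc'.continuousOn (fun x _ => hgnn x) sg bg with h | h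
    · obtain ⟨x, hx1, hx2⟩ := (Z.g_pos.and hge).exists
      rw [hx2, h x (Set.mem_univ x)] at hx1
      exact absurd hx1 (lt_irrefl 0)
    · exact fun x => h x (Set.mem_univ x)
  obtain ⟨su, bu⟩ := sup hPo hue equ hunn
  have upos : ∀ x ∈ P, 0 < uc x := by
    rcases positive P uc (fun x => -2 * ((attract l x + eu) * uc x)) (2 * |eu|) hPo
      hPc huc'.continuousOn hunn su bu with h | h
    · exfalso
      have hne : P.Nonempty := ⟨unit3 2, by simp [hP, height, unit3]⟩
      obtain ⟨x, hxP, hx1, hx2⟩ : ∃ x ∈ P, (0 < height x → 0 < u x) ∧ u x = uc x := by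
        by_contra hno
        push Not at hno
        have h0 : volume P = 0 := measure_mono_null
          (fun x hx => by
            show ¬ ((0 < height x → 0 < u x) ∧ u x = uc x)
            exact fun hh => hno x hx hh.1 hh.2) (ae_iff.1 (Z.u_pos.and hue))
        exact hPo.measure_ne_zero volume hne h0
      exact lt_irrefl (0 : ℝ) (by simpa [hx2, h x hxP] using hx1 hxP)
    · exact h
  have uodd : ∀ x, uc (mirror x) = -uc x := by
    have hmp : MeasurePreserving mirror (volume : Measure Space) volume :=
      One.measurePreserving_mirror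
    have h1 : (fun x => uc (mirror x)) =ᵐ[volume] fun x => -uc x := by
      filter_upwards [Z.u_odd, hue, hmp.quasiMeasurePreserving.ae hue] with x ha hb hc
      rw [← hc, ha, hb]
    exact fun x => congrFun (Continuous.ae_eq_iff_eq volume (huc'.comp continuous_mirror)
      huc'.neg |>.1 h1) x
  refine ⟨gc, uc, hgc', huc', hge, hue, gpos, uodd, upos, fun ρ => ?_⟩
  have huz : ∀ q : Space, height q = 0 → uc q = 0 := fun q hq => by
    have := uodd q
    rw [show mirror q = q by simp [mirror, hq]] at this
    linarith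
  -- Hopf at the points of the disc, uniformly by a barrier in a slab.
  set M : ℝ := 2 * |eu| + 9 with hM
  set h : ℝ := min 1 (1 / M) with hh
  have hM0 : 0 < M := by positivity
  have hh0 : 0 < h := lt_min one_pos (by positivity)
  have htop : ∃ m > 0, ∀ y : Space, ‖y‖ ≤ ρ + 2 → height y = h → m ≤ uc y := by
    set K : Set Space := closedBall 0 (ρ + 2) ∩ {y | height y = h}
    have hK : IsCompact K :=
      (isCompact_closedBall _ _).inter_right (isClosed_eq continuous_height continuous_const)
    by_cases hne : K.Nonempty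
    · obtain ⟨y, hy, hmin⟩ := hK.exists_isMinOn hne huc'.continuousOn
      refine ⟨uc y, upos y (show 0 < height y by rw [hy.2]; exact hh0), fun z hz hzh => ?_⟩
      exact hmin ⟨by simpa using hz, hzh⟩
    · exact ⟨1, one_pos, fun y hy hyh => absurd ⟨y, by simpa using hy, hyh⟩ hne⟩
  obtain ⟨m, hm, hmle⟩ := htop
  have hlow : ∀ x : Space, ‖x‖ ≤ ρ → 0 ≤ height x → height x ≤ h →
      m / (2 * h) * height x ≤ uc x := by
    intro x hx hxz hxh
    set q : Space := x - height x • unit3 2 with hq
    set c : ℝ := m / (2 * h)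
    have hc0 : 0 < c := by positivity
    set B : Space → ℝ := fun y => c * (height y * (1 + M * height y - 2 * ((y 0 - q 0) ^ 2 + (y 1 - q 1) ^ 2)))
    set W : Set Space := {y | 0 < height y ∧ height y < h ∧ (y 0 - q 0) ^ 2 + (y 1 - q 1) ^ 2 < 1}
    have hMh : M * h ≤ 1 := by
      calc M * h ≤ M * (1 / M) := mul_le_mul_of_nonneg_left (min_le_right _ _) hM0.le
        _ = 1 := by field_simp
    have hW : IsOpen W := (isOpen_lt continuous_const continuous_height).inter
      ((isOpen_lt continuous_height continuous_const).inter (isOpen_lt (f := fun y : Space => (y 0 - q 0) ^ 2 + (y 1 - q 1) ^ 2) (by fun_prop) continuous_const))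
    have hcl : closure W ⊆ {y | 0 ≤ height y ∧ height y ≤ h ∧ (y 0 - q 0) ^ 2 + (y 1 - q 1) ^ 2 ≤ 1} :=
      closure_minimal (fun y hy => ⟨hy.1.le, hy.2.1.le, hy.2.2.le⟩)
        ((isClosed_le continuous_const continuous_height).inter
          ((isClosed_le continuous_height continuous_const).inter
            (isClosed_le (f := fun y : Space => (y 0 - q 0) ^ 2 + (y 1 - q 1) ^ 2) (by fun_prop) continuous_const)))
    have hqn : ‖q‖ ≤ ρ := by
      refine le_trans ?_ hx
      rw [← sq_le_sq₀ (norm_nonneg _) (norm_nonneg _)]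
      simp [EuclideanSpace.norm_sq_eq, Fin.sum_univ_three, hq, height, unit3, sq_abs]
      positivity
    have hB : ContDiff ℝ 2 B := by
      simp only [B, height]; fun_prop
    have hlB : ∀ y, lap B y = c * (2 * M - 8 * height y) := by
      intro y
      have p0 : ∀ (a : Fin 3) (z : Space), HasFDerivAt (fun w : Space => w a)
          (EuclideanSpace.proj a : Space →L[ℝ] ℝ) z := fun a z =>
        (EuclideanSpace.proj a : Space →L[ℝ] ℝ).hasFDerivAt
      have d1 : ∀ (a : Fin 3) (z : Space), deriv3 a B z = c * ((unit3 a) 2 * (1 + M * z 2 -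
          2 * ((z 0 - q 0) ^ 2 + (z 1 - q 1) ^ 2)) + z 2 * (M * (unit3 a) 2 -
          2 * (2 * (z 0 - q 0) * (unit3 a) 0 + 2 * (z 1 - q 1) * (unit3 a) 1))) := by
        intro a z
        have hd := ((p0 2 z).fun_mul ((((p0 2 z).const_mul M).const_add 1).fun_sub
          (((((p0 0 z).sub_const (q 0)).pow 2).fun_add
            (((p0 1 z).sub_const (q 1)).pow 2)).const_mul 2))).const_mul c
        simp only [deriv3, B, height]
        rw [hd.fderiv]
        simp
        ring
      have e0 : deriv3 0 B = fun z : Space => -(4 * c) * (z 2 * (z 0 - q 0)) :=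
        funext fun z => by rw [d1]; simp [unit3, -mul_eq_mul_left_iff]; ring
      have e1 : deriv3 1 B = fun z : Space => -(4 * c) * (z 2 * (z 1 - q 1)) :=
        funext fun z => by rw [d1]; simp [unit3, -mul_eq_mul_left_iff]; ring
      have e2 : deriv3 2 B = fun z : Space =>
          c * (1 + 2 * M * z 2 - 2 * ((z 0 - q 0) ^ 2 + (z 1 - q 1) ^ 2)) :=
        funext fun z => by rw [d1]; simp [unit3, -mul_eq_mul_left_iff]; ring
      have f0 : deriv3 0 (fun z : Space => -(4 * c) * (z 2 * (z 0 - q 0))) y = -(4 * c) * y 2 := by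
        rw [deriv3, (((p0 2 y).fun_mul ((p0 0 y).sub_const (q 0))).const_mul (-(4 * c))).fderiv]
        simp [unit3]
      have f1 : deriv3 1 (fun z : Space => -(4 * c) * (z 2 * (z 1 - q 1))) y = -(4 * c) * y 2 := by
        rw [deriv3, (((p0 2 y).fun_mul ((p0 1 y).sub_const (q 1))).const_mul (-(4 * c))).fderiv]
        simp [unit3]
      have f2 : deriv3 2 (fun z : Space =>
          c * (1 + 2 * M * z 2 - 2 * ((z 0 - q 0) ^ 2 + (z 1 - q 1) ^ 2))) y = c * (2 * M) := by
        rw [deriv3, ((((p0 2 y).const_mul (2 * M)).const_add 1).fun_sub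
          (((((p0 0 y).sub_const (q 0)).pow 2).fun_add
            (((p0 1 y).sub_const (q 1)).pow 2)).const_mul 2) |>.const_mul c).fderiv]
        simp [unit3]
      simp only [lap, Fin.sum_univ_three, e0, e1, e2, f0, f1, f2, height]
      ring
    have hsub : WeakSubPoisson W (fun y => B y + -uc y)
        fun y => lap B y + -(-2 * ((attract l y + eu) * uc y)) :=
      (WeakPoisson.of_contDiffOn hW hB.contDiffOn).toSub.add
        (su.mono fun y hy => hy.1)
    have key := maxCont W (fun y => B y + -uc y) _ hW
      (hB.continuous.add huc'.neg).continuousOn hsub ?_ ?_ ?_ x ?_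
    · have : c * height x ≤ B x := by
        simp only [B, hq]
        simp [unit3]
        have : 0 ≤ M * height x := mul_nonneg hM0.le hxz
        exact mul_le_mul_of_nonneg_left (le_mul_of_one_le_right hxz (by
          simp only [height] at *; linarith)) hc0.le
      linarith
    · filter_upwards [bu] with y hy hyW hpos
      have h1 := hy hyW.1
      have hu0 : 0 ≤ uc y := hunn y hyW.1
      have hz1 : height y ≤ 1 := hyW.2.1.le.trans (min_le_left _ _)
      have hb : B y ≤ c * 2 := by
        simp only [B]
        refine mul_le_mul_of_nonneg_left ?_ hc0.le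
        calc height y * (1 + M * height y - 2 * ((y 0 - q 0) ^ 2 + (y 1 - q 1) ^ 2))
            ≤ height y * (1 + M * height y) := mul_le_mul_of_nonneg_left
              (by nlinarith [sq_nonneg (y 0 - q 0), sq_nonneg (y 1 - q 1)]) hyW.1.le
          _ ≤ 1 * 2 := mul_le_mul hz1 (by nlinarith [mul_le_mul_of_nonneg_left hyW.2.1.le hM0.le])
              (add_nonneg zero_le_one (mul_nonneg hM0.le hyW.1.le)) zero_le_one
          _ = 2 := one_mul 2
      rw [hlB]
      have : uc y ≤ c * 2 := by linarith
      nlinarith [mul_le_mul_of_nonneg_left this (abs_nonneg eu), mul_le_mul_of_nonneg_left hz1 hc0.le]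
    · intro y hy
      have hyc := hcl (frontier_subset_closure hy)
      have hyn : y ∉ W := fun hn => hy.2 (by rwa [hW.interior_eq])
      obtain ⟨h1, h2, h3⟩ := hyc
      have hu0 : 0 ≤ uc y := by
        rcases eq_or_lt_of_le h1 with e | e
        · rw [huz y e.symm]
        · exact hunn y e
      rcases eq_or_lt_of_le h1 with e | e
      · simp [B, ← e, huz y e.symm]
      rcases eq_or_lt_of_le h2 with e2 | e2
      · have hyn2 : ‖y‖ ≤ ρ + 2 := by
          refine (norm_le_norm_add_norm_sub q y).trans (add_le_add hqn ?_)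
          rw [← sq_le_sq₀ (norm_nonneg _) zero_le_two]
          have hq2 : q 2 = 0 := by simp [hq, height, unit3]
          simp [EuclideanSpace.norm_sq_eq, Fin.sum_univ_three, sq_abs, hq2]
          have hy2 : y 2 ≤ 1 := le_of_eq_of_le e2 (min_le_left 1 (1 / M))
          have hy0 : 0 ≤ y 2 := h1
          nlinarith
        have := hmle y hyn2 e2
        have hb : B y ≤ c * (h * 2) := by
          simp only [B, e2]
          refine mul_le_mul_of_nonneg_left (mul_le_mul_of_nonneg_left ?_ hh0.le) hc0.le
          nlinarith [sq_nonneg (y 0 - q 0), sq_nonneg (y 1 - q 1)]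
        have : c * (h * 2) = m := by simp only [c]; field_simp
        linarith
      · have h3' : 1 ≤ (y 0 - q 0) ^ 2 + (y 1 - q 1) ^ 2 := not_lt.1 fun hlt => hyn ⟨e, e2, hlt⟩
        have : B y ≤ 0 := mul_nonpos_iff.2 (Or.inl ⟨hc0.le, mul_nonpos_iff.2
          (Or.inl ⟨h1, by nlinarith [mul_le_mul_of_nonneg_left h2 hM0.le]⟩)⟩)
        linarith
    · intro ε hε
      refine ⟨ρ + 4, fun y hy hyn => ?_⟩
      exfalso
      have : ‖y‖ ≤ ρ + 2 := by
        refine (norm_le_norm_add_norm_sub q y).trans (add_le_add hqn ?_)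
        rw [← sq_le_sq₀ (norm_nonneg _) zero_le_two]
        have hq2 : q 2 = 0 := by simp [hq, height, unit3]
        simp [EuclideanSpace.norm_sq_eq, Fin.sum_univ_three, sq_abs, hq2]
        have hy2 : y 2 < 1 := lt_of_lt_of_le hy.2.1 (min_le_left 1 (1 / M))
        have hy0 : 0 < y 2 := hy.1
        have := hy.2.2
        nlinarith
      linarith
    · rcases eq_or_lt_of_le hxz with e | e
      · refine mem_closure_of_tendsto (f := fun t : ℝ => x + t • unit3 2) (b := 𝓝[>] (0 : ℝ))
          (tendsto_nhdsWithin_of_tendsto_nhds ?_) ?_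
        · have : Continuous fun t : ℝ => x + t • unit3 2 := by fun_prop
          simpa using this.tendsto 0
        · filter_upwards [Ioo_mem_nhdsGT hh0] with t ht
          refine ⟨?_, ?_, ?_⟩
          · rw [height_unit, ← e, zero_add]; exact ht.1
          · rw [height_unit, ← e, zero_add]; exact ht.2
          · simp [hq, unit3]
      · rcases eq_or_lt_of_le hxh with e2 | e2
        · refine mem_closure_of_tendsto (f := fun t : ℝ => x - t • unit3 2) (b := 𝓝[>] (0 : ℝ))
            (tendsto_nhdsWithin_of_tendsto_nhds ?_) ?_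
          · have : Continuous fun t : ℝ => x - t • unit3 2 := by fun_prop
            simpa using this.tendsto 0
          · filter_upwards [Ioo_mem_nhdsGT hh0] with t ht
            refine ⟨?_, ?_, ?_⟩
            · rw [height_sub_unit, e2]; linarith [ht.2]
            · rw [height_sub_unit, e2]; linarith [ht.1]
            · simp [hq, unit3]
        · exact subset_closure ⟨e, e2, by simp [hq, unit3]⟩
  set K : Set Space := closedBall 0 ρ ∩ {y | h ≤ height y}
  have hK : IsCompact K :=
    (isCompact_closedBall _ _).inter_right (isClosed_le continuous_const continuous_height)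
  obtain ⟨m', hm', hm'le⟩ : ∃ m' > 0, ∀ y ∈ K, m' ≤ uc y := by
    by_cases hne : K.Nonempty
    · obtain ⟨y, hy, hmin⟩ := hK.exists_isMinOn hne huc'.continuousOn
      exact ⟨uc y, upos y (lt_of_lt_of_le hh0 hy.2), fun z hz => hmin hz⟩
    · exact ⟨1, one_pos, fun y hy => absurd ⟨y, hy⟩ hne⟩
  set ρ' : ℝ := max ρ 1
  refine ⟨min (m / (2 * h)) (m' / ρ'), by positivity, fun x hx hxz => ?_⟩
  rcases le_or_gt (height x) h with hle | hgt
  · exact (mul_le_mul_of_nonneg_right (min_le_left _ _) hxz).trans (hlow x hx hxz hle)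
  · have h1 : height x ≤ ρ' := by
      refine le_trans ?_ (hx.trans (le_max_left _ _))
      exact (le_abs_self _).trans (by simpa [height] using PiLp.norm_apply_le x 2)
    calc min (m / (2 * h)) (m' / ρ') * height x ≤ m' / ρ' * ρ' :=
          mul_le_mul (min_le_right _ _) h1 hxz (by positivity)
      _ = m' := div_mul_cancel₀ _ (ne_of_gt (lt_of_lt_of_le one_pos (le_max_right ρ 1)))
      _ ≤ uc x := hm'le x ⟨by simpa using hx, hgt.le⟩

end Vale.Agent.P363.Inter
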