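import Vale.Agent.P363.Inter.Bar.Spec
import Vale.Agent.P363.Inter.Bar.Zero
import Vale.Agent.P363.Inter.Slice.Split
import Vale.Agent.P363.Inter.Slice.L2

/-!
P363, interacting side: amplitudes in mean square, their parity, and their closeness to the state
without repulsion.
-/

noncomputable section

namespace Vale.Agent.P363.Inter

open MeasureTheory Metric Filter
open scoped BigOperators Topology

/-- The squared norm of a slice as a function of the position. -/
def sliceSq (i : Fin 3) (f : Cfg 3 → ℝ) (x : Space) : ℝ := ipN (slice i f x) (slice i f x)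

lemma sliceSq_nonneg (i : Fin 3) (f : Cfg 3 → ℝ) (x : Space) : 0 ≤ sliceSq i f x :=
  integral_nonneg fun _ => mul_self_nonneg _

lemma integral_sliceSq (i : Fin 3) {f : Cfg 3 → ℝ} (hf : MemLp f 2) :
    Integrable (sliceSq i f) ∧ ∫ x, sliceSq i f x = ipN f f := by
  have hi : Integrable fun z : Cfg 3 => f z * f z := hf.integrable_mul hf
  exact ⟨(integrable_slices i hi).2, (integral_split i hi).symm⟩

lemma abs_ipN_le {F G : Cfg 2 → ℝ} (hF : MemLp F 2) (hG : MemLp G 2) :
    |ipN F G| ≤ nrmN F * nrmN G := by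
  have h := abs_integral_mul_le hF hG
  simpa [ipN, nrmN, sq] using h

lemma nrmN_sq {n : ℕ} (F : Cfg n → ℝ) : nrmN F ^ 2 = ipN F F :=
  Real.sq_sqrt (integral_nonneg fun _ => mul_self_nonneg _)

lemma aestronglyMeasurable_ampAt (i : Fin 3) {φ : Cfg 2 → ℝ} {f : Cfg 3 → ℝ}
    (hφ : AEStronglyMeasurable φ volume) (hf : AEStronglyMeasurable f volume) :
    AEStronglyMeasurable (ampAt i φ f) volume :=
  ((hφ.comp_snd).mul (hf.comp_measurePreserving (mp_ins i))).integral_prod_right'

/-- An amplitude is at most the norm of the slice times the norm of the state. -/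
lemma ampAt_sq_le (i : Fin 3) {φ : Cfg 2 → ℝ} {f : Cfg 3 → ℝ} (hφ : MemLp φ 2) (hf : MemLp f 2) :
    (∀ᵐ x : Space, ampAt i φ f x ^ 2 ≤ ipN φ φ * sliceSq i f x) ∧ MemLp (ampAt i φ f) 2 ∧
      ∫ x, ampAt i φ f x ^ 2 ≤ ipN φ φ * ipN f f := by
  have hae : ∀ᵐ x : Space, ampAt i φ f x ^ 2 ≤ ipN φ φ * sliceSq i f x := by
    filter_upwards [memLp_slices i hf] with x hx
    have hx' : MemLp (slice i f x) 2 (volume : Measure (Cfg 2)) := hx
    have h := abs_ipN_le hφ hx'
    rw [sliceSq, ← nrmN_sq, ← nrmN_sq, ← mul_pow, ← sq_abs]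
    exact pow_le_pow_left₀ (abs_nonneg _) h 2
  obtain ⟨hi, he⟩ := integral_sliceSq i hf
  have hm := aestronglyMeasurable_ampAt i hφ.1 hf.1
  have h2 : Integrable fun x => ampAt i φ f x ^ 2 := by
    refine (hi.const_mul (ipN φ φ)).mono' (hm.pow 2) ?_
    filter_upwards [hae] with x hx
    rwa [Real.norm_eq_abs, abs_of_nonneg (sq_nonneg _)]
  refine ⟨hae, (memLp_two_iff_integrable_sq hm).2 h2, ?_⟩
  refine (integral_mono_ae h2 (hi.const_mul _) hae).trans_eq ?_
  rw [integral_const_mul, he]

lemma ampAt_sub (i : Fin 3) {φ ψ : Cfg 2 → ℝ} {f h : Cfg 3 → ℝ} (hφ : MemLp φ 2)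
    (hψ : MemLp ψ 2) (hf : MemLp f 2) (hh : MemLp h 2) :
    ∀ᵐ x : Space, ampAt i φ f x - ampAt i ψ h x =
      ampAt i (fun y => φ y - ψ y) f x + ampAt i ψ (fun z => f z - h z) x := by
  filter_upwards [memLp_slices i hf, memLp_slices i hh] with x hx hy
  have i1 : Integrable fun y => φ y * slice i f x y := hφ.integrable_mul hx
  have i2 : Integrable fun y => ψ y * slice i f x y := hψ.integrable_mul hx
  have i3 : Integrable fun y => ψ y * slice i h x y := hψ.integrable_mul hy
  have e1 : ampAt i (fun y => φ y - ψ y) f x = ampAt i φ f x - ampAt i ψ f x := by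
    simp only [ampAt, ipN, sub_mul]
    exact integral_sub i1 i2
  have e2 : ampAt i ψ (fun z => f z - h z) x = ampAt i ψ f x - ampAt i ψ h x := by
    simp only [ampAt, ipN, slice, mul_sub]
    exact integral_sub i2 i3
  rw [e1, e2]; ring

/-- Amplitudes are close in mean square if states and slices are. -/
lemma ampAt_close (i : Fin 3) {φ ψ : Cfg 2 → ℝ} {f h : Cfg 3 → ℝ} (hφ : MemLp φ 2)
    (hψ : MemLp ψ 2) (hf : MemLp f 2) (hh : MemLp h 2) :
    ∫ x, (ampAt i φ f x - ampAt i ψ h x) ^ 2 ≤
      2 * (ipN (fun y => φ y - ψ y) (fun y => φ y - ψ y) * ipN f f) +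
      2 * (ipN ψ ψ * ipN (fun z => f z - h z) (fun z => f z - h z)) := by
  obtain ⟨-, m1, b1⟩ := ampAt_sq_le i (φ := fun y => φ y - ψ y) (hφ.sub hψ) hf
  obtain ⟨-, m2, b2⟩ := ampAt_sq_le i (f := fun z => f z - h z) hψ (hf.sub hh)
  calc ∫ x, (ampAt i φ f x - ampAt i ψ h x) ^ 2
      ≤ ∫ x, (2 * ampAt i (fun y => φ y - ψ y) f x ^ 2 +
          2 * ampAt i ψ (fun z => f z - h z) x ^ 2) := by
        refine integral_mono_of_nonneg (ae_of_all _ fun x => sq_nonneg _)
          ((m1.integrable_sq.const_mul 2).add (m2.integrable_sq.const_mul 2)) ?_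
        filter_upwards [ampAt_sub i hφ hψ hf hh] with x hx
        rw [hx]
        nlinarith [sq_nonneg (ampAt i (fun y => φ y - ψ y) f x -
          ampAt i ψ (fun z => f z - h z) x)]
    _ ≤ _ := by
        rw [integral_add (m1.integrable_sq.const_mul 2) (m2.integrable_sq.const_mul 2),
          integral_const_mul, integral_const_mul]
        linarith

lemma mirror_ins (i : Fin 3) (x : Space) (y : Cfg 2) :
    (fun j => mirror ((i.insertNth x y : Cfg 3) j)) =
      i.insertNth (mirror x) (fun k => mirror (y k)) := by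
  funext j
  rcases Fin.eq_self_or_eq_succAbove i j with rfl | ⟨m, rfl⟩ <;> simp

/-- The amplitude of a mirror-even ion state in a mirror-odd state is odd. -/
lemma ampAt_mirror (i : Fin 3) {φ : Cfg 2 → ℝ} {f : Cfg 3 → ℝ} {τ σ : ℝ}
    (hφe : ∀ᵐ y, φ (fun k => mirror (y k)) = τ * φ y)
    (hfo : ∀ᵐ z, f (fun j => mirror (z j)) = σ * f z) :
    ∀ᵐ x : Space, ampAt i φ f (mirror x) = τ * σ * ampAt i φ f x := by
  have hT : MeasurePreserving (fun y : Cfg 2 => fun k => mirror (y k)) volume volume := by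
    have h := measurePreserving_mirL (n := 2) fun _ => true
    have e : (mirL (fun _ : Fin 2 => true) : Cfg 2 → Cfg 2) = fun y k => mirror (y k) :=
      funext fun y => funext fun k => by simp [mirL_apply]
    rwa [e] at h
  have hTe : MeasurableEmbedding (fun y : Cfg 2 => fun k => mirror (y k)) := by
    refine Measurable.measurableEmbedding hT.measurable fun a b hab => funext fun k => ?_
    have := congrArg mirror (congrFun hab k)
    have hinv : ∀ v : Space, mirror (mirror v) = v := fun v => by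
      simp [mirror, height, unit3]
      module
    rwa [hinv, hinv] at this
  have hz : ∀ᵐ x : Space, ∀ᵐ y : Cfg 2,
      f (fun j => mirror ((i.insertNth x y : Cfg 3) j)) = σ * f (i.insertNth x y) := by
    have h := (mp_ins i).quasiMeasurePreserving.ae hfo
    exact Measure.ae_ae_of_ae_prod h
  filter_upwards [hz] with x hx
  simp only [ampAt, ipN, slice]
  rw [← hT.integral_comp hTe, ← integral_const_mul]
  refine integral_congr_ae ?_
  filter_upwards [hx, hφe] with y hy hy'
  simp only [mirror_ins] at hy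
  rw [hy, hy']
  ring

/-- Orbital products are square integrable. -/
lemma memLp_prod2 {p q : Space → ℝ} (hp : MemLp p 2) (hq : MemLp q 2) :
    MemLp (prod2 p q) 2 ∧ ∀ {p' q' : Space → ℝ}, MemLp p' 2 → MemLp q' 2 →
      ipN (prod2 p q) (prod2 p' q') = (∫ x, p x * p' x) * ∫ x, q x * q' x := by
  have key : ∀ u v : Space → ℝ, (fun y : Cfg 2 => ∏ k, ![u, v] k (y k)) = fun y => u (y 0) * v (y 1) :=
    fun u v => funext fun y => by simp [Fin.prod_univ_two]
  have hm : AEStronglyMeasurable (prod2 p q) volume :=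
    ((hp.1.comp_quasiMeasurePreserving (Measure.quasiMeasurePreserving_eval _ (0 : Fin 2))).mul
      (hq.1.comp_quasiMeasurePreserving (Measure.quasiMeasurePreserving_eval _ (1 : Fin 2))))
  refine ⟨(memLp_two_iff_integrable_sq hm).2 ?_, fun {p' q'} hp' hq' => ?_⟩
  · have h := Integrable.fintype_prod (μ := fun _ : Fin 2 => (volume : Measure Space))
      (f := ![fun x => p x ^ 2, fun x => q x ^ 2])
      (fun k => by fin_cases k <;> simp [hp.integrable_sq, hq.integrable_sq])
    rw [← volume_pi] at h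
    rw [key] at h
    exact h.congr (ae_of_all _ fun y => by simp [prod2]; ring)
  · have h := integral_fintype_prod_volume_eq_prod (E := fun _ : Fin 2 => Space)
      (f := ![fun x => p x * p' x, fun x => q x * q' x])
    rw [key, Fin.prod_univ_two] at h
    simp only [Matrix.cons_val_zero, Matrix.cons_val_one] at h
    rw [← h]
    simp only [ipN, prod2]
    congr 1; funext y; ring

lemma memLp_zero3 {g u : Space → ℝ} (hg : MemLp g 2) (hu : MemLp u 2) : MemLp (zero3 g u) 2 := by
  have key : ∀ p q r : Space → ℝ, MemLp p 2 → MemLp q 2 → MemLp r 2 → MemLp (prod3 p q r) 2 := by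
    intro p q r hp hq hr
    have hm : AEStronglyMeasurable (prod3 p q r) volume :=
      ((hp.1.comp_quasiMeasurePreserving (Measure.quasiMeasurePreserving_eval _ (0 : Fin 3))).mul
        (hq.1.comp_quasiMeasurePreserving (Measure.quasiMeasurePreserving_eval _ (1 : Fin 3)))).mul
        (hr.1.comp_quasiMeasurePreserving (Measure.quasiMeasurePreserving_eval _ (2 : Fin 3)))
    refine (memLp_two_iff_integrable_sq hm).2 ?_
    have h := Integrable.fintype_prod (μ := fun _ : Fin 3 => (volume : Measure Space))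
      (f := ![fun x => p x ^ 2, fun x => q x ^ 2, fun x => r x ^ 2])
      (fun k => by fin_cases k <;> simp [hp.integrable_sq, hq.integrable_sq, hr.integrable_sq])
    rw [← volume_pi] at h
    exact h.congr (ae_of_all _ fun y => by simp [prod3, Fin.prod_univ_three]; ring)
  have h := ((key g u g hg hu hg).sub (key u g g hu hg hg)).const_mul (√2)⁻¹
  exact h.ae_eq (ae_of_all _ fun z => by simp [zero3]; ring)

lemma ins_zero_apply (x : Space) (y : Cfg 2) :
    ((0 : Fin 3).insertNth x y : Cfg 3) 0 = x ∧ ((0 : Fin 3).insertNth x y : Cfg 3) 1 = y 0 ∧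
      ((0 : Fin 3).insertNth x y : Cfg 3) 2 = y 1 := by
  refine ⟨by simp, ?_, ?_⟩
  · exact Fin.insertNth_apply_succAbove (α := fun _ => Space) (0 : Fin 3) x y 0
  · exact Fin.insertNth_apply_succAbove (α := fun _ => Space) (0 : Fin 3) x y 1

lemma ins_two_apply (x : Space) (y : Cfg 2) :
    ((2 : Fin 3).insertNth x y : Cfg 3) 0 = y 0 ∧ ((2 : Fin 3).insertNth x y : Cfg 3) 1 = y 1 ∧
      ((2 : Fin 3).insertNth x y : Cfg 3) 2 = x := by
  refine ⟨?_, ?_, by simp⟩
  · exact Fin.insertNth_apply_succAbove (α := fun _ => Space) (2 : Fin 3) x y 0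
  · exact Fin.insertNth_apply_succAbove (α := fun _ => Space) (2 : Fin 3) x y 1

/-- Without repulsion the two channels are `-u / √2` and `g`. -/
lemma ampAt_zero3 {g u : Space → ℝ} (hg : MemLp g 2) (hu : MemLp u 2) (hgn : ∫ x, g x ^ 2 = 1)
    (hun : ∫ x, u x ^ 2 = 1) (horth : ∫ x, g x * u x = 0) (x : Space) :
    ampAt 0 (prod2 g g) (zero3 g u) x = -u x / √2 ∧
    ampAt 2 (fun y => (prod2 g u y - prod2 u g y) / √2) (zero3 g u) x = g x := by
  obtain ⟨mgg, egg⟩ := memLp_prod2 hg hg
  obtain ⟨mgu, egu⟩ := memLp_prod2 hg hu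
  obtain ⟨mug, eug⟩ := memLp_prod2 hu hg
  have g2 : ∫ x, g x * g x = 1 := by simpa [sq] using hgn
  have u2 : ∫ x, u x * u x = 1 := by simpa [sq] using hun
  have gu : ∫ x, u x * g x = 0 := by simpa [mul_comm] using horth
  constructor
  · have e : ∀ y, slice 0 (zero3 g u) x y = (g x * prod2 u g y - u x * prod2 g g y) / √2 :=
      fun y => by
        obtain ⟨h0, h1, h2⟩ := ins_zero_apply x y
        simp only [slice, zero3, prod3, prod2, h0, h1, h2]; ring
    have i1 : Integrable fun y => prod2 g g y * prod2 u g y := mgg.integrable_mul mug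
    have i2 : Integrable fun y => prod2 g g y * prod2 g g y := mgg.integrable_mul mgg
    have e' : (fun y => prod2 g g y * slice 0 (zero3 g u) x y) = fun y =>
        g x / √2 * (prod2 g g y * prod2 u g y) - u x / √2 * (prod2 g g y * prod2 g g y) :=
      funext fun y => by rw [e]; ring
    simp only [ampAt, ipN, e']
    rw [integral_sub (i1.const_mul _) (i2.const_mul _), integral_const_mul, integral_const_mul]
    have a1 := egg hu hg
    have a2 := egg hg hg
    simp only [ipN] at a1 a2
    rw [a1, a2, g2, horth]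
    ring
  · have e : ∀ y, slice 2 (zero3 g u) x y = g x * ((prod2 g u y - prod2 u g y) / √2) := fun y => by
      obtain ⟨h0, h1, h2⟩ := ins_two_apply x y
      simp only [slice, zero3, prod3, prod2, h0, h1, h2]; ring
    have s2 : √2 * √2 = (2 : ℝ) := Real.mul_self_sqrt zero_le_two
    have e' : (fun y => (prod2 g u y - prod2 u g y) / √2 * slice 2 (zero3 g u) x y) = fun y =>
        g x / 2 * ((prod2 g u y * prod2 g u y - prod2 g u y * prod2 u g y) -
          (prod2 u g y * prod2 g u y - prod2 u g y * prod2 u g y)) := funext fun y => by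
      rw [e, show (prod2 g u y - prod2 u g y) / √2 * (g x * ((prod2 g u y - prod2 u g y) / √2)) =
        g x / (√2 * √2) * ((prod2 g u y - prod2 u g y) * (prod2 g u y - prod2 u g y)) by ring, s2]
      ring
    have i1 : Integrable fun y => prod2 g u y * prod2 g u y := mgu.integrable_mul mgu
    have i2 : Integrable fun y => prod2 g u y * prod2 u g y := mgu.integrable_mul mug
    have i3 : Integrable fun y => prod2 u g y * prod2 g u y := mug.integrable_mul mgu
    have i4 : Integrable fun y => prod2 u g y * prod2 u g y := mug.integrable_mul mug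
    simp only [ampAt, ipN, e']
    rw [integral_const_mul, integral_sub (i1.sub' i2) (i3.sub' i4), integral_sub i1 i2,
      integral_sub i3 i4]
    have a1 := egu hg hu; have a2 := egu hu hg; have a3 := eug hg hu; have a4 := eug hu hg
    simp only [ipN] at a1 a2 a3 a4
    rw [a1, a2, a3, a4, g2, u2, horth, gu]
    ring

/-- Orthogonality of the two levels. -/
lemma orth_levels {l eg eu e' : ℝ} {g u : Space → ℝ} {Dg Du : Fin 3 → Space → ℝ}
    (Z : ZeroOrder l g u Dg Du eg eu e') : ∫ x, g x * u x = 0 := by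
  have h := One.integral_comp_mirror (fun x => g x * u x)
  have h' : ∫ x, g (mirror x) * u (mirror x) = -∫ x, g x * u x := by
    rw [← integral_neg]
    refine integral_congr_ae ?_
    filter_upwards [Z.g_even, Z.u_odd] with x hx hy
    rw [hx, hy]; ring
  linarith

/-- The decay rates and exponents stay in a fixed range, and near their limit. -/
lemma params {l g u Dg Du eg eu e'} (Z : ZeroOrder l g u Dg Du eg eu e') (C : ℝ) :
    ∃ lam₀ lo hi N K : ℝ, 0 < lam₀ ∧ lam₀ ≤ 1 / 4 ∧ 0 < lo ∧ lo ≤ hi ∧ 0 ≤ N ∧ 0 ≤ K ∧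
      ForStates l C g u Dg Du eg eu (fun lam E3 _ _ E2 _ _ _ _ Et _ =>
        (lo ≤ decayRate E2 E3 ∧ decayRate E2 E3 ≤ hi ∧ decayRate E2 E3 ^ 2 / 2 = E2 - E3 ∧
          |decayRate E2 E3 ^ 2 / 2 + eu| ≤ K * lam ∧
          |(2 - 2 * lam) / decayRate E2 E3| + 3 ≤ N) ∧
        (lo ≤ decayRate Et E3 ∧ decayRate Et E3 ≤ hi ∧ decayRate Et E3 ^ 2 / 2 = Et - E3 ∧
          |decayRate Et E3 ^ 2 / 2 + eg| ≤ K * lam ∧
          |(2 - 2 * lam) / decayRate Et E3| + 3 ≤ N)) lam₀ := by
  have heu : eu < 0 := Z.eu_lt.trans Z.e'_neg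
  have heg : eg < 0 := Z.eg_lt.trans heu
  set K := |C| with hK
  set lo := Real.sqrt (-eu) with hlo
  have hlo0 : 0 < lo := Real.sqrt_pos.2 (by linarith)
  set lam₀ := min (1 / 4) (min (-eu / (2 * K + 1)) (1 / (2 * K + 1)))
  refine ⟨lam₀, lo, Real.sqrt (2 * (-eg + 1)), 2 / lo + 3, K, ?_, min_le_left _ _, hlo0, ?_,
    by positivity, abs_nonneg _, fun lam hlam E3 f D E2 χ Dχ Es χs Ds Et χt Dt h => ?_⟩
  · exact lt_min (by norm_num) (lt_min (div_pos (by linarith) (by positivity)) (by positivity))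
  · exact Real.sqrt_le_sqrt (by linarith [Z.eg_lt])
  obtain ⟨hl0, hl1⟩ := hlam
  have hl : lam ≤ 1 / 4 := hl1.le.trans (min_le_left _ _)
  have hKl : K * lam ≤ -eu / 2 ∧ K * lam ≤ 1 / 2 := by
    have a := hl1.le.trans ((min_le_right _ _).trans (min_le_left _ _))
    have b := hl1.le.trans ((min_le_right _ _).trans (min_le_right _ _))
    rw [le_div_iff₀ (by positivity)] at a b
    constructor <;> nlinarith
  have hCl : C * lam ≤ K * lam := mul_le_mul_of_nonneg_right (le_abs_self C) hl0.le
  have key : ∀ E e : ℝ, eu ≥ e → -eg ≥ -e → |(E - E3) + e| ≤ K * lam → e ≤ eu →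
      lo ≤ decayRate E E3 ∧ decayRate E E3 ≤ Real.sqrt (2 * (-eg + 1)) ∧
        decayRate E E3 ^ 2 / 2 = E - E3 ∧ |decayRate E E3 ^ 2 / 2 + e| ≤ K * lam ∧
        |(2 - 2 * lam) / decayRate E E3| + 3 ≤ 2 / lo + 3 := by
    intro E e h1 heb h2 _
    have h3 := abs_le.1 h2
    have hpos : 0 ≤ 2 * (E - E3) := by linarith [hKl.1]
    have hsq : decayRate E E3 ^ 2 / 2 = E - E3 := by
      rw [decayRate, Real.sq_sqrt hpos]; ring
    have hlow : lo ≤ decayRate E E3 := Real.sqrt_le_sqrt (by linarith [hKl.1])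
    refine ⟨hlow, ?_, hsq, by rw [hsq]; exact h2, ?_⟩
    · exact Real.sqrt_le_sqrt (by linarith [hKl.1, hKl.2])
    · rw [abs_div, abs_of_nonneg (by linarith : (0 : ℝ) ≤ 2 - 2 * lam),
        abs_of_pos (hlo0.trans_le hlow)]
      have := div_le_div₀ zero_le_two (by linarith : 2 - 2 * lam ≤ 2) hlo0 hlow
      linarith
  refine ⟨key E2 eu le_rfl (by linarith [Z.eg_lt]) ?_ le_rfl,
    key Et eg Z.eg_lt.le (by linarith) ?_ Z.eg_lt.le⟩
  · rw [abs_le]; constructor <;>
      linarith [h.three.energy_ge, h.three.energy_le, h.ion.energy_ge, h.ion.energy_le]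
  · rw [abs_le]; constructor <;>
      linarith [h.three.energy_ge, h.three.energy_le, h.triplet.energy_ge, h.triplet.energy_le]

end Vale.Agent.P363.Inter
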