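import Vale.Agent.P363.Inter.Bar.Calculus
import Vale.Agent.P363.Tool.SupBound
import Vale.Agent.P363.Tool.MaxPrinciple

/-!
P363, interacting side: comparison with barriers outside a ball and local bounds from mean
squares.
-/

noncomputable section

namespace Vale.Agent.P363.Inter

open MeasureTheory Metric Filter
open scoped BigOperators Topology ENNReal

/-- The outside of a ball. -/
def Ext (R : ℝ) : Set Space := {x : Space | R < ‖x‖}

lemma mem_ext {R : ℝ} {x : Space} : x ∈ Ext R ↔ R < ‖x‖ := Iff.rfl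

lemma isOpen_ext (R : ℝ) : IsOpen (Ext R) := isOpen_lt continuous_const continuous_norm

lemma ext_mono {R R' : ℝ} (h : R ≤ R') : Ext R' ⊆ Ext R := fun _ hx => lt_of_le_of_lt h hx

lemma ne_zero_of_mem_ext {R : ℝ} (hR : 0 ≤ R) {x : Space} (hx : x ∈ Ext R) : x ≠ 0 :=
  norm_pos_iff.1 (lt_of_le_of_lt hR hx)

lemma annulus_subset_ext {R r₁ r₂ : ℝ} (h : R < r₁) :
    {x : Space | r₁ ≤ ‖x‖ ∧ ‖x‖ ≤ r₂} ⊆ Ext R := fun _ hx => lt_of_lt_of_le h hx.1

lemma isCompact_annulus (r₁ r₂ : ℝ) : IsCompact {x : Space | r₁ ≤ ‖x‖ ∧ ‖x‖ ≤ r₂} := by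
  refine (isCompact_closedBall (0 : Space) r₂).of_isClosed_subset
    ((isClosed_le continuous_const continuous_norm).inter
      (isClosed_le continuous_norm continuous_const)) fun x hx => ?_
  simpa using hx.2

/-- Comparison outside a ball: `-Δu/2 + m u ≤ S ≤ -ΔB/2 + m B` gives `u ≤ B`, if this holds in a
shell and asymptotically. -/
theorem compare_ext {R : ℝ} {u B S m : Space → ℝ}
    (hu : WeakSubPoisson (Ext R) u fun x => 2 * (m x * u x - S x))
    (hm : ContinuousOn m (Ext R)) (hm0 : ∀ x ∈ Ext R, 0 ≤ m x)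
    (hB : ContDiffOn ℝ 2 B (Ext R))
    (hsup : ∀ᵐ x, x ∈ Ext R → lap B x ≤ 2 * (m x * B x - S x))
    (hloc : ∀ K, IsCompact K → K ⊆ Ext R → ∃ C, ∀ᵐ x, x ∈ K → |u x| ≤ C)
    (hin : ∃ r₁ > R, ∀ᵐ x, x ∈ Ext R → ‖x‖ < r₁ → u x ≤ B x)
    (hout : ∀ ε > 0, ∃ r₂ : ℝ, ∀ᵐ x, x ∈ Ext R → r₂ < ‖x‖ → u x - B x ≤ ε) :
    ∀ᵐ x, x ∈ Ext R → u x ≤ B x := by
  have hU := isOpen_ext R
  have hneg : WeakSubPoisson (Ext R) (fun x => -B x) fun x => -lap B x := by
    have h := ((WeakPoisson.of_contDiffOn hU hB).const_mul (-1)).toSub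
    simpa using h
  have key := maxPrinciple (Ext R) (fun x => u x + -B x)
    (fun x => 2 * (m x * u x - S x) + -lap B x) (fun x => 2 * m x) hU (hu.add hneg)
    (continuousOn_const.mul hm) (fun x hx => mul_nonneg zero_le_two (hm0 x hx)) ?_ ?_ ?_
  · filter_upwards [key] with x hx hxU
    linarith [hx hxU]
  · intro K hK hKU
    obtain ⟨C, hC⟩ := hloc K hK hKU
    obtain ⟨C', hC'⟩ := hK.exists_bound_of_continuousOn (hB.continuousOn.mono hKU)
    refine ⟨C + C', ?_⟩
    filter_upwards [hC] with x hx hxK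
    have h2 := hC' x hxK
    rw [Real.norm_eq_abs] at h2
    calc |u x + -B x| ≤ |u x| + |-B x| := abs_add_le _ _
      _ ≤ C + C' := by rw [abs_neg]; exact add_le_add (hx hxK) h2
  · filter_upwards [hsup] with x hx hxU
    nlinarith [hx hxU]
  · intro ε hε
    obtain ⟨r₁, hr₁, h1⟩ := hin
    obtain ⟨r₂, h2⟩ := hout ε hε
    refine ⟨{x : Space | r₁ ≤ ‖x‖ ∧ ‖x‖ ≤ r₂}, isCompact_annulus r₁ r₂,
      annulus_subset_ext hr₁, ?_⟩
    filter_upwards [h1, h2] with x ha hb hx
    by_cases hlt : ‖x‖ < r₁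
    · linarith [ha hx.1 hlt]
    · have : r₂ < ‖x‖ := not_le.1 fun hle => hx.2 ⟨not_lt.1 hlt, hle⟩
      linarith [hb hx.1 this]

/-- The root mean square on a ball. -/
def ballNorm (x₀ : Space) (ρ : ℝ) (f : Space → ℝ) : ℝ := Real.sqrt (∫ y in ball x₀ ρ, f y ^ 2)

lemma ballNorm_nonneg (x₀ : Space) (ρ : ℝ) (f : Space → ℝ) : 0 ≤ ballNorm x₀ ρ f :=
  Real.sqrt_nonneg _

lemma eLpNorm_two_toReal {μ : Measure Space} {f : Space → ℝ} (hf : MemLp f 2 μ) :
    (eLpNorm f 2 μ).toReal = Real.sqrt (∫ y, f y ^ 2 ∂μ) := by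
  rw [hf.eLpNorm_eq_integral_rpow_norm two_ne_zero (by simp), ENNReal.toReal_ofReal (by positivity),
    Real.sqrt_eq_rpow]
  norm_num

/-- Subsolutions with bounded potential are bounded above by nearby mean squares. -/
theorem sup_ball {M : ℝ} (hM : 0 ≤ M) : ∃ C : ℝ, 0 ≤ C ∧ ∀ (x₀ : Space) (u m S : Space → ℝ),
    WeakSubPoisson (ball x₀ 2) u (fun x => 2 * (m x * u x - S x)) →
    (∀ᵐ x, x ∈ ball x₀ 2 → |m x| ≤ M) →
    MemLp u 2 (volume.restrict (ball x₀ 2)) → MemLp S 2 (volume.restrict (ball x₀ 2)) →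
    ∀ᵐ x, x ∈ ball x₀ 1 → u x ≤ C * (ballNorm x₀ 2 u + ballNorm x₀ 2 S) := by
  obtain ⟨C, hC0, hC⟩ := supBound 2 (by norm_num) 1 one_pos
  set vol : ℝ := Real.sqrt (volume.real (ball (0 : Space) 2)) with hvol
  refine ⟨C * (vol + 2 * M + 2), by positivity, fun x₀ u m S hu hm hu2 hS2 => ?_⟩
  have hfin : IsFiniteMeasure (volume.restrict (ball x₀ (2 : ℝ))) :=
    isFiniteMeasure_restrict.2 measure_ball_lt_top.ne
  set g : Space → ℝ := fun x => 2 * (M * |u x| + |S x|) with hg
  have hg2 : MemLp g 2 (volume.restrict (ball x₀ 2)) :=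
    ((hu2.abs.const_mul M).add hS2.abs).const_mul 2
  have hsub : WeakSubPoisson (ball x₀ 2) u (-g) := by
    refine hu.weaken ?_ ?_ isOpen_ball
    · exact (IntegrableOn.locallyIntegrableOn (hg2.integrable one_le_two)).neg
    · filter_upwards [ae_restrict_of_ae hm, ae_restrict_mem measurableSet_ball] with x hx hxb
      have h1 := hx hxb
      have h2 : |m x * u x| ≤ M * |u x| := by
        rw [abs_mul]; exact mul_le_mul_of_nonneg_right h1 (abs_nonneg _)
      show -(2 * (M * |u x| + |S x|)) ≤ 2 * (m x * u x - S x)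
      linarith [neg_abs_le (m x * u x), le_abs_self (S x)]
  have h := hC x₀ u g (by simpa using hsub)
    (by simpa [IntegrableOn] using hu2.integrable one_le_two)
    (by simpa using hg2)
  norm_num at h
  have hone : ∫ y in ball x₀ 2, |u y| ≤ vol * ballNorm x₀ 2 u := by
    have hu1 : MemLp (fun _ : Space => (1 : ℝ)) (ENNReal.ofReal 2)
        (volume.restrict (ball x₀ 2)) := memLp_const 1
    have := integral_mul_le_Lp_mul_Lq_of_nonneg (μ := volume.restrict (ball x₀ 2))
      Real.HolderConjugate.two_two (f := fun _ => (1 : ℝ)) (g := fun y => |u y|)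
      (ae_of_all _ fun _ => zero_le_one) (ae_of_all _ fun _ => abs_nonneg _) hu1
      (by simpa [Pi.abs_def] using hu2.abs)
    refine le_trans (le_of_eq (by simp)) (this.trans (le_of_eq ?_))
    rw [hvol, ballNorm, Real.sqrt_eq_rpow, Real.sqrt_eq_rpow]
    simp [Measure.real, Measure.addHaar_ball_center]
  have hgn : (eLpNorm g 2 (volume.restrict (ball x₀ 2))).toReal ≤
      2 * M * ballNorm x₀ 2 u + 2 * ballNorm x₀ 2 S := by
    have e1 := eLpNorm_two_toReal hu2
    have e2 := eLpNorm_two_toReal hS2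
    have ht : eLpNorm g 2 (volume.restrict (ball x₀ 2)) ≤
        eLpNorm ((2 * M) • u) 2 (volume.restrict (ball x₀ 2)) +
          eLpNorm ((2 : ℝ) • S) 2 (volume.restrict (ball x₀ 2)) := by
      have hgeq : g = (fun x => 2 * M * |u x|) + fun x => 2 * |S x| := by
        funext x; simp only [hg, Pi.add_apply]; ring
      rw [hgeq]
      refine (eLpNorm_add_le (hu2.abs.const_mul _).aestronglyMeasurable
        (hS2.abs.const_mul _).aestronglyMeasurable one_le_two).trans (add_le_add ?_ ?_)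
      · exact le_of_eq (eLpNorm_congr_norm_ae (ae_of_all _ fun x => by simp))
      · exact le_of_eq (eLpNorm_congr_norm_ae (ae_of_all _ fun x => by simp))
    have ha := (hu2.const_smul (2 * M)).eLpNorm_ne_top
    have hb := (hS2.const_smul (2 : ℝ)).eLpNorm_ne_top
    refine (ENNReal.toReal_mono (ENNReal.add_ne_top.2 ⟨ha, hb⟩) ht).trans ?_
    rw [ENNReal.toReal_add ha hb, eLpNorm_const_smul, eLpNorm_const_smul]
    simp [e1, e2, ballNorm, Real.norm_eq_abs, abs_of_nonneg hM]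
  filter_upwards [h] with x hx hxb
  refine (hx hxb).trans ?_
  have n1 := ballNorm_nonneg x₀ 2 u
  have n2 := ballNorm_nonneg x₀ 2 S
  have v0 : 0 ≤ vol := Real.sqrt_nonneg _
  calc C * ((∫ y in ball x₀ 2, |u y|) + (eLpNorm g 2 (volume.restrict (ball x₀ 2))).toReal)
      ≤ C * (vol * ballNorm x₀ 2 u + (2 * M * ballNorm x₀ 2 u + 2 * ballNorm x₀ 2 S)) :=
        mul_le_mul_of_nonneg_left (add_le_add hone hgn) hC0
    _ ≤ C * (vol + 2 * M + 2) * (ballNorm x₀ 2 u + ballNorm x₀ 2 S) := by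
        nlinarith [mul_nonneg hC0 n1, mul_nonneg hC0 n2, mul_nonneg (mul_nonneg hC0 v0) n2,
          mul_nonneg (mul_nonneg hC0 hM) n2]

/-- Unit balls with centres in a countable dense set cover space. -/
lemma exists_centres : ∃ s : Set Space, s.Countable ∧ ∀ x, ∃ c ∈ s, dist x c < 1 := by
  obtain ⟨s, hs, hd⟩ := TopologicalSpace.exists_countable_dense Space
  exact ⟨s, hs, fun x => hd.exists_dist_lt x one_pos⟩

/-- The same bound, uniformly outside a ball and vanishing at infinity. -/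
theorem sup_ext {M : ℝ} (hM : 0 ≤ M) : ∃ C : ℝ, 0 ≤ C ∧ ∀ (R : ℝ) (u m S : Space → ℝ),
    WeakSubPoisson (Ext R) u (fun x => 2 * (m x * u x - S x)) →
    (∀ᵐ x, x ∈ Ext R → |m x| ≤ M) →
    MemLp u 2 (volume.restrict (Ext R)) → MemLp S 2 (volume.restrict (Ext R)) →
    (∀ᵐ x, x ∈ Ext (R + 3) → u x ≤ C * (Real.sqrt (∫ y in Ext R, u y ^ 2) +
      Real.sqrt (∫ y in Ext R, S y ^ 2))) ∧
    ∀ ε > 0, ∃ r : ℝ, ∀ᵐ x, x ∈ Ext r → u x ≤ ε := by
  obtain ⟨C, hC0, hC⟩ := sup_ball hM
  refine ⟨C, hC0, fun R u m S hu hm hu2 hS2 => ?_⟩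
  obtain ⟨s, hs, hcov⟩ := exists_centres
  have hmain : ∀ r, R ≤ r → ∀ᵐ x, x ∈ Ext (r + 3) →
      u x ≤ C * (Real.sqrt (∫ y in Ext r, u y ^ 2) + Real.sqrt (∫ y in Ext r, S y ^ 2)) := by
    intro r hr
    have hall : ∀ᵐ x, ∀ c ∈ s, r + 2 < ‖c‖ → x ∈ ball c 1 →
        u x ≤ C * (ballNorm c 2 u + ballNorm c 2 S) := by
      refine (ae_ball_iff hs).2 fun c _ => ?_
      by_cases hc : r + 2 < ‖c‖
      · have hsub : ball c 2 ⊆ Ext R := fun y hy => by
          have h1 : ‖c‖ ≤ ‖y‖ + dist y c := by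
            rw [dist_eq_norm]; exact norm_le_norm_add_norm_sub _ _
          have h2 : dist y c < 2 := hy
          show R < ‖y‖
          linarith
        filter_upwards [hC c u m S ⟨hu.1.mono_set hsub, hu.2.1.mono_set hsub,
            fun η hη => hu.2.2 η (hη.mono hsub)⟩
          (by filter_upwards [hm] with y hy hy' using hy (hsub hy'))
          (hu2.mono_measure (Measure.restrict_mono hsub le_rfl))
          (hS2.mono_measure (Measure.restrict_mono hsub le_rfl))] with x hx _ hxb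
        exact hx hxb
      · exact ae_of_all _ fun x hc' => absurd hc' hc
    filter_upwards [hall] with x hx hxr
    obtain ⟨c, hcs, hd⟩ := hcov x
    have hcr : r + 2 < ‖c‖ := by
      have h1 : ‖x‖ ≤ ‖c‖ + dist x c := by
        rw [dist_eq_norm, norm_sub_rev]; exact norm_le_norm_add_norm_sub _ _
      have h2 : r + 3 < ‖x‖ := hxr
      linarith
    refine (hx c hcs hcr hd).trans (mul_le_mul_of_nonneg_left (add_le_add ?_ ?_) hC0)
    all_goals
      refine Real.sqrt_le_sqrt (setIntegral_mono_set ?_ (ae_of_all _ fun y => sq_nonneg _)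
        (Eventually.of_forall fun y hy => ?_))
    rotate_left 2
    · exact (hS2.mono_measure (Measure.restrict_mono (ext_mono hr) le_rfl)).integrable_sq
    rotate_right 2
    · exact (hu2.mono_measure (Measure.restrict_mono (ext_mono hr) le_rfl)).integrable_sq
    all_goals
      have h1 : ‖c‖ ≤ ‖y‖ + dist y c := by
        rw [dist_eq_norm]; exact norm_le_norm_add_norm_sub _ _
      have h2 : dist y c < 2 := hy
      show r < ‖y‖
      linarith
  refine ⟨hmain R le_rfl, fun ε hε => ?_⟩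
  have htend : ∀ v : Space → ℝ, MemLp v 2 (volume.restrict (Ext R)) →
      Tendsto (fun j : ℕ => Real.sqrt (∫ y in Ext (R + j), v y ^ 2)) atTop (𝓝 0) := by
    intro v hv
    have hanti : Antitone fun j : ℕ => Ext (R + j) := fun i j hij =>
      ext_mono (by linarith [(Nat.cast_le (α := ℝ)).2 hij])
    have hi : IntegrableOn (fun y => v y ^ 2) (Ext (R + (0 : ℕ))) := by simpa [IntegrableOn] using hv.integrable_sq
    have h := hanti.tendsto_setIntegral (fun j => (isOpen_ext _).measurableSet) hi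
    have he : ⋂ j : ℕ, Ext (R + j) = ∅ := by
      refine Set.eq_empty_of_forall_notMem fun x hx => ?_
      obtain ⟨j, hj⟩ := exists_nat_gt (‖x‖ - R)
      have := Set.mem_iInter.1 hx j
      rw [mem_ext] at this
      linarith
    rw [he, setIntegral_empty] at h
    simpa using h.sqrt
  have hlim : Tendsto (fun j : ℕ => C * (Real.sqrt (∫ y in Ext (R + j), u y ^ 2) +
      Real.sqrt (∫ y in Ext (R + j), S y ^ 2))) atTop (𝓝 0) := by
    simpa using ((htend u hu2).add (htend S hS2)).const_mul C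
  obtain ⟨j, hj⟩ := (hlim.eventually (gt_mem_nhds hε)).exists
  refine ⟨R + j + 3, ?_⟩
  filter_upwards [hmain (R + j) (by simp)] with x hx hxr
  exact (hx hxr).trans hj.le

end Vale.Agent.P363.Inter
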