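import Vale.Agent.P363.Inter.Bar.DecayBase

/-!
P363, interacting side: upper bounds outside a ball from the mean square and a barrier.
-/

noncomputable section

namespace Vale.Agent.P363.Inter

open MeasureTheory Metric Filter
open scoped BigOperators Topology

/-- A nonnegative subsolution is below every supersolution that beats its mean square on a
shell. -/
theorem ext_bound {M : ℝ} (hM : 0 ≤ M) :
    ∃ C : ℝ, 0 ≤ C ∧ ∀ (R₀ R T : ℝ) (u m S B : Space → ℝ), R₀ + 3 ≤ R →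
      WeakSubPoisson (Ext R₀) u (fun x => 2 * (m x * u x - S x)) →
      ContinuousOn m (Ext R₀) → (∀ x ∈ Ext R₀, |m x| ≤ M) → (∀ x ∈ Ext R, 0 ≤ m x) →
      (∀ x, 0 ≤ u x) → MemLp u 2 → MemLp S 2 →
      Real.sqrt (∫ x, u x ^ 2) + Real.sqrt (∫ x, S x ^ 2) ≤ T →
      ContDiffOn ℝ 2 B (Ext R) → (∀ x ∈ Ext R, 0 ≤ B x) →
      (∀ᵐ x, x ∈ Ext R → lap B x ≤ 2 * (m x * B x - S x)) →
      (∀ x ∈ Ext R, ‖x‖ < R + 1 → C * T ≤ B x) →
      ∀ᵐ x, x ∈ Ext R → u x ≤ B x := by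
  obtain ⟨C, hC0, hC⟩ := sup_ext hM
  refine ⟨C, hC0, fun R₀ R T u m S B hR hu hmc hmM hm0 hu0 hu2 hS2 hT hBd hB0 hsup hin => ?_⟩
  have hsub : Ext R ⊆ Ext R₀ := ext_mono (by linarith)
  obtain ⟨hbd, hlim⟩ := hC R₀ u m S hu (ae_of_all _ hmM) (hu2.restrict _) (hS2.restrict _)
  have hbd' : ∀ᵐ x, x ∈ Ext R → u x ≤ C * T := by
    filter_upwards [hbd] with x hx hxR
    refine (hx (ext_mono hR hxR)).trans (mul_le_mul_of_nonneg_left (le_trans ?_ hT) hC0)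
    exact add_le_add
      (Real.sqrt_le_sqrt (setIntegral_le_integral hu2.integrable_sq
        (ae_of_all _ fun y => sq_nonneg _)))
      (Real.sqrt_le_sqrt (setIntegral_le_integral hS2.integrable_sq
        (ae_of_all _ fun y => sq_nonneg _)))
  refine compare_ext (hu.mono hsub) (hmc.mono hsub) hm0 hBd hsup
    (fun K _ hKU => ⟨C * T, ?_⟩) ⟨R + 1, by linarith, ?_⟩ fun ε hε => ?_
  · filter_upwards [hbd'] with x hx hxK
    rw [abs_of_nonneg (hu0 x)]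
    exact hx (hKU hxK)
  · filter_upwards [hbd'] with x hx hxR hlt
    exact (hx hxR).trans (hin x hxR hlt)
  · obtain ⟨r, hr⟩ := hlim ε hε
    refine ⟨r, ?_⟩
    filter_upwards [hr] with x hx hxR hlt
    linarith [hx hlt, hB0 x hxR]

lemma powExp_lower {β κ N A r ρ : ℝ} (hβ : |β| ≤ N) (hκ : κ ≤ A) (hA : 0 ≤ A) (hr : 1 ≤ r)
    (hρ : r ≤ ρ) : powExp (-N) A ρ ≤ powExp β κ r := by
  have hr0 : 0 < r := by linarith
  refine mul_le_mul ?_ (Real.exp_le_exp.2 ?_) (Real.exp_pos _).le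
    (Real.rpow_nonneg hr0.le _)
  · refine (Real.rpow_le_rpow_of_nonpos hr0 hρ (by linarith [(abs_nonneg β).trans hβ])).trans ?_
    exact Real.rpow_le_rpow_of_exponent_le hr (abs_le.1 hβ).1
  · nlinarith [mul_le_mul_of_nonneg_right hκ hr0.le, mul_le_mul_of_nonneg_left hρ hA]

lemma powExp_zero (κ r : ℝ) : powExp 0 κ r = Real.exp (-(κ * r)) := by
  simp [powExp]

/-- The marginal barrier: critical exponent minus a half power. -/
def margBar (β a : ℝ) (x : Space) : ℝ := powExp β a ‖x‖ + -1 * powExp (β - 1 / 2) a ‖x‖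

lemma contDiffOn_powExp_norm (β κ : ℝ) :
    ContDiffOn ℝ 2 (fun x : Space => powExp β κ ‖x‖) {x | x ≠ 0} :=
  (contDiffOn_powExp β κ).comp (fun _ hy => (contDiffAt_norm ℝ hy).contDiffWithinAt)
    fun _ hy => norm_pos_iff.2 hy

lemma ext_subset_ne_zero {R : ℝ} (hR : 0 ≤ R) : Ext R ⊆ {x : Space | x ≠ 0} :=
  fun _ hx => ne_zero_of_mem_ext hR hx

lemma contDiffOn_margBar (β a : ℝ) : ContDiffOn ℝ 2 (margBar β a) {x | x ≠ 0} :=
  (contDiffOn_powExp_norm β a).add (contDiffOn_const.mul (contDiffOn_powExp_norm _ a))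

lemma marg_algebra {β a k r s m L n a₀ : ℝ} (hr : 0 < r) (ha : a₀ ≤ a) (hs0 : 0 ≤ s)
    (hs1 : s ≤ 1 / 2) (hsr : s * r = Real.sqrt r) (hβ : |β| ≤ n) (hk : a * (β + 1) = k)
    (hbig : 2 * (n + 1) ^ 2 + 2 * |L| ≤ a₀ * Real.sqrt r)
    (hm : a ^ 2 / 2 - k / r - L / r ^ 2 ≤ m) :
    (a ^ 2 - 2 * a * (β + 1) / r + β * (β + 1) / r ^ 2) -
      s * (a ^ 2 - 2 * a * (β - 1 / 2 + 1) / r + (β - 1 / 2) * (β - 1 / 2 + 1) / r ^ 2) ≤
      2 * m * (1 - s) := by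
  obtain ⟨hb1, hb2⟩ := abs_le.1 hβ
  have hn : 0 ≤ n := (abs_nonneg β).trans hβ
  have c1 : β * (β + 1) ≤ (n + 1) ^ 2 := by nlinarith
  have c2 : -(n + 1) ^ 2 ≤ (β - 1 / 2) * (β - 1 / 2 + 1) := by nlinarith [sq_nonneg β]
  have h0 : β * (β + 1) - s * ((β - 1 / 2) * (β - 1 / 2 + 1)) + 2 * L * (1 - s) ≤
      a * (s * r) := by
    rw [hsr]
    have e1 := mul_le_mul_of_nonneg_left c2 hs0
    have e2 := mul_le_mul_of_nonneg_left hs1 (sq_nonneg (n + 1))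
    have e3 := mul_le_mul_of_nonneg_right (le_abs_self L) (show 0 ≤ 1 - s by linarith)
    have e4 := mul_nonneg (abs_nonneg L) hs0
    have e5 := mul_le_mul_of_nonneg_right ha (Real.sqrt_nonneg r)
    linarith [sq_nonneg (n + 1)]
  have key : (β * (β + 1) - s * ((β - 1 / 2) * (β - 1 / 2 + 1)) + 2 * L * (1 - s)) / r ^ 2 ≤
      s * a / r := by
    rw [div_le_div_iff₀ (by positivity) hr]
    linarith [mul_le_mul_of_nonneg_right h0 hr.le]
  have h3 := mul_le_mul_of_nonneg_left hm (show 0 ≤ 2 * (1 - s) by linarith)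
  have e : (a ^ 2 - 2 * a * (β + 1) / r + β * (β + 1) / r ^ 2) -
      s * (a ^ 2 - 2 * a * (β - 1 / 2 + 1) / r + (β - 1 / 2) * (β - 1 / 2 + 1) / r ^ 2) =
      2 * (1 - s) * (a ^ 2 / 2 - k / r - L / r ^ 2) + ((β * (β + 1) -
        s * ((β - 1 / 2) * (β - 1 / 2 + 1)) + 2 * L * (1 - s)) / r ^ 2 - s * a / r) := by
    rw [← hk]; ring
  rw [e]
  linarith

lemma lap_margBar (β a : ℝ) {x : Space} (hx : x ≠ 0) :
    lap (margBar β a) x = powExp β a ‖x‖ *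
      ((a ^ 2 - 2 * a * (β + 1) / ‖x‖ + β * (β + 1) / ‖x‖ ^ 2) - ‖x‖ ^ (-(1 / 2 : ℝ)) *
        (a ^ 2 - 2 * a * (β - 1 / 2 + 1) / ‖x‖ + (β - 1 / 2) * (β - 1 / 2 + 1) / ‖x‖ ^ 2)) := by
  have hU : IsOpen {y : Space | y ≠ 0} := isOpen_ne
  rw [show margBar β a = (fun y => powExp β a ‖y‖ + -1 * powExp (β - 1 / 2) a ‖y‖) from rfl,
    lap_add hU (contDiffOn_powExp_norm β a)
      (contDiffOn_const.mul (contDiffOn_powExp_norm (β - 1 / 2) a)) hx,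
    lap_const_mul (-1) hU (contDiffOn_powExp_norm (β - 1 / 2) a) hx,
    lap_powExp β a hx, lap_powExp (β - 1 / 2) a hx,
    powExp_eq_mul (β - 1 / 2) β a (norm_pos_iff.2 hx), show β - 1 / 2 - β = -(1 / 2) by ring]
  ring

/-- The marginal barrier is a supersolution outside a ball, uniformly in the rates. -/
theorem margBar_super (N A L : ℝ) {a₀ : ℝ} (ha₀ : 0 < a₀) :
    ∃ R : ℝ, 4 ≤ R ∧ ∀ a k m : ℝ, a₀ ≤ a → a ≤ A → |k / a - 1| ≤ N → ∀ x : Space, R ≤ ‖x‖ →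
      a ^ 2 / 2 - k / ‖x‖ - L / ‖x‖ ^ 2 ≤ m →
      lap (margBar (k / a - 1) a) x ≤ 2 * (m * margBar (k / a - 1) a x) ∧
        powExp (k / a - 1) a ‖x‖ / 2 ≤ margBar (k / a - 1) a x ∧
        margBar (k / a - 1) a x ≤ powExp (k / a - 1) a ‖x‖ := by
  refine ⟨max 4 (((2 * (|N| + 1) ^ 2 + 2 * |L|) / a₀) ^ 2), le_max_left _ _, ?_⟩
  intro a k m ha _ hN x hx hm
  have hr4 : 4 ≤ ‖x‖ := (le_max_left _ _).trans hx
  have hr : 0 < ‖x‖ := by linarith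
  have hx0 : x ≠ 0 := norm_pos_iff.1 hr
  have ha0 : a ≠ 0 := (ha₀.trans_le ha).ne'
  set s := ‖x‖ ^ (-(1 / 2 : ℝ)) with hs
  have hs_eq : s = (Real.sqrt ‖x‖)⁻¹ := by
    rw [hs, Real.rpow_neg hr.le, ← Real.sqrt_eq_rpow]
  have hsq : 2 ≤ Real.sqrt ‖x‖ := Real.le_sqrt_of_sq_le (by linarith)
  have hs0 : 0 ≤ s := Real.rpow_nonneg hr.le _
  have hs1 : s ≤ 1 / 2 := by rw [hs_eq, one_div]; exact inv_anti₀ two_pos hsq
  have hsr : s * ‖x‖ = Real.sqrt ‖x‖ := by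
    rw [hs_eq, inv_mul_eq_div, Real.div_sqrt]
  have hbig : 2 * (|N| + 1) ^ 2 + 2 * |L| ≤ a₀ * Real.sqrt ‖x‖ := by
    have h1 := Real.le_sqrt_of_sq_le ((le_max_right _ _).trans hx)
    rw [div_le_iff₀ ha₀] at h1
    linarith
  have hP0 : 0 < powExp (k / a - 1) a ‖x‖ := powExp_pos _ _ hr
  have hval : margBar (k / a - 1) a x = (1 - s) * powExp (k / a - 1) a ‖x‖ := by
    rw [margBar, powExp_eq_mul (k / a - 1 - 1 / 2) (k / a - 1) a hr, hs,
      show k / a - 1 - 1 / 2 - (k / a - 1) = -(1 / 2) by ring]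
    ring
  refine ⟨?_, by rw [hval]; nlinarith, by rw [hval]; nlinarith⟩
  rw [lap_margBar _ _ hx0, hval, ← hs]
  have h := marg_algebra hr ha hs0 hs1 hsr (hN.trans (le_abs_self N))
    (show a * (k / a - 1 + 1) = k by field_simp; ring) hbig hm
  exact (mul_le_mul_of_nonneg_left h hP0.le).trans (le_of_eq (by ring))

/-- Pure power-exponentials are supersolutions with margin below a gap. -/
lemma lap_powExp_gap {β κ N A δ m : ℝ} (hβ : |β| ≤ N) (hκ0 : 0 ≤ κ) (hκ : κ ≤ A) {x : Space}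
    (hx : 1 ≤ ‖x‖) (hm : κ ^ 2 / 2 + δ ≤ m) (hsmall : barConst N A / ‖x‖ ≤ δ) :
    lap (fun y => powExp β κ ‖y‖) x ≤ 2 * (m * powExp β κ ‖x‖) - δ * powExp β κ ‖x‖ := by
  have hP := powExp_pos β κ (show 0 < ‖x‖ by linarith)
  have h := lap_gap_le (θ := 0) (p := fun _ => 1) (p1 := fun _ => 0) (p2 := fun _ => 0)
    (fun t => hasDerivAt_const t 1) (fun t => hasDerivAt_const t 0) hβ hκ0 hκ hx zero_le_one
    (by simp) (by simp) hm (by simpa using hsmall)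
  simpa using h

end Vale.Agent.P363.Inter
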