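import Vale.Agent.P363.Inter.Bar.DecayExt
import Vale.Agent.P363.Inter.Slice.H1
import Vale.Agent.P363.Tool.YukKernel

/-!
P363, interacting side: exponential moments and the two comparison lemmas for the slice norms.
-/

noncomputable section

namespace Vale.Agent.P363.Inter

open MeasureTheory Metric Filter
open scoped BigOperators Topology

/-- The three moments of a state, from the decay of the up and of the down slice. -/
lemma moments_of_bound {f : Cfg 3 → ℝ} (hf : MemLp f 2) (h1 : ∫ z, f z ^ 2 = 1)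
    (hanti : ∀ᵐ z, f (z ∘ Equiv.swap 0 1) = -f z) {K R κ ε J : ℝ} (hε : 0 ≤ ε)
    (hJ : Integrable fun x : Space => Real.exp (-((2 * κ - ε) * ‖x‖)))
    (hJJ : ∫ x : Space, Real.exp (-((2 * κ - ε) * ‖x‖)) ≤ J)
    (h0 : ∀ᵐ x : Space, R ≤ ‖x‖ → uTot f x ≤ K * Real.exp (-(κ * ‖x‖)))
    (h2 : ∀ᵐ x : Space, R ≤ ‖x‖ → uDown f x ≤ K * Real.exp (-(κ * ‖x‖))) :
    Integrable (fun x : Cfg 3 => (∑ i, Real.exp (ε * ‖x i‖)) * f x ^ 2) ∧
      ∫ x : Cfg 3, (∑ i, Real.exp (ε * ‖x i‖)) * f x ^ 2 ≤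
        3 * (Real.exp (ε * R) + K ^ 2 * J) := by
  obtain ⟨i0, b0⟩ := moment_of_bound hε hJ hJJ hf h1 0 h0
  obtain ⟨i2, b2⟩ := moment_of_bound hε hJ hJJ hf h1 2 h2
  set T : Cfg 3 → Cfg 3 := ⇑(permL (Equiv.swap (0 : Fin 3) 1) : Cfg 3 ≃L[ℝ] Cfg 3) with hT
  have hp : MeasurePreserving T volume volume := measurePreserving_permL _
  have heq : (fun z : Cfg 3 => Real.exp (ε * ‖z 1‖) * f z ^ 2) =ᵐ[volume]
      fun z => (fun w : Cfg 3 => Real.exp (ε * ‖w 0‖) * f w ^ 2) (T z) := by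
    filter_upwards [hanti] with z hz
    simp [hT, permL_apply, hz]
  have i1 : Integrable fun z : Cfg 3 => Real.exp (ε * ‖z 1‖) * f z ^ 2 :=
    (hp.integrable_comp_of_integrable i0).congr heq.symm
  have b1 : ∫ z, Real.exp (ε * ‖z 1‖) * f z ^ 2 ≤ Real.exp (ε * R) + K ^ 2 * J := by
    rw [integral_congr_ae heq]
    refine le_of_eq_of_le ?_ b0
    exact hp.integral_comp
      (permL (Equiv.swap (0 : Fin 3) 1)).toHomeomorph.measurableEmbedding
      fun w => Real.exp (ε * ‖w 0‖) * f w ^ 2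
  simp only [Fin.sum_univ_three, add_mul]
  refine ⟨(i0.add i1).add i2, ?_⟩
  have e1 := integral_add (i0.add i1) i2
  simp only [Pi.add_apply] at e1
  rw [e1, integral_add i0 i1]
  linarith

/-- Both inequalities for the whole slice and for the down slice give the marginal bound. -/
theorem norm_marg (N A M L : ℝ) {a₀ : ℝ} (hM : 0 ≤ M) (ha₀ : 0 < a₀) (R₀ : ℝ) :
    ∃ R K : ℝ, 4 ≤ R ∧ 0 ≤ K ∧ ∀ a k : ℝ, a₀ ≤ a → a ≤ A → |k / a - 1| ≤ N → |k| ≤ 2 →
      ∀ u m : Space → ℝ, WeakSubPoisson (Ext R₀) u (fun x => 2 * (m x * u x)) →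
        ContinuousOn m (Ext R₀) → (∀ x ∈ Ext R₀, |m x| ≤ M) →
        (∀ x ∈ Ext R₀, a ^ 2 / 2 - k / ‖x‖ - L / ‖x‖ ^ 2 ≤ m x) →
        (∀ x, 0 ≤ u x) → MemLp u 2 → ∫ x, u x ^ 2 ≤ 1 →
        ∀ᵐ x : Space, R < ‖x‖ → u x ≤ K * powExp (k / a - 1) a ‖x‖ := by
  obtain ⟨R₁, hR₁, hsuper⟩ := margBar_super N A L ha₀
  obtain ⟨C, hC0, hC⟩ := ext_bound hM
  set R : ℝ := max (max R₁ (R₀ + 3)) ((2 + |L|) / (a₀ ^ 2 / 2)) with hRdef
  have hR1 : R₁ ≤ R := (le_max_left _ _).trans (le_max_left _ _)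
  have hR0 : R₀ + 3 ≤ R := (le_max_right _ _).trans (le_max_left _ _)
  have hR4 : 4 ≤ R := hR₁.trans hR1
  set K : ℝ := 2 * C / powExp (-|N|) |A| (R + 1) with hKdef
  have hlow : 0 < powExp (-|N|) |A| (R + 1) := powExp_pos _ _ (by linarith)
  have hK0 : 0 ≤ K := by positivity
  refine ⟨R, K, hR4, hK0, fun a k ha haA hN hk u m hu hmc hmM hlo hu0 hu2 hu1 => ?_⟩
  set β := k / a - 1
  have hrest : ∀ x ∈ Ext R, R₁ ≤ ‖x‖ ∧ x ∈ Ext R₀ := fun x hx =>
    ⟨hR1.trans (le_of_lt hx), ext_mono (by linarith) hx⟩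
  have hsm : ∀ x ∈ Ext R, ∀ c : ℝ, lap (margBar β a) x ≤ 2 * (m x * margBar β a x) ∧
      powExp β a ‖x‖ / 2 ≤ margBar β a x ∧ margBar β a x ≤ powExp β a ‖x‖ := fun x hx _ =>
    hsuper a k (m x) ha haA hN x (hrest x hx).1 (hlo x (hrest x hx).2)
  have hm0 : ∀ x ∈ Ext R, 0 ≤ m x := fun x hx => by
    have hr : (2 + |L|) / (a₀ ^ 2 / 2) < ‖x‖ := lt_of_le_of_lt (le_max_right _ _) hx
    have hr1 : 1 ≤ ‖x‖ := by linarith [show R < ‖x‖ from hx]
    rw [div_lt_iff₀ (by positivity)] at hr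
    have h1 : k / ‖x‖ + L / ‖x‖ ^ 2 ≤ (2 + |L|) / ‖x‖ := by
      rw [add_div]
      refine add_le_add (div_le_div_of_nonneg_right ((le_abs_self k).trans hk) (norm_nonneg x)) ?_
      refine (div_le_div_of_nonneg_right (le_abs_self L) (sq_nonneg ‖x‖)).trans ?_
      exact div_le_div_of_nonneg_left (abs_nonneg L) (by linarith)
        (by nlinarith)
    have h2 : (2 + |L|) / ‖x‖ ≤ a₀ ^ 2 / 2 := by rw [div_le_iff₀ (by linarith)]; linarith
    have h3 : a₀ ^ 2 ≤ a ^ 2 := pow_le_pow_left₀ ha₀.le ha 2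
    linarith [hlo x (hrest x hx).2]
  have hU := isOpen_ext R
  have hne : Ext R ⊆ {x : Space | x ≠ 0} := ext_subset_ne_zero (by linarith)
  have hB : ContDiffOn ℝ 2 (margBar β a) (Ext R) := (contDiffOn_margBar β a).mono hne
  have h := hC R₀ R 1 u m (fun _ => 0) (fun x => K * margBar β a x) hR0
    (by simpa using hu) hmc hmM hm0 hu0 hu2 MemLp.zero' ?_ (contDiffOn_const.mul hB) ?_ ?_ ?_
  · filter_upwards [h] with x hx hxR
    exact (hx hxR).trans (mul_le_mul_of_nonneg_left (hsm x hxR 0).2.2 hK0)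
  · simpa using hu1
  · intro x hx
    have := (powExp_pos β a (show 0 < ‖x‖ by linarith [show R < ‖x‖ from hx])).le
    exact mul_nonneg hK0 (by linarith [(hsm x hx 0).2.1])
  · refine ae_of_all _ fun x hx => ?_
    rw [lap_const_mul K hU hB hx]
    have := mul_le_mul_of_nonneg_left (hsm x hx 0).1 hK0
    linarith
  · intro x hx hlt
    have hl := powExp_lower (ρ := R + 1) (hN.trans (le_abs_self N)) (haA.trans (le_abs_self A))
      (abs_nonneg A) (show 1 ≤ ‖x‖ by linarith [show R < ‖x‖ from hx]) hlt.le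
    have h2 : powExp (-|N|) |A| (R + 1) / 2 ≤ margBar β a x := by linarith [(hsm x hx 0).2.1]
    calc C * 1 = K * (powExp (-|N|) |A| (R + 1) / 2) := by rw [hKdef]; field_simp
      _ ≤ K * margBar β a x := mul_le_mul_of_nonneg_left h2 hK0

/-- The excited part below the source bound. -/
theorem perp_bound (N A M : ℝ) (hM : 0 ≤ M) {g₀ : ℝ} (hg₀ : 0 < g₀) (R₀ K₁ : ℝ) :
    ∃ R K : ℝ, 4 ≤ R ∧ 0 ≤ K ∧ ∀ a β κ lam : ℝ, 0 ≤ a → a ≤ A → 0 ≤ κ → κ ≤ A →
      |β - 2| ≤ N → 0 ≤ lam → lam ≤ 1 →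
      ∀ u m S : Space → ℝ, WeakSubPoisson (Ext R₀) u (fun x => 2 * (m x * u x - S x)) →
        ContinuousOn m (Ext R₀) → (∀ x ∈ Ext R₀, |m x| ≤ M) →
        (∀ x ∈ Ext R₀, a ^ 2 / 2 + g₀ ≤ m x ∧ κ ^ 2 / 2 + g₀ ≤ m x) →
        (∀ x, 0 ≤ u x) → MemLp u 2 → MemLp S 2 →
        Real.sqrt (∫ x, u x ^ 2) + Real.sqrt (∫ x, S x ^ 2) ≤ 1 + |K₁| →
        (∀ᵐ x, x ∈ Ext R₀ → S x ≤ K₁ * lam * powExp (β - 2) a ‖x‖) →
        ∀ᵐ x : Space, R < ‖x‖ →
          u x ≤ K * (lam * powExp (β - 2) a ‖x‖ + powExp 0 κ ‖x‖) := by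
  obtain ⟨C, hC0, hC⟩ := ext_bound hM
  set R : ℝ := max (max 4 (R₀ + 3)) (barConst |N| |A| / g₀) with hRdef
  have hR4 : 4 ≤ R := (le_max_left _ _).trans (le_max_left _ _)
  have hR0 : R₀ + 3 ≤ R := (le_max_right _ _).trans (le_max_left _ _)
  have hlow : 0 < powExp (-|N|) |A| (R + 1) := powExp_pos _ _ (by linarith)
  set K : ℝ := max (C * (1 + |K₁|) / powExp (-|N|) |A| (R + 1)) (2 * |K₁| / g₀) with hKdef
  have hK0 : 0 ≤ K := le_trans (by positivity) (le_max_right _ _)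
  refine ⟨R, K, hR4, hK0, fun a β κ lam ha haA hκ hκA hβ hlam _ u m S hu hmc hmM hlo hu0 hu2
    hS2 hT hS => ?_⟩
  have hU := isOpen_ext R
  have hne : Ext R ⊆ {x : Space | x ≠ 0} := ext_subset_ne_zero (by linarith)
  set B₁ : Space → ℝ := fun x => powExp (β - 2) a ‖x‖
  set B₂ : Space → ℝ := fun x => powExp 0 κ ‖x‖
  have d1 : ContDiffOn ℝ 2 B₁ (Ext R) := (contDiffOn_powExp_norm _ _).mono hne
  have d2 : ContDiffOn ℝ 2 B₂ (Ext R) := (contDiffOn_powExp_norm _ _).mono hne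
  have dB : ContDiffOn ℝ 2 (fun x => lam * B₁ x + B₂ x) (Ext R) :=
    (contDiffOn_const.mul d1).add d2
  have hpos : ∀ x ∈ Ext R, 0 < B₁ x ∧ 0 < B₂ x := fun x hx =>
    have hr : 0 < ‖x‖ := by linarith [show R < ‖x‖ from hx]
    ⟨powExp_pos _ _ hr, powExp_pos _ _ hr⟩
  have h := hC R₀ R (1 + |K₁|) u m S (fun x => K * (lam * B₁ x + B₂ x)) hR0 hu hmc hmM
    (fun x hx => by
      have := (hlo x (ext_mono (by linarith) hx)).1
      nlinarith [sq_nonneg a])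
    hu0 hu2 hS2 hT (contDiffOn_const.mul dB) ?_ ?_ ?_
  · exact h
  · intro x hx
    have := (hpos x hx).1
    have := (hpos x hx).2
    positivity
  · filter_upwards [hS] with x hx hxR
    have hx0 : x ∈ Ext R₀ := ext_mono (by linarith) hxR
    have hr : 1 ≤ ‖x‖ := by linarith [show R < ‖x‖ from hxR]
    have hsmall : barConst |N| |A| / ‖x‖ ≤ g₀ := by
      have h1 : barConst |N| |A| / g₀ < ‖x‖ := lt_of_le_of_lt (le_max_right _ _) hxR
      rw [div_lt_iff₀ hg₀] at h1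
      rw [div_le_iff₀ (by linarith)]
      linarith
    have l1 := lap_powExp_gap (hβ.trans (le_abs_self N)) ha (haA.trans (le_abs_self A)) hr
      (hlo x hx0).1 hsmall
    have l2 := lap_powExp_gap (β := 0) (N := |N|) (by simp) hκ (hκA.trans (le_abs_self A)) hr
      (hlo x hx0).2 hsmall
    rw [lap_const_mul K hU dB hxR, lap_add hU (contDiffOn_const.mul d1) d2 hxR,
      lap_const_mul lam hU d1 hxR]
    obtain ⟨p1, p2⟩ := hpos x hxR
    have l1' := mul_le_mul_of_nonneg_left l1 (mul_nonneg hK0 hlam)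
    have l2' := mul_le_mul_of_nonneg_left l2 hK0
    have hKg : 2 * |K₁| ≤ K * g₀ := (div_le_iff₀ hg₀).1 (le_max_right _ _)
    have hs : 2 * S x ≤ K * g₀ * (lam * B₁ x) := by
      have h1 := hx hx0
      have h2 := mul_le_mul_of_nonneg_right hKg (mul_nonneg hlam p1.le)
      have h3 := mul_le_mul_of_nonneg_right (le_abs_self K₁) (mul_nonneg hlam p1.le)
      nlinarith
    have hp2 : 0 ≤ K * (g₀ * B₂ x) := by positivity
    linarith
  · intro x hx hlt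
    have hl := powExp_lower (β := 0) (ρ := R + 1) (N := |N|) (by simp)
      (hκA.trans (le_abs_self A)) (abs_nonneg A)
      (show 1 ≤ ‖x‖ by linarith [show R < ‖x‖ from hx]) hlt.le
    have h1 : C * (1 + |K₁|) ≤ K * powExp (-|N|) |A| (R + 1) :=
      (div_le_iff₀ hlow).1 (le_max_left _ _)
    have h2 := mul_le_mul_of_nonneg_left hl hK0
    have h3 : 0 ≤ K * (lam * B₁ x) := by have := (hpos x hx).1; positivity
    linarith

end Vale.Agent.P363.Inter
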