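import Vale.Agent.P363.Inter.Bar.DecayExt
import Vale.Agent.P363.Inter.Bar.AmpBasics

/-!
P363, interacting side: gapped barriers with a profile in the height, and the parities of the
excited slice.
-/

noncomputable section

namespace Vale.Agent.P363.Inter

open MeasureTheory Metric Filter
open scoped BigOperators Topology

/-- The mild profile `√(z² + K²)`. -/
def profA (K : ℝ) (z : ℝ) : ℝ := Real.sqrt (z ^ 2 + K ^ 2)

/-- The mild profile `z² + K²`. -/
def profB (K : ℝ) (z : ℝ) : ℝ := z ^ 2 + K ^ 2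

/-- A gapped barrier. -/
def gapBar (M β a κ : ℝ) (p : ℝ → ℝ) (x : Space) : ℝ :=
  M * (powExp β a ‖x‖ * p (height x) + powExp 0 κ ‖x‖)

lemma contDiffOn_gapBar (M β a κ : ℝ) {p : ℝ → ℝ} (hp : ContDiff ℝ 2 p) :
    ContDiffOn ℝ 2 (gapBar M β a κ p) {x | x ≠ 0} :=
  contDiffOn_const.mul ((contDiffOn_radial_height (contDiffOn_powExp β a) hp).add
    (contDiffOn_powExp_norm 0 κ))

lemma gapBar_ge {M β a κ : ℝ} {p : ℝ → ℝ} (hM : 0 ≤ M) {x : Space} (hx : x ≠ 0)
    (hp : 0 ≤ p (height x)) :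
    M * (powExp β a ‖x‖ * p (height x)) ≤ gapBar M β a κ p x ∧
      M * powExp 0 κ ‖x‖ ≤ gapBar M β a κ p x ∧ 0 ≤ gapBar M β a κ p x := by
  have hr : 0 < ‖x‖ := norm_pos_iff.2 hx
  have h1 := powExp_pos β a hr
  have h2 := powExp_pos 0 κ hr
  have h3 : 0 ≤ powExp β a ‖x‖ * p (height x) := by positivity
  exact ⟨mul_le_mul_of_nonneg_left (by linarith) hM, mul_le_mul_of_nonneg_left (by linarith) hM,
    mul_nonneg hM (by linarith)⟩

/-- Gapped barriers are supersolutions with margin. -/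
lemma gap_super {M β a κ N A θ δ m : ℝ} {p p1 p2 : ℝ → ℝ} (hp : ∀ t, HasDerivAt p (p1 t) t)
    (hp1 : ∀ t, HasDerivAt p1 (p2 t) t) (hpc : ContDiff ℝ 2 p) (hM : 0 ≤ M) (hθ : 0 ≤ θ)
    (hβ : |β| ≤ N) (ha0 : 0 ≤ a) (haA : a ≤ A) (hκ0 : 0 ≤ κ) (hκA : κ ≤ A) {x : Space}
    (hx : 1 ≤ ‖x‖) (hp0 : 0 ≤ p (height x))
    (h1 : |height x * p1 (height x)| ≤ θ * ‖x‖ * p (height x))
    (h2 : p2 (height x) ≤ θ * p (height x)) (hma : a ^ 2 / 2 + δ ≤ m) (hmκ : κ ^ 2 / 2 + δ ≤ m)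
    (hsmall : barConst N A / ‖x‖ + (2 * (N + A) + 1) * θ ≤ δ) :
    lap (gapBar M β a κ p) x ≤ 2 * (m * gapBar M β a κ p x) - δ * gapBar M β a κ p x := by
  have hx0 : x ≠ 0 := norm_pos_iff.1 (by linarith)
  have hU : IsOpen {y : Space | y ≠ 0} := isOpen_ne
  have hN : 0 ≤ N := (abs_nonneg β).trans hβ
  have hA : 0 ≤ A := ha0.trans haA
  have d1 := contDiffOn_radial_height (contDiffOn_powExp β a) hpc
  have d2 := contDiffOn_powExp_norm 0 κ
  have l1 := lap_gap_le hp hp1 hβ ha0 haA hx hp0 h1 h2 hma hsmall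
  have l2 := lap_powExp_gap (β := 0) (by simpa using hN) hκ0 hκA hx hmκ
    (le_trans (le_add_of_nonneg_right (by positivity)) hsmall)
  rw [show gapBar M β a κ p =
      fun y => M * (powExp β a ‖y‖ * p (height y) + powExp 0 κ ‖y‖) from rfl,
    lap_const_mul M hU (d1.add d2) hx0, lap_add hU d1 d2 hx0]
  have := mul_le_mul_of_nonneg_left (add_le_add l1 l2) hM
  linarith

lemma contDiff_profA {K : ℝ} (hK : K ≠ 0) : ContDiff ℝ 2 (profA K) :=
  ((contDiff_id.pow 2).add contDiff_const).sqrt fun t => by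
    have := sq_pos_of_ne_zero hK
    simp only [id]
    positivity

lemma contDiff_profB (K : ℝ) : ContDiff ℝ 2 (profB K) :=
  (contDiff_id.pow 2).add contDiff_const

/-- The derivatives of the first profile and their bounds. -/
lemma profA_facts {K : ℝ} (hK : 0 < K) :
    (∀ t, HasDerivAt (profA K) (t / profA K t) t) ∧
      (∀ t, HasDerivAt (fun s => s / profA K s) (K ^ 2 / profA K t ^ 3) t) ∧
      ∀ t, K ≤ profA K t ∧ |t| ≤ profA K t ∧ |t * (t / profA K t)| ≤ 2 * profA K t ∧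
        K ^ 2 / profA K t ^ 3 ≤ 2 / K ^ 2 * profA K t := by
  have hpos : ∀ t, 0 < t ^ 2 + K ^ 2 := fun t => by positivity
  have hK' : ∀ t, K ≤ profA K t := fun t => Real.le_sqrt_of_sq_le (by nlinarith [sq_nonneg t])
  have ht' : ∀ t, |t| ≤ profA K t := fun t => by
    rw [profA, ← Real.sqrt_sq_eq_abs]; exact Real.sqrt_le_sqrt (by nlinarith)
  have h1 : ∀ t, HasDerivAt (profA K) (t / profA K t) t := fun t => by
    have := (((hasDerivAt_id t).pow 2).add_const (K ^ 2)).sqrt (hpos t).ne'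
    refine this.congr_deriv ?_
    simp [profA]
    field_simp
  refine ⟨h1, fun t => ?_, fun t => ⟨hK' t, ht' t, ?_, ?_⟩⟩
  · have hp : 0 < profA K t := Real.sqrt_pos.2 (hpos t)
    refine ((hasDerivAt_id t).div (h1 t) hp.ne').congr_deriv ?_
    have hsq : profA K t ^ 2 = t ^ 2 + K ^ 2 := Real.sq_sqrt (hpos t).le
    simp only [id]
    field_simp
    linear_combination hsq
  · have hp : 0 < profA K t := Real.sqrt_pos.2 (hpos t)
    rw [← mul_div_assoc, abs_div, abs_of_pos hp, div_le_iff₀ hp, abs_mul]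
    nlinarith [mul_le_mul (ht' t) (ht' t) (abs_nonneg t) hp.le]
  · have hp : 0 < profA K t := Real.sqrt_pos.2 (hpos t)
    rw [div_mul_eq_mul_div, div_le_div_iff₀ (by positivity) (by positivity)]
    have h4 := pow_le_pow_left₀ hK.le (hK' t) 4
    nlinarith [pow_pos hp 4]

/-- The derivatives of the second profile and their bounds. -/
lemma profB_facts {K : ℝ} (hK : 0 < K) :
    (∀ t, HasDerivAt (profB K) (2 * t) t) ∧ (∀ t : ℝ, HasDerivAt (fun s => 2 * s) 2 t) ∧
      ∀ t, 0 ≤ profB K t ∧ |t * (2 * t)| ≤ 2 * profB K t ∧ 2 ≤ 2 / K ^ 2 * profB K t := by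
  refine ⟨fun t => ?_, fun t => by simpa using (hasDerivAt_id t).const_mul (2 : ℝ),
    fun t => ⟨by unfold profB; positivity, ?_, ?_⟩⟩
  · show HasDerivAt (fun s => s ^ 2 + K ^ 2) (2 * t) t
    simpa using (hasDerivAt_pow 2 t).add_const (K ^ 2)
  · rw [show t * (2 * t) = 2 * t ^ 2 by ring, abs_of_nonneg (by positivity), profB]
    nlinarith
  · rw [profB, div_mul_eq_mul_div, le_div_iff₀ (by positivity)]
    nlinarith [sq_nonneg t]

/-- The constant of the profiles and the radius beyond which the margins hold. -/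
lemma exists_gap_params (N A : ℝ) {δ : ℝ} (hδ : 0 < δ) :
    ∃ K R : ℝ, 1 ≤ K ∧ 4 ≤ R ∧ ∀ x : Space, R ≤ ‖x‖ →
      barConst N A / ‖x‖ + (2 * (N + A) + 1) * (2 / K ^ 2) ≤ δ ∧ 2 ≤ 2 / K ^ 2 * ‖x‖ := by
  set c := |2 * (N + A) + 1| with hc
  set K := Real.sqrt (1 + 4 * c / δ) with hK
  have hK2 : K ^ 2 = 1 + 4 * c / δ := Real.sq_sqrt (by positivity)
  have hK1 : 1 ≤ K := Real.one_le_sqrt.2 (le_add_of_nonneg_right (by positivity))
  refine ⟨K, max (max 4 (K ^ 2)) (2 * |barConst N A| / δ), hK1,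
    (le_max_left _ _).trans (le_max_left _ _), fun x hx => ?_⟩
  have h4 : 4 ≤ ‖x‖ := le_trans ((le_max_left _ _).trans (le_max_left _ _)) hx
  have hKx : K ^ 2 ≤ ‖x‖ := le_trans ((le_max_right _ _).trans (le_max_left _ _)) hx
  have hbx : 2 * |barConst N A| / δ ≤ ‖x‖ := (le_max_right _ _).trans hx
  have hK0 : 0 < K ^ 2 := by positivity
  refine ⟨?_, ?_⟩
  · have e1 : barConst N A / ‖x‖ ≤ δ / 2 := by
      rw [div_le_iff₀ hδ] at hbx
      rw [div_le_iff₀ (by linarith)]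
      linarith [le_abs_self (barConst N A)]
    have e2 : (2 * (N + A) + 1) * (2 / K ^ 2) ≤ δ / 2 := by
      refine (mul_le_mul_of_nonneg_right (le_abs_self _) (by positivity)).trans ?_
      have h : 4 * c / δ ≤ K ^ 2 := by rw [hK2]; linarith
      rw [div_le_iff₀ hδ] at h
      rw [← hc, mul_div, div_le_iff₀ hK0]
      linarith
    linarith
  · rw [div_mul_eq_mul_div, le_div_iff₀ hK0]
    linarith

section Parity

lemma nrmN_add_le {F G : Cfg 2 → ℝ} (hF : MemLp F 2) (hG : MemLp G 2) :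
    nrmN (fun y => F y + G y) ≤ nrmN F + nrmN G := by
  have h0 : 0 ≤ nrmN F + nrmN G := add_nonneg (Real.sqrt_nonneg _) (Real.sqrt_nonneg _)
  refine (abs_le_of_sq_le_sq' ?_ h0).2
  have hFG : Integrable fun y => 2 * (F y * G y) := (hF.integrable_mul hG).const_mul 2
  rw [sq_nrmN]
  calc ∫ y, (F y + G y) ^ 2 = ∫ y, (F y ^ 2 + G y ^ 2 + 2 * (F y * G y)) :=
        integral_congr_ae (ae_of_all _ fun y => by ring)
    _ = nrmN F ^ 2 + nrmN G ^ 2 + 2 * ipN F G := by
        rw [integral_add (f := fun y => F y ^ 2 + G y ^ 2) (hF.integrable_sq.add hG.integrable_sq)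
          hFG, integral_add hF.integrable_sq hG.integrable_sq, integral_const_mul, sq_nrmN, sq_nrmN]
        rfl
    _ ≤ _ := by nlinarith [le_of_abs_le (abs_ipN_le hF hG)]

lemma nrmN_const_mul (c : ℝ) (F : Cfg 2 → ℝ) : nrmN (fun y => c * F y) = |c| * nrmN F := by
  simp only [nrmN_eq, mul_pow, integral_const_mul, Real.sqrt_mul (sq_nonneg c), Real.sqrt_sq_eq_abs]

lemma mp_mirror_all :
    MeasurePreserving (fun (y : Cfg 2) k => mirror (y k)) volume volume ∧
      MeasurableEmbedding fun (y : Cfg 2) k => mirror (y k) := by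
  have e : (mirL (fun _ : Fin 2 => true) : Cfg 2 → Cfg 2) = fun y k => mirror (y k) :=
    funext fun y => funext fun k => by simp [mirL_apply]
  refine ⟨?_, ?_⟩
  · have h := measurePreserving_mirL (n := 2) fun _ => true
    rwa [e] at h
  · have h := (mirL (fun _ : Fin 2 => true)).toHomeomorph.measurableEmbedding
    change MeasurableEmbedding (mirL (fun _ : Fin 2 => true) : Cfg 2 → Cfg 2) at h
    rwa [e] at h

lemma nrmN_comp_mirror {F : Cfg 2 → ℝ} (hF : MemLp F 2) :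
    MemLp (fun y : Cfg 2 => F fun k => mirror (y k)) 2 ∧
      nrmN (fun y : Cfg 2 => F fun k => mirror (y k)) = nrmN F := by
  obtain ⟨h, he⟩ := mp_mirror_all
  refine ⟨hF.comp_measurePreserving h, ?_⟩
  rw [nrmN_eq, nrmN_eq, ← h.integral_comp he fun y => F y ^ 2]

lemma ae_memLp_perp {f : Cfg 3 → ℝ} {χ : Cfg 2 → ℝ} (hf : MemLp f 2) (hχ : MemLp χ 2) :
    ∀ᵐ x : Space, MemLp (perp χ f x) 2 := by
  filter_upwards [ae_memLp_slice hf 0] with x hx
  exact hx.sub (hχ.const_mul _)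

/-- The two parities split the excited slice. -/
lemma uPar_facts {f : Cfg 3 → ℝ} {χ : Cfg 2 → ℝ} (hf : MemLp f 2) (hχ : MemLp χ 2) :
    ∀ᵐ x : Space, uPar 1 χ f x ≤ uPerp χ f x ∧ uPar (-1) χ f x ≤ uPerp χ f x ∧
      uPerp χ f x ≤ uPar 1 χ f x + uPar (-1) χ f x := by
  filter_upwards [ae_memLp_perp hf hχ] with x hx
  obtain ⟨hm, he⟩ := nrmN_comp_mirror hx
  have key : ∀ σ : ℝ, |σ| = 1 → MemLp (parPart σ (perp χ f x)) 2 ∧
      uPar σ χ f x ≤ uPerp χ f x := by
    intro σ hσ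
    have e : parPart σ (perp χ f x) = fun y =>
        1 / 2 * perp χ f x y + σ / 2 * perp χ f x fun k => mirror (y k) := by
      funext y; simp only [parPart]; ring
    refine ⟨e ▸ (hx.const_mul _).add (hm.const_mul _), ?_⟩
    rw [uPar, e]
    refine (nrmN_add_le (hx.const_mul _) (hm.const_mul _)).trans (le_of_eq ?_)
    rw [nrmN_const_mul, nrmN_const_mul, he, abs_div σ, hσ]
    simp only [uPerp, abs_two, abs_of_pos (show (0 : ℝ) < 1 / 2 by norm_num)]
    ring
  obtain ⟨m1, l1⟩ := key 1 abs_one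
  obtain ⟨m2, l2⟩ := key (-1) (by simp)
  refine ⟨l1, l2, ?_⟩
  have e : perp χ f x = fun y =>
      parPart 1 (perp χ f x) y + parPart (-1) (perp χ f x) y := by
    funext y; simp only [parPart]; ring
  conv_lhs => rw [uPerp, e]
  exact nrmN_add_le m1 m2

/-- The excited norm is symmetric under the mirror. -/
lemma uPerp_mirror {f : Cfg 3 → ℝ} {χ : Cfg 2 → ℝ} (hf : MemLp f 2) (hχ : MemLp χ 2)
    (hodd : ∀ᵐ z : Cfg 3, f (fun i => mirror (z i)) = -f z)
    (heven : ∀ᵐ y : Cfg 2, χ (fun k => mirror (y k)) = 1 * χ y) :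
    ∀ᵐ x : Space, uPerp χ f (mirror x) = uPerp χ f x := by
  have ha := ampAt_mirror 0 (σ := -1) (f := f) heven
    (by filter_upwards [hodd] with z hz; rw [hz]; ring)
  have hz := Measure.ae_ae_of_ae_prod ((mp_ins (0 : Fin 3)).quasiMeasurePreserving.ae hodd)
  obtain ⟨h, he⟩ := mp_mirror_all
  filter_upwards [ha, hz, ae_memLp_perp hf hχ] with x hx hy hp
  rw [uPerp, uPerp, nrmN_eq, nrmN_eq, ← h.integral_comp he fun y => perp χ f (mirror x) y ^ 2]
  congr 1
  refine integral_congr_ae ?_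
  filter_upwards [hy, heven] with y hy1 hy2
  simp only [mirror_ins] at hy1
  simp only [perp, slice, amp, hy1, hy2, hx]
  ring

end Parity

end Vale.Agent.P363.Inter
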