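import Vale.Agent.P363.Inter.Bar.PerpBoundWeight
import Vale.Agent.P363.Inter.Bar.DecayExt
import Vale.Agent.P363.Tool.YukRep

/-!
P363, interacting side: the exponential gain of the far source in mean square, from the energy
inequality for the weighted excited part tested with exponentially growing bumps.
-/

noncomputable section

namespace Vale.Agent.P363.Inter

open MeasureTheory Metric Filter
open scoped BigOperators Topology

/-- An exponentially growing bump away from a ball. -/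
def expBump (R σ : ℝ) (n : ℕ) (x : Space) : ℝ :=
  (1 - Yuk.cut ((1 / R) • x)) * Yuk.cut ((1 / ((n : ℝ) + 1)) • x) * Real.exp (σ * ‖x‖)

lemma expBump_eq_zero {R σ : ℝ} (hR : 0 < R) {n : ℕ} {x : Space}
    (h : ‖x‖ ≤ R ∨ 2 * ((n : ℝ) + 1) ≤ ‖x‖) : expBump R σ n x = 0 := by
  rcases h with h | h
  · have : Yuk.cut ((1 / R) • x) = 1 := Yuk.cut.one_of_mem_closedBall (by
      rw [mem_closedBall, dist_zero_right, norm_smul, Real.norm_eq_abs,
        abs_of_pos (by positivity), Yuk.cut]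
      show 1 / R * ‖x‖ ≤ 1
      rw [div_mul_eq_mul_div, one_mul, div_le_one hR]
      exact h)
    simp only [expBump, this, sub_self, zero_mul]
  · have : Yuk.cut ((1 / ((n : ℝ) + 1)) • x) = 0 := Yuk.cut.zero_of_le_dist (by
      rw [dist_zero_right, norm_smul, Real.norm_eq_abs, abs_of_pos (by positivity), Yuk.cut]
      show (2 : ℝ) ≤ 1 / ((n : ℝ) + 1) * ‖x‖
      rw [div_mul_eq_mul_div, one_mul, le_div_iff₀ (by positivity)]
      exact h)
    simp only [expBump, this, zero_mul, mul_zero]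

lemma isBump_expBump {R σ : ℝ} (hR : 0 < R) (n : ℕ) : IsBump Set.univ (expBump R σ n) := by
  refine ⟨contDiff_iff_contDiffAt.2 fun x => ?_, HasCompactSupport.intro
    (isCompact_closedBall (0 : Space) (2 * ((n : ℝ) + 1))) (fun x hx => ?_), Set.subset_univ _⟩
  · by_cases hx : ‖x‖ < R
    · refine contDiffAt_const.congr_of_eventuallyEq (eventually_of_mem
        ((isOpen_lt continuous_norm continuous_const).mem_nhds hx) fun y hy =>
          expBump_eq_zero hR (Or.inl (le_of_lt hy)))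
    · have hx0 : x ≠ 0 := norm_pos_iff.1 (by linarith)
      exact ((contDiff_const.sub (Yuk.contDiff_cut.comp (contDiff_id.const_smul _))).mul
        (Yuk.contDiff_cut.comp (contDiff_id.const_smul _))).contDiffAt.mul
        (Real.contDiff_exp.contDiffAt.comp x (contDiffAt_const.mul (contDiffAt_norm ℝ hx0)))
  · rw [mem_closedBall, dist_zero_right, not_le] at hx
    exact expBump_eq_zero hR (Or.inr hx.le)

/-- The bump and its gradient are below the exponential. -/
lemma expBump_bound (A : ℝ) :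
    ∃ L : ℝ, 0 ≤ L ∧ ∀ (R σ : ℝ) (n : ℕ), 1 ≤ R → |σ| ≤ A → ∀ x : Space,
      expBump R σ n x ^ 2 + ∑ a, deriv3 a (expBump R σ n) x ^ 2 ≤
        (if R ≤ ‖x‖ then L * Real.exp (σ * ‖x‖) ^ 2 else 0) := by
  have hd : ∀ a, ∃ c, ∀ x, |deriv3 a (Yuk.cut : Space → ℝ) x| ≤ c := fun a => by
    obtain ⟨c, hc⟩ := ((Yuk.cut.hasCompactSupport).fderiv_apply ℝ (unit3 a)).exists_bound_of_continuous
      (((Yuk.contDiff_cut.continuous_fderiv (by simp)).clm_apply continuous_const))
    exact ⟨c, fun x => hc x⟩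
  choose c hc using hd
  set c' := ∑ a, |c a| with hc'
  refine ⟨1 + 3 * (2 * c' + |A|) ^ 2, by positivity, fun R σ n hR hσ x => ?_⟩
  have hR0 : 0 < R := by linarith
  have hz : ¬R ≤ ‖x‖ → ∀ y, ‖y‖ < R → expBump R σ n y = 0 := fun _ y hy =>
    expBump_eq_zero hR0 (Or.inl hy.le)
  split_ifs with h
  swap
  · have h0 : expBump R σ n =ᶠ[𝓝 x] fun _ => (0 : ℝ) :=
      eventually_of_mem ((isOpen_lt continuous_norm continuous_const).mem_nhds (not_le.1 h))
        (hz h)
    simp [deriv3, h0.fderiv_eq, h0.eq_of_nhds]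
  have hx0 : x ≠ 0 := norm_pos_iff.1 (by linarith)
  set e := Real.exp (σ * ‖x‖) with he
  have he0 : 0 < e := Real.exp_pos _
  set f₁ : Space → ℝ := fun y => 1 - Yuk.cut ((1 / R) • y) with hf₁
  set f₂ : Space → ℝ := fun y => Yuk.cut ((1 / ((n : ℝ) + 1)) • y) with hf₂
  have hcd : Differentiable ℝ (Yuk.cut : Space → ℝ) := Yuk.contDiff_cut.differentiable (by simp)
  have b1 : |f₁ x| ≤ 1 := by
    rw [hf₁, abs_le]
    have h1 := Yuk.cut.nonneg' ((1 / R) • x)
    have h2 := Yuk.cut.le_one (x := (1 / R) • x)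
    constructor <;> linarith
  have b2 : |f₂ x| ≤ 1 := by
    rw [hf₂, abs_of_nonneg (Yuk.cut.nonneg' _)]
    exact Yuk.cut.le_one
  have hd₁ : DifferentiableAt ℝ f₁ x := ((hcd _).comp x (by fun_prop)).const_sub 1
  have hd₂ : DifferentiableAt ℝ f₂ x := (hcd _).comp x (by fun_prop)
  have hex : HasFDerivAt (fun y : Space => Real.exp (σ * ‖y‖))
      (e • σ • ‖x‖⁻¹ • innerSL ℝ x) x := ((hasFDerivAt_norm_space hx0).const_mul σ).exp
  have key : ∀ a, |deriv3 a (expBump R σ n) x| ≤ (2 * c' + |A|) * e := by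
    intro a
    have hca : |c a| ≤ c' :=
      Finset.single_le_sum (f := fun a => |c a|) (fun a _ => abs_nonneg _) (Finset.mem_univ a)
    have e1 : |deriv3 a f₁ x| ≤ c' := by
      have : deriv3 a f₁ x = -(deriv3 a (fun y => Yuk.cut ((1 / R) • y)) x) := by
        simp [deriv3, hf₁, fderiv_const_sub]
      rw [this, abs_neg, Yuk.deriv3_comp_smul hcd, abs_mul]
      exact (mul_le_of_le_one_left (abs_nonneg _)
        (by rw [abs_of_pos (by positivity), div_le_one hR0]; exact hR)).trans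
        (((hc a _).trans (le_abs_self _)).trans hca)
    have e2 : |deriv3 a f₂ x| ≤ c' := by
      rw [hf₂, Yuk.deriv3_comp_smul hcd, abs_mul]
      exact (mul_le_of_le_one_left (abs_nonneg _)
        (by rw [abs_of_pos (by positivity), div_le_one (by positivity)];
            linarith [(Nat.cast_nonneg n : (0 : ℝ) ≤ n)])).trans
        (((hc a _).trans (le_abs_self _)).trans hca)
    have e3 : |deriv3 a (fun y : Space => Real.exp (σ * ‖y‖)) x| ≤ |A| * e := by
      rw [deriv3, hex.fderiv]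
      simp only [FunLike.coe_smul, Pi.smul_apply, smul_eq_mul, innerSL_apply_apply]
      rw [abs_mul, abs_of_pos he0, mul_comm _ e]
      refine mul_le_mul_of_nonneg_left ?_ he0.le
      rw [abs_mul, abs_mul, abs_of_pos (inv_pos.2 (norm_pos_iff.2 hx0))]
      refine (mul_le_of_le_one_right (abs_nonneg σ) ?_).trans (hσ.trans (le_abs_self A))
      rw [inv_mul_le_one₀ (norm_pos_iff.2 hx0)]
      exact (abs_real_inner_le_norm _ _).trans (by simp [unit3])
    rw [show expBump R σ n = fun y => f₁ y * f₂ y * Real.exp (σ * ‖y‖) from rfl,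
      deriv3_mul (hd₁.fun_mul hd₂) hex.differentiableAt, deriv3_mul hd₁ hd₂]
    have t1 : |(deriv3 a f₁ x * f₂ x + f₁ x * deriv3 a f₂ x) * e| ≤ 2 * c' * e := by
      rw [abs_mul, abs_of_pos he0]
      refine mul_le_mul_of_nonneg_right ((abs_add_le _ _).trans ?_) he0.le
      rw [abs_mul, abs_mul, two_mul]
      exact add_le_add ((mul_le_of_le_one_right (abs_nonneg _) b2).trans e1)
        ((mul_le_of_le_one_left (abs_nonneg _) b1).trans e2)
    have t2 : |f₁ x * f₂ x * deriv3 a (fun y : Space => Real.exp (σ * ‖y‖)) x| ≤ |A| * e := by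
      rw [abs_mul]
      refine (mul_le_of_le_one_left (abs_nonneg _) ?_).trans e3
      rw [abs_mul]
      exact mul_le_one₀ b1 (abs_nonneg _) b2
    exact (abs_add_le _ _).trans (le_trans (add_le_add t1 t2) (le_of_eq (by ring)))
  have h0 : |expBump R σ n x| ≤ e := by
    rw [show expBump R σ n x = f₁ x * f₂ x * e from rfl, abs_mul, abs_of_pos he0, abs_mul]
    exact mul_le_of_le_one_left he0.le (mul_le_one₀ b1 (abs_nonneg _) b2)
  have hsq : ∀ a, deriv3 a (expBump R σ n) x ^ 2 ≤ (2 * c' + |A|) ^ 2 * e ^ 2 := fun a => by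
    rw [← sq_abs, ← mul_pow]; exact pow_le_pow_left₀ (abs_nonneg _) (key a) 2
  have h00 : expBump R σ n x ^ 2 ≤ e ^ 2 := by
    rw [← sq_abs]; exact pow_le_pow_left₀ (abs_nonneg _) h0 2
  rw [Fin.sum_univ_three]
  linarith [hsq 0, hsq 1, hsq 2]

variable {ε K lam : ℝ} {f : Cfg 3 → ℝ} {χ : Cfg 2 → ℝ} {Dχ : Fin 2 → Fin 3 → Cfg 2 → ℝ}
  {D : Fin 3 → Fin 3 → Cfg 3 → ℝ}

/-- The gradient of the excited slice in the ion variables. -/
def perpGrad (χ : Cfg 2 → ℝ) (f : Cfg 3 → ℝ) (D : Fin 3 → Fin 3 → Cfg 3 → ℝ)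
    (Dχ : Fin 2 → Fin 3 → Cfg 2 → ℝ) (k : Fin 2) (a : Fin 3) (p : Space × Cfg 2) : ℝ :=
  slice 0 (D ((0 : Fin 3).succAbove k) a) p.1 p.2 - amp χ f p.1 * Dχ k a p.2

lemma perpGrad_facts (hε : 0 ≤ ε) (hM : MolBound (2 * ε) K f D) (hI : IonBound ε K χ Dχ)
    (hχ1 : ∫ y, χ y ^ 2 = 1) (k : Fin 2) (a : Fin 3) :
    ∀ δ, 0 ≤ δ → Integrable (fun p => (weight ε δ p.2 * perpGrad χ f D Dχ k a p) ^ 2)
      (volume.prod volume) := by
  intro δ hδ
  have hf := hM.inH1.memLp
  have hχ := hI.inH1.memLp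
  set j := (0 : Fin 3).succAbove k
  have hDm : MemLp (D j a) 2 := hM.inH1.grad_memLp j a
  have hA : MemLp (amp χ f) 2 := by
    refine (memLp_slice_norm hf 0).mono' (memLp_amp hf hχ hχ1).2.1 ?_
    filter_upwards [ae_amp_le hf hχ hχ1] with x hx
    exact hx.1
  have hm : AEStronglyMeasurable (fun p => (weight ε δ p.2 * perpGrad χ f D Dχ k a p) ^ 2)
      (volume.prod volume) :=
    ((((continuous_weight_perp ε hδ).comp continuous_snd).aestronglyMeasurable).mul
      ((aestronglyMeasurable_insert hDm 0).sub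
        (hA.1.comp_fst.mul (hI.inH1.grad_memLp k a).1.comp_snd))).pow 2
  set g : Fin 2 → Cfg 3 → ℝ := fun i z =>
    (wexp (Pi.single ((0 : Fin 3).succAbove i) (2 * ε)) 0 z * D j a z) ^ 2 with hg
  have hG : Integrable (fun p : Space × Cfg 2 => ∑ i, g i ((0 : Fin 3).insertNth p.1 p.2))
      (volume.prod volume) := integrable_finsetSum _ fun i _ =>
    integrable_prod_ins 0 (hM.grad_mem _ j a).integrable_sq
  have h2 : Integrable (fun p : Space × Cfg 2 => amp χ f p.1 ^ 2 * (weight ε 0 p.2 * Dχ k a p.2) ^ 2)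
      (volume.prod volume) := hA.integrable_sq.mul_prod (hI.grad_mem k a).integrable_sq
  refine ((hG.const_mul 2).add (h2.const_mul 2)).mono' hm (ae_of_all _ fun p => ?_)
  rw [Real.norm_eq_abs, abs_of_nonneg (sq_nonneg _), Pi.add_apply, mul_pow]
  refine (mul_le_mul_of_nonneg_right (pow_le_pow_left₀ (weight_pos_perp ε δ _).le
    (weight_le_zero hε hδ _) 2) (sq_nonneg _)).trans ?_
  have hw : (weight ε 0 p.2 * D j a ((0 : Fin 3).insertNth p.1 p.2)) ^ 2 ≤
      ∑ i, g i ((0 : Fin 3).insertNth p.1 p.2) := by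
    rw [mul_pow]
    refine (mul_le_mul_of_nonneg_right (weight_sq_le ε p.2) (sq_nonneg _)).trans (le_of_eq ?_)
    rw [Finset.sum_mul]
    refine Finset.sum_congr rfl fun i _ => ?_
    simp only [hg, wexp_single, Fin.insertNth_apply_succAbove]
    ring
  simp only [perpGrad, slice]
  nlinarith [sq_nonneg (weight ε 0 p.2 * D j a ((0 : Fin 3).insertNth p.1 p.2) +
    weight ε 0 p.2 * (amp χ f p.1 * Dχ k a p.2))]

lemma ionKin_eq_perp (δ : ℝ) (x : Space) : ionKin ε δ χ f D Dχ x =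
    ∑ k, ∑ a, ∫ y, (weight ε δ y * perpGrad χ f D Dχ k a (x, y)) ^ 2 := rfl

/-- The exponential gain of the ion gradient in mean square. -/
theorem energy_gain (hε : 0 ≤ ε) (hM : MolBound (2 * ε) K f D) (hI : IonBound ε K χ Dχ)
    (hχ1 : ∫ y, χ y ^ 2 = 1) {K₅ R σ B L : ℝ} (hR : 1 ≤ R)
    (hL : ∀ n : ℕ, ∀ x : Space, expBump R σ n x ^ 2 + ∑ a, deriv3 a (expBump R σ n) x ^ 2 ≤
      (if R ≤ ‖x‖ then L * Real.exp (σ * ‖x‖) ^ 2 else 0))
    (hen : ∀ δ > 0, ∀ η : Space → ℝ, IsBump Set.univ η →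
      ∫ x, η x ^ 2 * ionKin ε δ χ f D Dχ x ≤
        K₅ * ∫ x, (η x ^ 2 + ∑ a, deriv3 a η x ^ 2) * (uWeight ε δ χ f x ^ 2 +
          uPerp χ f x ^ 2 + lam ^ 2 / (1 + ‖x‖ ^ 2) ^ 2 * amp χ f x ^ 2))
    {Φ : Space → ℝ} (hΦ : Integrable Φ) (hΦ0 : ∀ x, 0 ≤ Φ x) (hΦB : ∫ x, Φ x ≤ B)
    (hdom : ∀ n : ℕ, ∀ᵐ x : Space, R ≤ ‖x‖ → L * Real.exp (σ * ‖x‖) ^ 2 *
      (uWeight ε (1 / ((n : ℝ) + 1)) χ f x ^ 2 + uPerp χ f x ^ 2 +
        lam ^ 2 / (1 + ‖x‖ ^ 2) ^ 2 * amp χ f x ^ 2) ≤ Φ x) :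
    Integrable ((Ext (2 * R)).indicator fun x => Real.exp (σ * ‖x‖) ^ 2 * ionKin ε 0 χ f D Dχ x) ∧
      ∫ x, ((Ext (2 * R)).indicator fun x => Real.exp (σ * ‖x‖) ^ 2 * ionKin ε 0 χ f D Dχ x) x ≤
        |K₅| * B := by
  have hR0 : 0 < R := by linarith
  set δn : ℕ → ℝ := fun n => 1 / ((n : ℝ) + 1) with hδn
  have hδp : ∀ n, 0 < δn n := fun n => by positivity
  set T : ℕ → Space × Cfg 2 → ℝ := fun n p => expBump R σ n p.1 ^ 2 *
    ∑ k, ∑ a, (weight ε (δn n) p.2 * perpGrad χ f D Dχ k a p) ^ 2 with hT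
  have hsum : ∀ δ, 0 ≤ δ → Integrable
      (fun p => ∑ k, ∑ a, (weight ε δ p.2 * perpGrad χ f D Dχ k a p) ^ 2) (volume.prod volume) :=
    fun δ hδ => integrable_finsetSum _ fun k _ => integrable_finsetSum _ fun a _ =>
      perpGrad_facts hε hM hI hχ1 k a δ hδ
  have hTi : ∀ n, Integrable (T n) (volume.prod volume) := fun n => by
    obtain ⟨c, hc⟩ := (isBump_expBump (σ := σ) hR0 n).compact.exists_bound_of_continuous
      (isBump_expBump hR0 n).smooth.continuous
    refine (hsum _ (hδp n).le).bdd_mul (c := c ^ 2)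
      (((isBump_expBump hR0 n).smooth.continuous.comp continuous_fst).pow 2).aestronglyMeasurable
      (ae_of_all _ fun p => ?_)
    rw [Real.norm_eq_abs, abs_pow]
    exact pow_le_pow_left₀ (abs_nonneg _) (hc p.1) 2
  have hTint : ∀ n, ∫ p, T n p ∂(volume.prod volume) ≤ |K₅| * B := by
    intro n
    rw [integral_prod _ (hTi n)]
    have e : ∀ᵐ x : Space, ∫ y, T n (x, y) =
        expBump R σ n x ^ 2 * ionKin ε (δn n) χ f D Dχ x := by
      have hae : ∀ k a, ∀ᵐ x : Space, Integrable fun y =>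
          (weight ε (δn n) y * perpGrad χ f D Dχ k a (x, y)) ^ 2 := fun k a =>
        (perpGrad_facts hε hM hI hχ1 k a _ (hδp n).le).prod_right_ae
      filter_upwards [ae_all_iff.2 fun k => ae_all_iff.2 (hae k)] with x hx
      simp only [hT, ionKin_eq_perp]
      rw [integral_const_mul, integral_finsetSum _ fun k _ => integrable_finsetSum _ fun a _ => hx k a]
      simp only [integral_finsetSum _ fun a _ => hx _ a]
    rw [integral_congr_ae e]
    refine (hen _ (hδp n) _ (isBump_expBump hR0 n)).trans ?_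
    have hnn : ∀ x, 0 ≤ (expBump R σ n x ^ 2 + ∑ a, deriv3 a (expBump R σ n) x ^ 2) *
        (uWeight ε (δn n) χ f x ^ 2 + uPerp χ f x ^ 2 +
          lam ^ 2 / (1 + ‖x‖ ^ 2) ^ 2 * amp χ f x ^ 2) := fun x => by positivity
    refine (mul_le_mul_of_nonneg_right (le_abs_self K₅) (integral_nonneg hnn)).trans
      (mul_le_mul_of_nonneg_left (le_trans ?_ hΦB) (abs_nonneg K₅))
    refine integral_mono_of_nonneg (ae_of_all _ hnn) hΦ ?_
    filter_upwards [hdom n] with x hx
    refine (mul_le_mul_of_nonneg_right (hL n x) (by positivity)).trans ?_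
    split_ifs with h
    · exact hx h
    · simp [hΦ0 x]
  set G : Space × Cfg 2 → ℝ := fun p => ((1 - Yuk.cut ((1 / R) • p.1)) * Real.exp (σ * ‖p.1‖)) ^ 2 *
    ∑ k, ∑ a, (weight ε 0 p.2 * perpGrad χ f D Dχ k a p) ^ 2 with hG
  have hlim : ∀ p, Tendsto (fun n => T n p) atTop (𝓝 (G p)) := by
    intro p
    have h1 : Tendsto (fun n => weight ε (δn n) p.2) atTop (𝓝 (weight ε 0 p.2)) := by
      have hc : ContinuousAt (fun d : ℝ => weight ε d p.2) 0 := by
        unfold weight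
        fun_prop (disch := simp)
      exact hc.tendsto.comp tendsto_one_div_add_atTop_nhds_zero_nat
    have h2 : Tendsto (fun n : ℕ => (1 / ((n : ℝ) + 1)) • p.1) atTop (𝓝 0) := by
      simpa using (tendsto_one_div_add_atTop_nhds_zero_nat (𝕜 := ℝ)).smul_const p.1
    have h3 : Tendsto (fun n : ℕ => Yuk.cut ((1 / ((n : ℝ) + 1)) • p.1)) atTop (𝓝 1) := by
      have := (Yuk.contDiff_cut.continuous.tendsto (0 : Space)).comp h2
      rwa [Yuk.cut.one_of_mem_closedBall (by simp [Yuk.cut])] at this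
    have h4 : Tendsto (fun n : ℕ => expBump R σ n p.1) atTop
        (𝓝 ((1 - Yuk.cut ((1 / R) • p.1)) * Real.exp (σ * ‖p.1‖))) := by
      simpa [expBump] using (h3.const_mul (1 - Yuk.cut ((1 / R) • p.1))).mul_const
        (Real.exp (σ * ‖p.1‖))
    exact (h4.pow 2).mul (tendsto_finsetSum _ fun k _ => tendsto_finsetSum _ fun a _ =>
      (h1.mul_const _).pow 2)
  obtain ⟨hGi, hGb⟩ := integrable_of_tendsto_bound (K := fun _ => |K₅| * B) hTi
    (fun n => ae_of_all _ fun p => by positivity) (ae_of_all _ hlim) hTint tendsto_const_nhds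
  set H : Space → ℝ := fun x => ∫ y, G (x, y) with hH
  have hHeq : ∀ᵐ x : Space, (Ext (2 * R)).indicator
      (fun x => Real.exp (σ * ‖x‖) ^ 2 * ionKin ε 0 χ f D Dχ x) x =
        (Ext (2 * R)).indicator H x := by
    filter_upwards [ae_all_iff.2 fun k => ae_all_iff.2 fun a =>
      (perpGrad_facts hε hM hI hχ1 k a 0 le_rfl).prod_right_ae] with x hx
    by_cases hxR : x ∈ Ext (2 * R)
    · rw [Set.indicator_of_mem hxR, Set.indicator_of_mem hxR]
      have hc : Yuk.cut ((1 / R) • x) = 0 := Yuk.cut.zero_of_le_dist (by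
        rw [dist_zero_right, norm_smul, Real.norm_eq_abs, abs_of_pos (by positivity), Yuk.cut]
        show (2 : ℝ) ≤ 1 / R * ‖x‖
        rw [div_mul_eq_mul_div, one_mul, le_div_iff₀ hR0]
        exact le_of_lt hxR)
      simp only [hH, hG, hc, sub_zero, one_mul, ionKin_eq_perp]
      rw [integral_const_mul, integral_finsetSum _ fun k _ => integrable_finsetSum _ fun a _ => hx k a]
      simp only [integral_finsetSum _ fun a _ => hx _ a]
    · rw [Set.indicator_of_notMem hxR, Set.indicator_of_notMem hxR]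
  have hHi : Integrable H := hGi.integral_prod_left
  have hH0 : ∀ x, 0 ≤ H x := fun x => integral_nonneg fun y => by positivity
  refine ⟨(hHi.indicator (isOpen_ext _).measurableSet).congr
    (by filter_upwards [hHeq] with x hx; exact hx.symm), ?_⟩
  rw [integral_congr_ae hHeq, integral_indicator (isOpen_ext _).measurableSet]
  refine (setIntegral_le_integral hHi (ae_of_all _ hH0)).trans ?_
  rw [hH, ← integral_prod _ hGi]
  exact hGb

end Vale.Agent.P363.Inter
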