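import Vale.Agent.P363.Inter.Bar.DecayBase
import Vale.Agent.P363.Inter.Slice.States
import Vale.Agent.P363.Inter.Slice.Repel

/-!
P363, interacting side: the weighted excited slice in mean square and the limit of the weights.
-/

noncomputable section

namespace Vale.Agent.P363.Inter

open MeasureTheory Filter Set
open scoped BigOperators Topology

/-- The weighted excited part as a function of both variables. -/
def weightPerp (ε δ : ℝ) (χ : Cfg 2 → ℝ) (f : Cfg 3 → ℝ) (p : Space × Cfg 2) : ℝ :=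
  weight ε δ p.2 * perp χ f p.1 p.2

/-- The common dominating weight. -/
def weightDom (ε : ℝ) (χ : Cfg 2 → ℝ) (f : Cfg 3 → ℝ) (p : Space × Cfg 2) : ℝ :=
  2 * (weight ε 0 p.2 * f ((0 : Fin 3).insertNth p.1 p.2)) ^ 2 +
    2 * (amp χ f p.1 ^ 2 * (weight ε 0 p.2 * χ p.2) ^ 2)

lemma weight_pos_perp (ε δ : ℝ) (y : Cfg 2) : 0 < weight ε δ y := Real.exp_pos _

lemma weight_le_zero {ε δ : ℝ} (hε : 0 ≤ ε) (hδ : 0 ≤ δ) (y : Cfg 2) :
    weight ε δ y ≤ weight ε 0 y := by
  simp only [weight_eq_wexp]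
  exact wexp_le_zero (fun _ => hε) hδ y

lemma continuous_weight_perp (ε : ℝ) {δ : ℝ} (hδ : 0 ≤ δ) : Continuous (weight ε δ) := by
  rw [weight_eq_wexp]
  exact (contDiff_wexp _ hδ).continuous

lemma sq_weightPerp_le {ε δ : ℝ} (hε : 0 ≤ ε) (hδ : 0 ≤ δ) (χ : Cfg 2 → ℝ) (f : Cfg 3 → ℝ)
    (p : Space × Cfg 2) : weightPerp ε δ χ f p ^ 2 ≤ weightDom ε χ f p := by
  have h1 := weight_le_zero hε hδ p.2
  have h2 := (weight_pos_perp ε δ p.2).le
  rw [weightPerp, weightDom, mul_pow]
  refine (mul_le_mul_of_nonneg_right (pow_le_pow_left₀ h2 h1 2) (sq_nonneg _)).trans ?_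
  rw [← mul_pow, perp, slice, mul_sub, ← mul_pow]
  nlinarith [sq_nonneg (weight ε 0 p.2 * f ((0 : Fin 3).insertNth p.1 p.2) +
    weight ε 0 p.2 * (amp χ f p.1 * χ p.2))]

variable {ε K : ℝ} {f : Cfg 3 → ℝ} {χ : Cfg 2 → ℝ} {Dχ : Fin 2 → Fin 3 → Cfg 2 → ℝ}
  {D : Fin 3 → Fin 3 → Cfg 3 → ℝ}

lemma integrable_weightDom (hM : MolBound (2 * ε) K f D) (hI : IonBound ε K χ Dχ)
    (hχ1 : ∫ y, χ y ^ 2 = 1) (hf1 : ∫ z, f z ^ 2 = 1) :
    Integrable (weightDom ε χ f) (volume.prod volume) ∧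
      ∫ p, weightDom ε χ f p ∂(volume.prod volume) ≤ 6 * |K| := by
  have hf := hM.inH1.memLp
  have hχ := hI.inH1.memLp
  set g : Fin 3 → Cfg 3 → ℝ := fun i z => (wexp (Pi.single i (2 * ε)) 0 z * f z) ^ 2 with hg
  set G : Space × Cfg 2 → ℝ := fun p =>
    ∑ k : Fin 2, g ((0 : Fin 3).succAbove k) ((0 : Fin 3).insertNth p.1 p.2)
  have hi : ∀ i, Integrable (fun p : Space × Cfg 2 => g i ((0 : Fin 3).insertNth p.1 p.2))
      (volume.prod volume) := fun i => integrable_prod_ins 0 (hM.mem i).integrable_sq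
  have hG : Integrable G (volume.prod volume) := integrable_finsetSum _ fun k _ => hi _
  have hA : MemLp (amp χ f) 2 := by
    have hle := ae_amp_le hf hχ hχ1
    refine (memLp_slice_norm hf 0).mono' (memLp_amp hf hχ hχ1).2.1 ?_
    filter_upwards [hle] with x hx
    exact hx.1
  have hle : ∀ p : Space × Cfg 2,
      (weight ε 0 p.2 * f ((0 : Fin 3).insertNth p.1 p.2)) ^ 2 ≤ G p := by
    intro p
    rw [mul_pow]
    refine (mul_le_mul_of_nonneg_right (weight_sq_le ε p.2) (sq_nonneg _)).trans (le_of_eq ?_)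
    rw [Finset.sum_mul]
    refine Finset.sum_congr rfl fun k _ => ?_
    simp only [hg, wexp_single, Fin.insertNth_apply_succAbove]
    ring
  have h1 : Integrable (fun p : Space × Cfg 2 =>
      (weight ε 0 p.2 * f ((0 : Fin 3).insertNth p.1 p.2)) ^ 2) (volume.prod volume) := by
    refine hG.mono' ((((continuous_weight_perp ε le_rfl).comp continuous_snd).aestronglyMeasurable.mul
      (aestronglyMeasurable_insert hf 0)).pow 2) (ae_of_all _ fun p => ?_)
    rw [Real.norm_eq_abs, abs_of_nonneg (sq_nonneg _)]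
    exact hle p
  have h2 : Integrable (fun p : Space × Cfg 2 => amp χ f p.1 ^ 2 * (weight ε 0 p.2 * χ p.2) ^ 2)
      (volume.prod volume) := hA.integrable_sq.mul_prod hI.mem.integrable_sq
  refine ⟨(h1.const_mul 2).add (h2.const_mul 2), ?_⟩
  simp only [weightDom]
  rw [integral_add (h1.const_mul 2) (h2.const_mul 2), integral_const_mul, integral_const_mul,
    integral_prod_mul (fun x => amp χ f x ^ 2) fun y => (weight ε 0 y * χ y) ^ 2]
  have e1 : ∫ p : Space × Cfg 2, (weight ε 0 p.2 * f ((0 : Fin 3).insertNth p.1 p.2)) ^ 2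
      ∂(volume.prod volume) ≤ 2 * |K| := by
    refine (integral_mono h1 hG hle).trans ?_
    rw [integral_finsetSum _ fun k _ => hi _, Fin.sum_univ_two]
    have e : ∀ i, ∫ p : Space × Cfg 2, g i ((0 : Fin 3).insertNth p.1 p.2)
        ∂(volume.prod volume) ≤ |K| := fun i =>
      le_of_eq_of_le ((mp_ins 0).integral_comp (embedding_ins 0) (g i))
        ((hM.le i).trans (le_abs_self K))
    linarith [e ((0 : Fin 3).succAbove 0), e ((0 : Fin 3).succAbove 1)]
  have e2 : ∫ x, amp χ f x ^ 2 ≤ 1 := by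
    rw [← hf1, ← integral_sq_slice hf 0]
    refine integral_mono_ae hA.integrable_sq (integrable_sq_slice hf 0) ?_
    filter_upwards [ae_amp_le hf hχ hχ1] with x hx
    rw [← sq_abs]
    exact pow_le_pow_left₀ (abs_nonneg _) hx.1 2
  have e3 : (∫ x, amp χ f x ^ 2) * ∫ y, (weight ε 0 y * χ y) ^ 2 ≤ 1 * |K| :=
    mul_le_mul e2 (hI.le.trans (le_abs_self K)) (integral_nonneg fun y => sq_nonneg _) zero_le_one
  linarith

/-- The weighted norms: measurable, uniformly square integrable, continuous in the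
regularisation. -/
theorem weight_facts (hε : 0 ≤ ε) (hM : MolBound (2 * ε) K f D) (hI : IonBound ε K χ Dχ)
    (hχ1 : ∫ y, χ y ^ 2 = 1) (hf1 : ∫ z, f z ^ 2 = 1) :
    (∀ δ, 0 ≤ δ → MemLp (uWeight ε δ χ f) 2 ∧ ∫ x, uWeight ε δ χ f x ^ 2 ≤ 6 * |K|) ∧
      ∀ᵐ x : Space, (∀ δ, 0 ≤ δ → MemLp (fun y => weight ε δ y * perp χ f x y) 2) ∧
        Tendsto (fun n : ℕ => uWeight ε (1 / ((n : ℝ) + 1)) χ f x) atTop
          (𝓝 (uWeight ε 0 χ f x)) := by
  have hf := hM.inH1.memLp
  have hχ := hI.inH1.memLp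
  obtain ⟨hdi, hdb⟩ := integrable_weightDom hM hI hχ1 hf1
  have hperpm : AEStronglyMeasurable (fun p : Space × Cfg 2 => perp χ f p.1 p.2)
      (volume.prod volume) :=
    (aestronglyMeasurable_insert hf 0).sub
      ((memLp_amp hf hχ hχ1).2.1.comp_fst.mul hχ.1.comp_snd)
  have hm : ∀ δ, 0 ≤ δ → AEStronglyMeasurable (weightPerp ε δ χ f) (volume.prod volume) :=
    fun δ hδ => ((continuous_weight_perp ε hδ).comp continuous_snd).aestronglyMeasurable.mul hperpm
  have hi : ∀ δ, 0 ≤ δ → Integrable (fun p => weightPerp ε δ χ f p ^ 2) (volume.prod volume) :=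
    fun δ hδ => hdi.mono' ((hm δ hδ).pow 2) (ae_of_all _ fun p => by
      rw [Real.norm_eq_abs, abs_of_nonneg (sq_nonneg _)]
      exact sq_weightPerp_le hε hδ χ f p)
  have heq : ∀ δ x, uWeight ε δ χ f x ^ 2 = ∫ y, weightPerp ε δ χ f (x, y) ^ 2 := fun δ x => by
    rw [uWeight, sq_nrmN]; rfl
  constructor
  · intro δ hδ
    have h2 : Integrable fun x => uWeight ε δ χ f x ^ 2 := by
      simp only [heq]; exact (hi δ hδ).integral_prod_left
    refine ⟨(memLp_two_iff_integrable_sq ?_).2 h2, ?_⟩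
    · unfold uWeight
      simp only [nrmN_eq]
      exact Real.continuous_sqrt.comp_aestronglyMeasurable
        (hi δ hδ).integral_prod_left.aestronglyMeasurable
    · simp only [heq]
      rw [← integral_prod _ (hi δ hδ)]
      exact (integral_mono (hi δ hδ) hdi (sq_weightPerp_le hε hδ χ f)).trans hdb
  · filter_upwards [hdi.prod_right_ae, hperpm.prodMk_left] with x hx hxm
    have hms : ∀ δ, 0 ≤ δ → AEStronglyMeasurable (fun y => weight ε δ y * perp χ f x y) volume :=
      fun δ hδ => (continuous_weight_perp ε hδ).aestronglyMeasurable.mul hxm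
    refine ⟨fun δ hδ => (memLp_two_iff_integrable_sq (hms δ hδ)).2
      (hx.mono' ((hms δ hδ).pow 2) (ae_of_all _ fun y => by
        rw [Real.norm_eq_abs, abs_of_nonneg (sq_nonneg _)]
        exact sq_weightPerp_le hε hδ χ f (x, y))), ?_⟩
    simp only [uWeight, nrmN_eq]
    refine (Real.continuous_sqrt.tendsto _).comp ?_
    refine tendsto_integral_of_dominated_convergence (fun y => weightDom ε χ f (x, y))
      (fun n => (hms _ (by positivity)).pow 2) hx (fun n => ae_of_all _ fun y => ?_)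
      (ae_of_all _ fun y => ?_)
    · rw [Real.norm_eq_abs, abs_of_nonneg (sq_nonneg _)]
      exact sq_weightPerp_le hε (by positivity) χ f (x, y)
    · refine (Tendsto.mul ?_ tendsto_const_nhds).pow 2
      have hc : ContinuousAt (fun d : ℝ => weight ε d y) 0 := by
        unfold weight
        fun_prop (disch := simp)
      exact hc.tendsto.comp tendsto_one_div_add_atTop_nhds_zero_nat

end Vale.Agent.P363.Inter
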