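import Vale.Agent.P363.Inter.Bar.PerpBoundStep
import Vale.Agent.P363.Inter.Bar.PerpBoundWeight
import Vale.Agent.P363.Inter.Bar.PerpBoundEnergy
import Vale.Agent.P363.Inter.Bar.Decay

/-!
P363, interacting side: the first gain of the excited slice, with and without weight, and the gain
of the far source.
-/

noncomputable section

namespace Vale.Agent.P363.Inter

open MeasureTheory Metric Filter
open scoped BigOperators Topology

/-- The constants common to all states. -/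
structure FarCtx (l gp g₀ Q A N a₀ δ Ka : ℝ) : Prop where
  g₀_pos : 0 < g₀
  g₀_gp : 8 * g₀ ≤ gp
  g₀_δ : 4 * g₀ ≤ a₀ * δ
  one_le : 1 ≤ Q
  l_le : 2 * |l| ≤ Q
  small : ∀ x ∈ Ext Q, |attract l x| ≤ g₀
  a₀_pos : 0 < a₀
  δ_pos : 0 < δ
  N_nonneg : 0 ≤ N
  A_nonneg : 0 ≤ A
  Ka_nonneg : 0 ≤ Ka

/-- One state: `a` is the rate and `β` the exponent of `G / r²`. -/
structure StateCtx (l gp g₀ Q A N a₀ δ Ka lam E3 E2 a β : ℝ) (f : Cfg 3 → ℝ) (χ : Cfg 2 → ℝ) :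
    Prop where
  lam_nonneg : 0 ≤ lam
  lam_le : lam ≤ 1
  f_mem : MemLp f 2
  f_one : ∫ z, f z ^ 2 = 1
  χ_mem : MemLp χ 2
  χ_one : ∫ y, χ y ^ 2 = 1
  a_ge : a₀ ≤ a
  a_le : a + δ ≤ A
  a_sq : a ^ 2 / 2 = E2 - E3
  a_gap : (a + δ) ^ 2 / 2 ≤ E2 - E3 + gp / 4
  beta_le : ∀ s ∈ Set.Icc (-2 : ℝ) 4, |β + s| ≤ N
  amp_le : ∀ᵐ x : Space, Q < ‖x‖ → |amp χ f x| ≤ Ka * (|height x| * powExp (β + 2) a ‖x‖)

variable {l gp g₀ Q A N a₀ δ Ka lam E3 E2 a β : ℝ} {f : Cfg 3 → ℝ} {χ : Cfg 2 → ℝ}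

lemma StateCtx.beta0 (h : StateCtx l gp g₀ Q A N a₀ δ Ka lam E3 E2 a β f χ) : |β| ≤ N := by
  simpa using h.beta_le 0 (by norm_num)

lemma margins (F : FarCtx l gp g₀ Q A N a₀ δ Ka)
    (h : StateCtx l gp g₀ Q A N a₀ δ Ka lam E3 E2 a β f χ) {κ : ℝ} (hκ0 : 0 ≤ κ)
    (hκ : κ ≤ a + δ / 2) {c : ℝ} (hc : gp / 4 ≤ c) (hc' : c ≤ gp) {x : Space} (hx : x ∈ Ext Q) :
    |E2 + c - E3 - attract l x| ≤ A ^ 2 + gp + g₀ ∧
      a ^ 2 / 2 + g₀ ≤ E2 + c - E3 - attract l x ∧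
      κ ^ 2 / 2 + g₀ ≤ E2 + c - E3 - attract l x := by
  obtain ⟨e1, e2⟩ := abs_le.1 (F.small x hx)
  have := F.g₀_pos
  have h1 := F.g₀_gp
  have ha : 0 ≤ a := F.a₀_pos.le.trans h.a_ge
  have h2 : a ^ 2 ≤ A ^ 2 := pow_le_pow_left₀ ha (by linarith [h.a_le, F.δ_pos]) 2
  have h3 : κ ^ 2 ≤ (a + δ / 2) ^ 2 := pow_le_pow_left₀ hκ0 hκ 2
  have h4 : a₀ * δ ≤ a * δ := mul_le_mul_of_nonneg_right h.a_ge F.δ_pos.le
  have h5 := F.g₀_δ
  have h6 := h.a_gap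
  have h7 := h.a_sq
  refine ⟨abs_le.2 ⟨?_, ?_⟩, ?_, ?_⟩ <;>
    nlinarith [sq_nonneg δ, sq_nonneg a, sq_nonneg A]

lemma absorb_gap {δ : ℝ} (hN : 0 ≤ N) (hδ : 0 < δ) :
    ∃ C : ℝ, 0 ≤ C ∧ ∀ β a κ : ℝ, |β| ≤ N → a + δ ≤ κ → ∀ (x : Space) (K : ℝ), 0 ≤ K →
      1 ≤ ‖x‖ → K * (powExp β a ‖x‖ * (|height x| + 1) + powExp 0 κ ‖x‖) ≤
        K * (1 + C) * (powExp β a ‖x‖ * (|height x| + 1)) := by
  obtain ⟨C, hC, h⟩ := powExp_le_of_gap hN hδ
  refine ⟨C, hC, fun β a κ hβ hκ x K hK hx => ?_⟩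
  rw [mul_assoc]
  refine mul_le_mul_of_nonneg_left ?_ hK
  have h1 := h β 0 a κ ‖x‖ hβ (by simpa using hN) hκ hx
  have h2 : C * powExp β a ‖x‖ ≤ C * (powExp β a ‖x‖ * (|height x| + 1)) :=
    mul_le_mul_of_nonneg_left (le_mul_of_one_le_right (powExp_pos _ _ (by linarith)).le
      (le_add_of_nonneg_left (abs_nonneg _))) hC
  linarith

/-- The source of the amplitude below the first profile. -/
lemma src_amp (h : StateCtx l gp g₀ Q A N a₀ δ Ka lam E3 E2 a β f χ) (hKa : 0 ≤ Ka) (hQ : 1 ≤ Q) :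
    ∀ᵐ x : Space, x ∈ Ext Q → lam / (1 + ‖x‖ ^ 2) * |amp χ f x| ≤
      Ka * (powExp β a ‖x‖ * (|height x| + 1)) := by
  filter_upwards [h.amp_le] with x hx hxQ
  have hr : 0 < ‖x‖ := lt_trans (by linarith) (show Q < ‖x‖ from hxQ)
  have hP := (powExp_pos β a hr).le
  calc lam / (1 + ‖x‖ ^ 2) * |amp χ f x| ≤ 1 / ‖x‖ ^ 2 * |amp χ f x| := by
        refine mul_le_mul_of_nonneg_right ?_ (abs_nonneg _)
        exact div_le_div₀ zero_le_one h.lam_le (by positivity) (le_add_of_nonneg_left zero_le_one)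
    _ ≤ 1 / ‖x‖ ^ 2 * (Ka * (|height x| * powExp (β + 2) a ‖x‖)) :=
        mul_le_mul_of_nonneg_left (hx hxQ) (by positivity)
    _ = Ka * (powExp β a ‖x‖ * |height x|) := by
        rw [powExp_eq_mul (β + 2) β a hr, show β + 2 - β = ((2 : ℕ) : ℝ) by push_cast; ring,
          Real.rpow_natCast]
        field_simp
    _ ≤ _ := mul_le_mul_of_nonneg_left (mul_le_mul_of_nonneg_left (le_add_of_nonneg_right
        zero_le_one) hP) hKa

/-- The excited slice without weight. -/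
theorem uPerp_gain (F : FarCtx l gp g₀ Q A N a₀ δ Ka) (K₃ : ℝ) :
    ∃ R K : ℝ, 4 ≤ R ∧ Q ≤ R ∧ 0 ≤ K ∧ ∀ lam E3 E2 a β : ℝ, ∀ (f : Cfg 3 → ℝ) (χ : Cfg 2 → ℝ),
      StateCtx l gp g₀ Q A N a₀ δ Ka lam E3 E2 a β f χ →
      WeakSubPoisson Set.univ (uPerp χ f) (fun x => 2 * ((E2 + gp / 2 - E3 - attract l x) *
        uPerp χ f x - perpSrc K₃ lam χ f x)) →
      ∀ᵐ x : Space, R < ‖x‖ → uPerp χ f x ≤ K * (powExp β a ‖x‖ * (|height x| + 1)) := by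
  have hgp : 0 < gp := by linarith [F.g₀_pos, F.g₀_gp]
  obtain ⟨K₀, R, K, -, hR, hRQ, hK, hext⟩ := gap_ext_bound N A (A ^ 2 + gp + g₀)
    (by have := F.g₀_pos; positivity) F.g₀_pos Q (|K₃| * Ka) (1 + |(|K₃|)|)
  obtain ⟨C, hC, habs⟩ := absorb_gap F.N_nonneg (half_pos F.δ_pos)
  refine ⟨R, K * (1 + C), hR, by linarith, by positivity,
    fun lam E3 E2 a β f χ h hp => ?_⟩
  have ha : 0 ≤ a := F.a₀_pos.le.trans h.a_ge
  obtain ⟨hu2, hS2, hT, -⟩ := perp_memLp h.f_mem h.f_one h.χ_mem h.χ_one (K₃ := K₃) (K := |K₃|)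
    h.lam_nonneg h.lam_le le_rfl
  have hκA : a + δ / 2 ≤ A := by linarith [h.a_le, F.δ_pos]
  have hm := fun x (hx : x ∈ Ext Q) => margins F h (by linarith [F.δ_pos]) le_rfl
    (c := gp / 2) (by linarith) (by linarith) hx
  have hu := hext a β (a + δ / 2) h.beta0 ha (by linarith [F.δ_pos]) (by linarith [F.δ_pos]) hκA
    (uPerp χ f) _ (perpSrc K₃ lam χ f) (hp.mono (Set.subset_univ _))
    (continuousOn_const.sub (continuousOn_attract l (by linarith [F.l_le, abs_nonneg l])))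
    (fun x hx => (hm x hx).1) (fun x hx => (hm x hx).2) (fun x => Real.sqrt_nonneg _) hu2 hS2 hT ?_
  · filter_upwards [hu] with x hx hxR
    exact (hx hxR).trans (habs β a (a + δ / 2) h.beta0 le_rfl x K hK (by linarith))
  · filter_upwards [src_amp h F.Ka_nonneg F.one_le] with x hx hxQ
    rw [perpSrc, mul_div_assoc, mul_assoc K₃, mul_assoc |K₃|]
    exact mul_le_mul (le_abs_self _) (hx hxQ)
      (mul_nonneg (div_nonneg h.lam_nonneg (by positivity)) (abs_nonneg _)) (abs_nonneg _)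

/-- The excited slice with weight, uniformly in the regularisation and without it. -/
theorem uWeight_gain (F : FarCtx l gp g₀ Q A N a₀ δ Ka) (ε K₆ Km Kp R₂ : ℝ) (hε : 0 ≤ ε)
    (hR₂ : Q ≤ R₂) :
    ∃ R K : ℝ, 4 ≤ R ∧ R₂ ≤ R ∧ 0 ≤ K ∧ ∀ lam E3 E2 a β : ℝ, ∀ (f : Cfg 3 → ℝ) (χ : Cfg 2 → ℝ)
      (D : Fin 3 → Fin 3 → Cfg 3 → ℝ) (Dχ : Fin 2 → Fin 3 → Cfg 2 → ℝ),
      StateCtx l gp g₀ Q A N a₀ δ Ka lam E3 E2 a β f χ →
      MolBound (2 * ε) Km f D → IonBound ε Km χ Dχ →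
      (∀ᵐ x : Space, R₂ < ‖x‖ → uPerp χ f x ≤ Kp * (powExp β a ‖x‖ * (|height x| + 1))) →
      (∀ d > 0, WeakSubPoisson Set.univ (uWeight ε d χ f) fun x =>
        2 * ((E2 + gp / 4 - E3 - attract l x) * uWeight ε d χ f x -
          K₆ * (uPerp χ f x + lam / (1 + ‖x‖ ^ 2) * |amp χ f x|))) →
      ∀ᵐ x : Space, R < ‖x‖ → uWeight ε 0 χ f x ≤ K * (powExp β a ‖x‖ * (|height x| + 1)) ∧
        ∀ n : ℕ, uWeight ε (1 / ((n : ℝ) + 1)) χ f x ≤
          K * (powExp β a ‖x‖ * (|height x| + 1)) := by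
  have hgp : 0 < gp := by linarith [F.g₀_pos, F.g₀_gp]
  obtain ⟨K₀, R, K, -, hR, hRQ, hK, hext⟩ := gap_ext_bound N A (A ^ 2 + gp + g₀)
    (by have := F.g₀_pos; positivity) F.g₀_pos R₂ (|K₆| * (Kp + Ka))
    (Real.sqrt (6 * |Km|) + 4 * |K₆|)
  obtain ⟨C, hC, habs⟩ := absorb_gap F.N_nonneg (half_pos F.δ_pos)
  refine ⟨R, K * (1 + C), hR, by linarith, by positivity,
    fun lam E3 E2 a β f χ D Dχ h hM hI hperp hw => ?_⟩
  have ha : 0 ≤ a := F.a₀_pos.le.trans h.a_ge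
  obtain ⟨hWf, hWl⟩ := weight_facts hε hM hI h.χ_one h.f_one
  obtain ⟨hu2, hp2, hT, -⟩ := perp_memLp h.f_mem h.f_one h.χ_mem h.χ_one (K₃ := 1) (K := 1)
    h.lam_nonneg h.lam_le (le_of_eq abs_one)
  set S : Space → ℝ := fun x => K₆ * (uPerp χ f x + perpSrc 1 lam χ f x) with hS
  have hS2 : MemLp S 2 := (hu2.add hp2).const_mul K₆
  have hST : Real.sqrt (∫ x, S x ^ 2) ≤ 4 * |K₆| := by
    rw [abs_one] at hT
    have b1 : Real.sqrt (∫ x, uPerp χ f x ^ 2) ≤ 2 := by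
      linarith [Real.sqrt_nonneg (∫ x, perpSrc 1 lam χ f x ^ 2)]
    have b2 : Real.sqrt (∫ x, perpSrc 1 lam χ f x ^ 2) ≤ 2 := by
      linarith [Real.sqrt_nonneg (∫ x, uPerp χ f x ^ 2)]
    rw [Real.sqrt_le_left zero_le_two] at b1 b2
    rw [Real.sqrt_le_left (by positivity)]
    calc ∫ x, S x ^ 2 ≤ ∫ x, (2 * K₆ ^ 2 * uPerp χ f x ^ 2 +
          2 * K₆ ^ 2 * perpSrc 1 lam χ f x ^ 2) := by
          refine integral_mono hS2.integrable_sq
            ((hu2.integrable_sq.const_mul _).add (hp2.integrable_sq.const_mul _)) fun x => ?_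
          simp only [hS]
          nlinarith [mul_nonneg (sq_nonneg K₆) (sq_nonneg (uPerp χ f x - perpSrc 1 lam χ f x))]
      _ ≤ (4 * |K₆|) ^ 2 := by
          rw [integral_add (hu2.integrable_sq.const_mul _) (hp2.integrable_sq.const_mul _),
            integral_const_mul, integral_const_mul, mul_pow, sq_abs]
          nlinarith [mul_le_mul_of_nonneg_left b1 (sq_nonneg K₆),
            mul_le_mul_of_nonneg_left b2 (sq_nonneg K₆)]
  have hκA : a + δ / 2 ≤ A := by linarith [h.a_le, F.δ_pos]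
  have hm := fun x (hx : x ∈ Ext R₂) => margins F h (by linarith [F.δ_pos]) le_rfl
    (c := gp / 4) le_rfl (by linarith) (ext_mono hR₂ hx)
  have hSb : ∀ᵐ x : Space, x ∈ Ext R₂ →
      S x ≤ |K₆| * (Kp + Ka) * (powExp β a ‖x‖ * (|height x| + 1)) := by
    filter_upwards [src_amp h F.Ka_nonneg F.one_le, hperp] with x hx hxp hxR
    have hs : perpSrc 1 lam χ f x = lam / (1 + ‖x‖ ^ 2) * |amp χ f x| := by
      rw [perpSrc, one_mul]
    simp only [hS, hs]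
    rw [mul_assoc |K₆|, add_mul Kp Ka]
    exact mul_le_mul (le_abs_self _) (add_le_add (hxp hxR) (hx (ext_mono hR₂ hxR)))
      (add_nonneg (Real.sqrt_nonneg _)
        (mul_nonneg (div_nonneg h.lam_nonneg (by positivity)) (abs_nonneg _))) (abs_nonneg _)
  have hn : ∀ n : ℕ, ∀ᵐ x : Space, R < ‖x‖ → uWeight ε (1 / ((n : ℝ) + 1)) χ f x ≤
      K * (1 + C) * (powExp β a ‖x‖ * (|height x| + 1)) := by
    intro n
    have hd : 0 < 1 / ((n : ℝ) + 1) := by positivity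
    obtain ⟨hwm, hwi⟩ := hWf _ hd.le
    have hu := hext a β (a + δ / 2) h.beta0 ha (by linarith [F.δ_pos]) (by linarith [F.δ_pos]) hκA
      (uWeight ε (1 / ((n : ℝ) + 1)) χ f) (fun x => E2 + gp / 4 - E3 - attract l x) S
      (by simpa only [hS, perpSrc, one_mul] using (hw _ hd).mono (Set.subset_univ (Ext R₂)))
      (continuousOn_const.sub (continuousOn_attract l
        (by linarith [F.l_le, abs_nonneg l])))
      (fun x hx => (hm x hx).1) (fun x hx => (hm x hx).2) (fun x => Real.sqrt_nonneg _) hwm hS2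
      (add_le_add (Real.sqrt_le_sqrt hwi) hST) hSb
    filter_upwards [hu] with x hx hxR
    exact (hx hxR).trans (habs β a (a + δ / 2) h.beta0 le_rfl x K hK (by linarith))
  filter_upwards [ae_all_iff.2 hn, hWl] with x hx hl hxR
  exact ⟨le_of_tendsto hl.2 (Eventually.of_forall fun n => hx n hxR), fun n => hx n hxR⟩

/-- The far source, outside a larger ball. -/
theorem far_gain (F : FarCtx l gp g₀ Q A N a₀ δ Ka) (ε Km K₅ Kp Kw R₃ : ℝ) (hε : 0 < ε)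
    (hεδ : ε ≤ δ) (hεa : ε ≤ a₀) (hR₃ : Q ≤ R₃) :
    ∃ T : ℝ, ∀ lam E3 E2 a β : ℝ, ∀ (f : Cfg 3 → ℝ) (χ : Cfg 2 → ℝ)
      (D : Fin 3 → Fin 3 → Cfg 3 → ℝ) (Dχ : Fin 2 → Fin 3 → Cfg 2 → ℝ),
      StateCtx l gp g₀ Q A N a₀ δ Ka lam E3 E2 a β f χ →
      MolBound (2 * ε) Km f D → IonBound ε Km χ Dχ →
      (∀ d > 0, ∀ η : Space → ℝ, IsBump Set.univ η →
        ∫ x, η x ^ 2 * ionKin ε d χ f D Dχ x ≤
          K₅ * ∫ x, (η x ^ 2 + ∑ i, deriv3 i η x ^ 2) * (uWeight ε d χ f x ^ 2 +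
            uPerp χ f x ^ 2 + lam ^ 2 / (1 + ‖x‖ ^ 2) ^ 2 * amp χ f x ^ 2)) →
      (∀ᵐ x : Space, R₃ < ‖x‖ → uPerp χ f x ≤ Kp * (powExp β a ‖x‖ * (|height x| + 1))) →
      (∀ᵐ x : Space, R₃ < ‖x‖ → uWeight ε 0 χ f x ≤ Kw * (powExp β a ‖x‖ * (|height x| + 1)) ∧
        ∀ n : ℕ, uWeight ε (1 / ((n : ℝ) + 1)) χ f x ≤
          Kw * (powExp β a ‖x‖ * (|height x| + 1))) →
      MemLp (fun x => Real.exp ((a + ε / 4) * ‖x‖) *
          (Ext (2 * (R₃ + 1))).indicator (farSource ε χ f D Dχ) x) 2 ∧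
        ∫ x, (Real.exp ((a + ε / 4) * ‖x‖) *
          (Ext (2 * (R₃ + 1))).indicator (farSource ε χ f D Dχ) x) ^ 2 ≤ T := by
  obtain ⟨L, hL0, hL⟩ := expBump_bound A
  obtain ⟨Cg, hCg, hgap⟩ := powExp_le_of_gap F.N_nonneg (show 0 < ε / 8 by linarith)
  set Φ₀ : Space → ℝ := fun x =>
    (Kw ^ 2 + Kp ^ 2 + Ka ^ 2) * (4 * Cg ^ 2) * Real.exp (-(ε / 4 * ‖x‖)) with hΦ₀
  have hΦi : Integrable Φ₀ := by
    simpa [hΦ₀] using (Yuk.integrable_rpow_exp (s := 0) (c := ε / 4) (by norm_num)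
      (by linarith)).const_mul ((Kw ^ 2 + Kp ^ 2 + Ka ^ 2) * (4 * Cg ^ 2))
  have hΦ0 : ∀ x, 0 ≤ Φ₀ x := fun x => by positivity
  refine ⟨2 * ((∫ x, Φ₀ x) + |K₅| * (L * ∫ x, Φ₀ x)),
    fun lam E3 E2 a β f χ D Dχ h hM hI hen hperp hwt => ?_⟩
  have hR1 : 1 ≤ R₃ + 1 := by linarith [F.one_le]
  have ha : a₀ ≤ a := h.a_ge
  set σ := a - ε / 4 with hσ
  have hσA : |σ| ≤ A := abs_le.2
    ⟨by linarith [F.A_nonneg, F.a₀_pos], by linarith [h.a_le, F.δ_pos]⟩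
  have hexp : ∀ x : Space, R₃ < ‖x‖ → Real.exp (σ * ‖x‖) ^ 2 *
      (powExp β a ‖x‖ * (|height x| + 1)) ^ 2 ≤ 4 * Cg ^ 2 * Real.exp (-(ε / 4 * ‖x‖)) := by
    intro x hx
    have hr : 1 ≤ ‖x‖ := by linarith [F.one_le]
    have hz : |height x| ≤ ‖x‖ := PiLp.norm_apply_le x 2
    have h0 := (powExp_pos β a (show 0 < ‖x‖ by linarith)).le
    have h1 := hgap 0 (β + 1) (a - ε / 8) a ‖x‖ (by simpa using F.N_nonneg)
      (h.beta_le 1 (by norm_num)) (by linarith) hr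
    rw [powExp_eq_mul (β + 1) β a (by linarith), show β + 1 - β = 1 by ring, Real.rpow_one,
      powExp_zero] at h1
    have h2 : powExp β a ‖x‖ * (|height x| + 1) ≤
        2 * (Cg * Real.exp (-((a - ε / 8) * ‖x‖))) :=
      calc powExp β a ‖x‖ * (|height x| + 1) ≤ powExp β a ‖x‖ * (2 * ‖x‖) :=
            mul_le_mul_of_nonneg_left (by linarith) h0
        _ = 2 * (‖x‖ * powExp β a ‖x‖) := by ring
        _ ≤ _ := mul_le_mul_of_nonneg_left h1 zero_le_two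
    refine (mul_le_mul_of_nonneg_left (pow_le_pow_left₀ (by positivity) h2 2) (sq_nonneg _)).trans
      (le_of_eq ?_)
    simp only [mul_pow, ← Real.exp_nat_mul]
    rw [show (-(ε / 4 * ‖x‖)) = (2 : ℕ) * (σ * ‖x‖) + (2 : ℕ) * -((a - ε / 8) * ‖x‖) by
      rw [hσ]; push_cast; ring, Real.exp_add]
    ring
  have hdom : ∀ n : ℕ, ∀ᵐ x : Space, R₃ + 1 ≤ ‖x‖ → L * Real.exp (σ * ‖x‖) ^ 2 *
      (uWeight ε (1 / ((n : ℝ) + 1)) χ f x ^ 2 + uPerp χ f x ^ 2 +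
        lam ^ 2 / (1 + ‖x‖ ^ 2) ^ 2 * amp χ f x ^ 2) ≤ L * Φ₀ x := by
    intro n
    filter_upwards [hperp, hwt, src_amp h F.Ka_nonneg F.one_le] with x hp hw hA hxR
    have hxR' : R₃ < ‖x‖ := by linarith
    have b1 := pow_le_pow_left₀ (Real.sqrt_nonneg _) ((hw hxR').2 n) 2
    have b2 := pow_le_pow_left₀ (Real.sqrt_nonneg _) (hp hxR') 2
    have b3 := pow_le_pow_left₀ (mul_nonneg (div_nonneg h.lam_nonneg (by positivity))
      (abs_nonneg _)) (hA (lt_of_le_of_lt hR₃ hxR')) 2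
    rw [mul_pow, div_pow, sq_abs] at b3
    rw [mul_pow] at b1 b2 b3
    have b := mul_le_mul_of_nonneg_left (add_le_add (add_le_add b1 b2) b3)
      (sq_nonneg (Real.exp (σ * ‖x‖)))
    have b4 := mul_le_mul_of_nonneg_left (hexp x hxR')
      (show 0 ≤ Kw ^ 2 + Kp ^ 2 + Ka ^ 2 by positivity)
    rw [mul_assoc]
    refine mul_le_mul_of_nonneg_left (le_trans b ?_) hL0
    simp only [hΦ₀]
    linarith
  obtain ⟨hEi, hEb⟩ := energy_gain hε.le hM hI h.χ_one hR1 (fun n => hL _ σ n hR1 hσA) hen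
    (hΦi.const_mul L) (fun x => mul_nonneg hL0 (hΦ0 x)) (le_of_eq (integral_const_mul _ _)) hdom
  set E := (Ext (2 * (R₃ + 1))).indicator fun x =>
    Real.exp (σ * ‖x‖) ^ 2 * ionKin ε 0 χ f D Dχ x with hE
  set W := (Ext (2 * (R₃ + 1))).indicator fun x => Real.exp (σ * ‖x‖) * uWeight ε 0 χ f x with hW
  have hE0 : ∀ x, 0 ≤ E x := fun x => Set.indicator_nonneg (fun y _ => mul_nonneg (sq_nonneg _)
    (Finset.sum_nonneg fun k _ => Finset.sum_nonneg fun i _ =>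
      integral_nonneg fun z => sq_nonneg _)) x
  have heq : ∀ x, Real.exp ((a + ε / 4) * ‖x‖) *
      (Ext (2 * (R₃ + 1))).indicator (farSource ε χ f D Dχ) x = W x + Real.sqrt (E x) := by
    intro x
    by_cases hx : x ∈ Ext (2 * (R₃ + 1))
    · simp only [hW, hE, Set.indicator_of_mem hx, farSource]
      rw [Real.sqrt_mul (sq_nonneg _), Real.sqrt_sq (Real.exp_pos _).le, ← mul_assoc,
        ← Real.exp_add, ← mul_add, show (a + ε / 4) * ‖x‖ + -(ε * ‖x‖ / 2) = σ * ‖x‖ by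
          rw [hσ]; ring]
    · simp [hW, hE, Set.indicator_of_notMem hx]
  simp only [heq]
  have hWb : ∀ᵐ x : Space, W x ^ 2 ≤ Φ₀ x := by
    filter_upwards [hwt] with x hw
    by_cases hx : x ∈ Ext (2 * (R₃ + 1))
    · have hxR : R₃ < ‖x‖ := lt_of_le_of_lt (by linarith [F.one_le]) (show _ < ‖x‖ from hx)
      simp only [hW, Set.indicator_of_mem hx, mul_pow]
      have b1 : uWeight ε 0 χ f x ^ 2 ≤ (Kw * (powExp β a ‖x‖ * (|height x| + 1))) ^ 2 :=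
        pow_le_pow_left₀ (Real.sqrt_nonneg _) (hw hxR).1 2
      rw [mul_pow] at b1
      have b2 := mul_le_mul_of_nonneg_left (hexp x hxR) (sq_nonneg Kw)
      have b3 := mul_le_mul_of_nonneg_left b1 (sq_nonneg (Real.exp (σ * ‖x‖)))
      have b4 : 0 ≤ (Kp ^ 2 + Ka ^ 2) * (4 * Cg ^ 2 * Real.exp (-(ε / 4 * ‖x‖))) := by positivity
      simp only [hΦ₀]
      linarith
    · simp only [hW, Set.indicator_of_notMem hx]
      linarith [hΦ0 x]
  have hWm : AEStronglyMeasurable W volume :=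
    ((Measurable.aestronglyMeasurable (μ := volume)
      (show Measurable fun x : Space => Real.exp (σ * ‖x‖) by fun_prop)).mul
      ((weight_facts hε.le hM hI h.χ_one h.f_one).1 0 le_rfl).1.1).indicator
        (isOpen_ext _).measurableSet
  have hm : AEStronglyMeasurable (fun x => W x + Real.sqrt (E x)) volume :=
    hWm.add (Real.continuous_sqrt.comp_aestronglyMeasurable hEi.1)
  have hsq : ∀ᵐ x, (W x + Real.sqrt (E x)) ^ 2 ≤ 2 * Φ₀ x + 2 * E x := by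
    filter_upwards [hWb] with x hx
    nlinarith [sq_nonneg (W x - Real.sqrt (E x)), Real.sq_sqrt (hE0 x)]
  have hi : Integrable fun x => 2 * Φ₀ x + 2 * E x := (hΦi.const_mul 2).add (hEi.const_mul 2)
  have hsi : Integrable fun x => (W x + Real.sqrt (E x)) ^ 2 := by
    refine hi.mono' (hm.pow 2) ?_
    filter_upwards [hsq] with x hx
    rwa [Real.norm_eq_abs, abs_of_nonneg (sq_nonneg _)]
  refine ⟨(memLp_two_iff_integrable_sq hm).2 hsi, (integral_mono_ae hsi hi hsq).trans ?_⟩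
  rw [integral_add (hΦi.const_mul 2) (hEi.const_mul 2), integral_const_mul (2 : ℝ) Φ₀,
    integral_const_mul (2 : ℝ) E]
  linarith

end Vale.Agent.P363.Inter
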