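import Vale.Agent.P363.Inter.Bar.PerpBoundStep
import Vale.Agent.P363.Inter.Bar.PerpBoundWeight

/-!
P363, interacting side: the two parities of the excited slice below their barriers.
-/

noncomputable section

namespace Vale.Agent.P363.Inter

open MeasureTheory Metric Filter
open scoped BigOperators Topology

/-- What the parity comparison uses about one state: `β` is the exponent of `G / r²`, `T` bounds
the gain of the far source. -/
structure ParHyp (l lam E3 E2 gp ε K R₀ β a κ K₁ T : ℝ) (f : Cfg 3 → ℝ) (χ : Cfg 2 → ℝ)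
    (D : Fin 3 → Fin 3 → Cfg 3 → ℝ) (Dχ : Fin 2 → Fin 3 → Cfg 2 → ℝ) : Prop where
  par_even : WeakSubPoisson {x : Space | 1 < ‖x‖} (uPar (-1) χ f) fun x =>
    2 * ((E2 + gp / 2 - E3 - attract l x) * uPar (-1) χ f x -
      K * lam * ((|height x| / ‖x‖ ^ 3 + Real.exp (-(ε * ‖x‖))) * |amp χ f x| +
        |height x| / ‖x‖ ^ 3 * uWeight ε 0 χ f x + farSource ε χ f D Dχ x))
  par_odd : ∀ B : Space → ℝ, ∀ R : ℝ, 1 ≤ R → ContDiffOn ℝ 2 B {x : Space | R < ‖x‖} →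
    (∀ x : Space, R < ‖x‖ → height x = 0 → 0 < B x) →
    WeakSubPoisson {x : Space | R < ‖x‖}
      (fun x => if 0 < height x then max (uPar 1 χ f x - B x) 0 else 0)
      fun x => if 0 < height x ∧ B x < uPar 1 χ f x then
        2 * ((E2 + gp / 2 - E3 - attract l x) * uPar 1 χ f x -
          K * lam * (1 / ‖x‖ ^ 2 * |amp χ f x| + |height x| / ‖x‖ ^ 3 * uWeight ε 0 χ f x +
            farSource ε χ f D Dχ x)) - lap B x
        else 0
  lam_nonneg : 0 ≤ lam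
  lam_le : lam ≤ 1
  parity : ∀ᵐ x : Space, uPar 1 χ f x ≤ uPerp χ f x ∧ uPar (-1) χ f x ≤ uPerp χ f x ∧
    uPerp χ f x ≤ uPar 1 χ f x + uPar (-1) χ f x
  amp_le : ∀ᵐ x : Space, R₀ < ‖x‖ →
    |amp χ f x| ≤ K₁ * (|height x| * powExp (β + 2) a ‖x‖)
  perp_le : ∀ᵐ x : Space, R₀ < ‖x‖ → uPerp χ f x ≤ K₁ * (powExp β a ‖x‖ * (|height x| + 1))
  weight_le : ∀ᵐ x : Space, R₀ < ‖x‖ →
    uWeight ε 0 χ f x ≤ K₁ * (powExp β a ‖x‖ * (|height x| + 1))
  far_mem : MemLp (fun x => Real.exp (κ * ‖x‖) *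
    (Ext R₀).indicator (farSource ε χ f D Dχ) x) 2
  far_le : ∫ x, (Real.exp (κ * ‖x‖) * (Ext R₀).indicator (farSource ε χ f D Dχ) x) ^ 2 ≤ T

variable {l lam E3 E2 gp ε K R₀ β a κ K₁ T : ℝ} {f : Cfg 3 → ℝ} {χ : Cfg 2 → ℝ}
  {D : Fin 3 → Fin 3 → Cfg 3 → ℝ} {Dχ : Fin 2 → Fin 3 → Cfg 2 → ℝ}

lemma farSource_nonneg_perp (x : Space) : 0 ≤ farSource ε χ f D Dχ x :=
  mul_nonneg (Real.exp_pos _).le (add_nonneg (Real.sqrt_nonneg _) (Real.sqrt_nonneg _))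

lemma powExp_le_exp_perp {b c : ℝ} (h : b ≤ c) (a : ℝ) {r : ℝ} (hr : 1 ≤ r) :
    powExp b a r ≤ powExp c a r :=
  mul_le_mul_of_nonneg_right (Real.rpow_le_rpow_of_exponent_le hr h) (Real.exp_pos _).le

/-- The pointwise parts of both sources. -/
lemma src_bounds {x : Space} (hr : 1 ≤ ‖x‖) (hK₁ : 0 ≤ K₁) (hl : 0 ≤ lam) (hl1 : lam ≤ 1)
    {A W Cg : ℝ} (hA : |A| ≤ K₁ * (|height x| * powExp (β + 2) a ‖x‖)) (hW0 : 0 ≤ W)
    (hW : W ≤ K₁ * (powExp β a ‖x‖ * (|height x| + 1)))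
    (hg : powExp (β + 2) (a + ε) ‖x‖ ≤ Cg * powExp (β - 1) a ‖x‖) (hCg : 0 ≤ Cg) :
    K * lam * ((|height x| / ‖x‖ ^ 3 + Real.exp (-(ε * ‖x‖))) * |A| + |height x| / ‖x‖ ^ 3 * W) ≤
        |K| * (K₁ * (3 + Cg)) * (powExp (β - 1) a ‖x‖ * (height x ^ 2 + 1)) ∧
      K * lam * (1 / ‖x‖ ^ 2 * |A| + |height x| / ‖x‖ ^ 3 * W) ≤
        |K| * (K₁ * 3) * (powExp β a ‖x‖ * |height x|) := by
  set r := ‖x‖
  set z := |height x| with hz
  have hz0 : 0 ≤ z := abs_nonneg _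
  have hzr : z ≤ r := by simpa [hz, height] using PiLp.norm_apply_le x 2
  have hr0 : 0 < r := by linarith
  have hr3 : (0 : ℝ) < r ^ 3 := by positivity
  have e3 : powExp (β + 2) a r = r ^ 3 * powExp (β - 1) a r := by
    rw [powExp_eq_mul (β + 2) (β - 1) a hr0, show β + 2 - (β - 1) = ((3 : ℕ) : ℝ) by push_cast; ring,
      Real.rpow_natCast]
  have e2 : powExp (β + 2) a r = r ^ 2 * powExp β a r := by
    rw [powExp_eq_mul (β + 2) β a hr0, show β + 2 - β = ((2 : ℕ) : ℝ) by push_cast; ring,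
      Real.rpow_natCast]
  have e1 : powExp β a r = r * powExp (β - 1) a r := by
    rw [powExp_eq_mul β (β - 1) a hr0, show β - (β - 1) = 1 by ring, Real.rpow_one]
  have eg : Real.exp (-(ε * r)) * powExp (β + 2) a r = powExp (β + 2) (a + ε) r := by
    simp only [powExp, mul_left_comm (Real.exp _), ← Real.exp_add]
    ring_nf
  set Q := powExp (β - 1) a r
  have hQ : 0 < Q := powExp_pos _ _ hr0
  have hKl : |K * lam| ≤ |K| := by
    rw [abs_mul, abs_of_nonneg hl]; exact mul_le_of_le_one_right (abs_nonneg _) hl1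
  have hsq : height x ^ 2 = z ^ 2 := (sq_abs _).symm
  constructor
  · have b0 : 0 ≤ (z / r ^ 3 + Real.exp (-(ε * r))) * |A| + z / r ^ 3 * W := by positivity
    refine ((le_abs_self _).trans (le_of_eq (abs_mul _ _))).trans ?_
    rw [abs_of_nonneg b0, mul_assoc |K|]
    refine mul_le_mul hKl ?_ b0 (abs_nonneg _)
    have t1 : z / r ^ 3 * |A| ≤ K₁ * (z ^ 2 * Q) := by
      refine (mul_le_mul_of_nonneg_left hA (by positivity)).trans (le_of_eq ?_)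
      rw [e3]; field_simp
    have t2 : Real.exp (-(ε * r)) * |A| ≤ K₁ * (z * (Cg * Q)) := by
      refine (mul_le_mul_of_nonneg_left hA (Real.exp_pos _).le).trans ?_
      rw [show Real.exp (-(ε * r)) * (K₁ * (z * powExp (β + 2) a r)) =
        K₁ * (z * (Real.exp (-(ε * r)) * powExp (β + 2) a r)) by ring, eg]
      exact mul_le_mul_of_nonneg_left (mul_le_mul_of_nonneg_left hg hz0) hK₁
    have t3 : z / r ^ 3 * W ≤ K₁ * ((z ^ 2 + z) * Q) := by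
      refine (mul_le_mul_of_nonneg_left hW (by positivity)).trans ?_
      rw [e1, show z / r ^ 3 * (K₁ * (r * Q * (z + 1))) = K₁ * ((z ^ 2 + z) * Q) * (r / r ^ 3) by ring]
      exact mul_le_of_le_one_right (by positivity)
        ((div_le_one hr3).2 (le_self_pow₀ hr (by norm_num)))
    have hz1 : z ≤ z ^ 2 + 1 := by nlinarith
    have u2 := mul_le_mul_of_nonneg_left
      (mul_le_mul_of_nonneg_right hz1 (mul_nonneg hCg hQ.le)) hK₁
    have u3 := mul_le_mul_of_nonneg_left (mul_le_mul_of_nonneg_right hz1 hQ.le) hK₁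
    rw [hsq]
    nlinarith [mul_nonneg hK₁ hQ.le]
  · have b0 : 0 ≤ 1 / r ^ 2 * |A| + z / r ^ 3 * W := by positivity
    refine ((le_abs_self _).trans (le_of_eq (abs_mul _ _))).trans ?_
    rw [abs_of_nonneg b0, mul_assoc |K|]
    refine mul_le_mul hKl ?_ b0 (abs_nonneg _)
    set P := powExp β a r
    have hP : 0 < P := powExp_pos _ _ hr0
    have t1 : 1 / r ^ 2 * |A| ≤ K₁ * (z * P) := by
      refine (mul_le_mul_of_nonneg_left hA (by positivity)).trans (le_of_eq ?_)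
      rw [e2]; field_simp
    have t3 : z / r ^ 3 * W ≤ K₁ * (2 * z * P) := by
      refine (mul_le_mul_of_nonneg_left hW (by positivity)).trans ?_
      rw [show z / r ^ 3 * (K₁ * (P * (z + 1))) = K₁ * (z * P) * ((z + 1) / r ^ 3) by ring,
        show K₁ * (2 * z * P) = K₁ * (z * P) * 2 by ring]
      refine mul_le_mul_of_nonneg_left ?_ (by positivity)
      rw [div_le_iff₀ hr3]
      nlinarith [le_self_pow₀ hr (by norm_num : (3 : ℕ) ≠ 0)]
    linarith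

lemma gap_pow {N A : ℝ} (hN : 0 ≤ N) {ε a₀ : ℝ} (hε : 0 < ε) (ha₀ : 0 < a₀) :
    ∃ C Cτ : ℝ, 0 ≤ C ∧ 0 ≤ Cτ ∧ ∀ β a r : ℝ, |β + 2| ≤ N → |β - 1| ≤ N → |β + 1| ≤ N →
      a₀ ≤ a → a ≤ A → 1 ≤ r → powExp (β + 2) (a + ε) r ≤ C * powExp (β - 1) a r ∧
        powExp (β + 1) a r ≤ Cτ * Real.exp (-(a₀ / 2 * r)) := by
  obtain ⟨C, hC, hCb⟩ := powExp_le_of_gap hN hε
  obtain ⟨Cτ, hCτ, hCτb⟩ := powExp_le_of_gap hN (half_pos ha₀)
  refine ⟨C, Cτ, hC, hCτ, fun β a r h2 h1 h0 ha _ hr => ⟨hCb _ _ a _ r h1 h2 le_rfl hr, ?_⟩⟩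
  rw [← powExp_zero]
  exact hCτb 0 _ (a₀ / 2) a r (by simpa using hN) h0 (by linarith) hr

/-- The rough part of both sources. -/
def farPart (ε K R₀ : ℝ) (χ : Cfg 2 → ℝ) (f : Cfg 3 → ℝ) (D : Fin 3 → Fin 3 → Cfg 3 → ℝ)
    (Dχ : Fin 2 → Fin 3 → Cfg 2 → ℝ) (x : Space) : ℝ :=
  |K| * (Ext R₀).indicator (farSource ε χ f D Dχ) x

lemma farPart_nonneg (x : Space) : 0 ≤ farPart ε K R₀ χ f D Dχ x :=
  mul_nonneg (abs_nonneg _) (Set.indicator_nonneg (fun y _ => farSource_nonneg_perp y) x)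

/-- Both sources, split into a pointwise part and the rough part. -/
lemma par_sources (h : ParHyp l lam E3 E2 gp ε K R₀ β a κ K₁ T f χ D Dχ) (hK₁ : 0 ≤ K₁)
    (hR₀ : 1 ≤ R₀) {Cg : ℝ} (hCg : 0 ≤ Cg)
    (hg : ∀ r : ℝ, 1 ≤ r → powExp (β + 2) (a + ε) r ≤ Cg * powExp (β - 1) a r) :
    ∀ᵐ x : Space, x ∈ Ext R₀ →
      K * lam * ((|height x| / ‖x‖ ^ 3 + Real.exp (-(ε * ‖x‖))) * |amp χ f x| +
          |height x| / ‖x‖ ^ 3 * uWeight ε 0 χ f x + farSource ε χ f D Dχ x) ≤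
        |K| * (K₁ * (3 + Cg)) * (powExp (β - 1) a ‖x‖ * (height x ^ 2 + 1)) +
          farPart ε K R₀ χ f D Dχ x ∧
      K * lam * (1 / ‖x‖ ^ 2 * |amp χ f x| + |height x| / ‖x‖ ^ 3 * uWeight ε 0 χ f x +
          farSource ε χ f D Dχ x) ≤
        |K| * (K₁ * 3) * (powExp β a ‖x‖ * |height x|) + farPart ε K R₀ χ f D Dχ x := by
  filter_upwards [h.amp_le, h.weight_le] with x hA hW hx
  have hr : 1 ≤ ‖x‖ := hR₀.trans (le_of_lt hx)
  obtain ⟨b1, b2⟩ := src_bounds (K := K) hr hK₁ h.lam_nonneg h.lam_le (hA hx) (Real.sqrt_nonneg _)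
    (hW hx) (hg _ hr) hCg
  have hf : K * lam * farSource ε χ f D Dχ x ≤ farPart ε K R₀ χ f D Dχ x := by
    rw [farPart, Set.indicator_of_mem hx]
    refine mul_le_mul_of_nonneg_right ?_ (farSource_nonneg_perp x)
    exact (mul_le_mul_of_nonneg_right (le_abs_self K) h.lam_nonneg).trans
      (mul_le_of_le_one_right (abs_nonneg _) h.lam_le)
  rw [mul_add (K * lam), mul_add (K * lam) (1 / ‖x‖ ^ 2 * |amp χ f x| + _)]
  exact ⟨add_le_add b1 hf, add_le_add b2 hf⟩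

end Vale.Agent.P363.Inter
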