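import Vale.Agent.P363.Inter.Bar.PerpBoundBase
import Vale.Agent.P363.Tool.YukKernel
import Vale.Agent.P363.Tool.YukPot
import Vale.Agent.P363.Tool.YukTest

/-!
P363, interacting side: comparison with gapped barriers and Yukawa potentials of sources which are
only small in mean square.
-/

noncomputable section

namespace Vale.Agent.P363.Inter

open MeasureTheory Metric Filter
open scoped BigOperators Topology ENNReal

/-- Subsolutions with a source below the first profile. -/
theorem gap_ext_bound (N A M : ℝ) (hM : 0 ≤ M) {δ : ℝ} (hδ : 0 < δ) (R₀ K₁ T : ℝ) :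
    ∃ K₀ R K : ℝ, 1 ≤ K₀ ∧ 4 ≤ R ∧ R₀ + 3 ≤ R ∧ 0 ≤ K ∧
      ∀ a β κ : ℝ, |β| ≤ N → 0 ≤ a → a ≤ A → 0 ≤ κ → κ ≤ A →
      ∀ u m S : Space → ℝ, WeakSubPoisson (Ext R₀) u (fun x => 2 * (m x * u x - S x)) →
        ContinuousOn m (Ext R₀) → (∀ x ∈ Ext R₀, |m x| ≤ M) →
        (∀ x ∈ Ext R₀, a ^ 2 / 2 + δ ≤ m x ∧ κ ^ 2 / 2 + δ ≤ m x) →
        (∀ x, 0 ≤ u x) → MemLp u 2 → MemLp S 2 →
        Real.sqrt (∫ x, u x ^ 2) + Real.sqrt (∫ x, S x ^ 2) ≤ T →
        (∀ᵐ x, x ∈ Ext R₀ → S x ≤ K₁ * (powExp β a ‖x‖ * (|height x| + 1))) →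
        ∀ᵐ x : Space, R < ‖x‖ → u x ≤ K * (powExp β a ‖x‖ * (|height x| + 1) + powExp 0 κ ‖x‖) := by
  obtain ⟨K₀, R₁, hK₀, hR₁, hpar⟩ := exists_gap_params |N| |A| hδ
  obtain ⟨C, hC0, hC⟩ := ext_bound hM
  set R := max R₁ (R₀ + 3) with hRdef
  have hR4 : 4 ≤ R := hR₁.trans (le_max_left _ _)
  have hlow : 0 < powExp (-|N|) |A| (R + 1) := powExp_pos _ _ (by linarith)
  set Kc := max (C * |T| / powExp (-|N|) |A| (R + 1)) (4 * |K₁| / δ) with hKc
  have hKc0 : 0 ≤ Kc := le_trans (by positivity) (le_max_right _ _)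
  refine ⟨K₀, R, Kc * (1 + K₀), hK₀, hR4, le_max_right _ _, by positivity,
    fun a β κ hβ ha haA hκ hκA u m S hu hmc hmM hm hu0 hu2 hS2 hT hS => ?_⟩
  obtain ⟨hd1, hd2, hpf⟩ := profA_facts (zero_lt_one.trans_le hK₀)
  have hne : Ext R ⊆ {x : Space | x ≠ 0} := ext_subset_ne_zero (by linarith)
  have hp1 : ∀ x : Space, |height x| + 1 ≤ 2 * profA K₀ (height x) := fun x => by
    linarith [(hpf (height x)).1, (hpf (height x)).2.1]
  have hge : ∀ x ∈ Ext R, Kc * (powExp β a ‖x‖ * profA K₀ (height x)) ≤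
      gapBar Kc β a κ (profA K₀) x ∧ Kc * powExp 0 κ ‖x‖ ≤ gapBar Kc β a κ (profA K₀) x ∧
      0 ≤ gapBar Kc β a κ (profA K₀) x := fun x hx =>
    gapBar_ge hKc0 (hne hx) (le_trans (by linarith) (hpf _).1)
  have h := hC R₀ R |T| u m S (gapBar Kc β a κ (profA K₀)) (le_max_right _ _) hu hmc hmM
    (fun x hx => by
      have h1 := hm x (ext_mono (by linarith [le_max_right R₁ (R₀ + 3)]) hx)
      linarith [h1.1, sq_nonneg a])
    hu0 hu2 hS2 (hT.trans (le_abs_self T))
    ((contDiffOn_gapBar Kc β a κ (contDiff_profA (by linarith))).mono hne)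
    (fun x hx => (hge x hx).2.2) ?_ ?_
  · filter_upwards [h] with x hx hxR
    refine (hx hxR).trans ?_
    have hr : 0 < ‖x‖ := by linarith
    have hb : profA K₀ (height x) ≤ (1 + K₀) * (|height x| + 1) := by
      have h1 : profA K₀ (height x) ≤ |height x| + K₀ := Real.sqrt_le_iff.2
        ⟨by positivity, by rw [← sq_abs (height x)]; nlinarith [abs_nonneg (height x)]⟩
      nlinarith [abs_nonneg (height x)]
    have h3 := mul_le_mul_of_nonneg_left hb (powExp_pos β a hr).le
    have h4 : powExp 0 κ ‖x‖ ≤ (1 + K₀) * powExp 0 κ ‖x‖ :=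
      le_mul_of_one_le_left (powExp_pos _ _ hr).le (by linarith)
    rw [gapBar, mul_assoc]
    exact mul_le_mul_of_nonneg_left (by linarith) hKc0
  · filter_upwards [hS] with x hx hxR
    have hx0 : x ∈ Ext R₀ := ext_mono (by linarith [le_max_right R₁ (R₀ + 3)]) hxR
    have hr : R₁ ≤ ‖x‖ := (le_max_left _ _).trans (le_of_lt hxR)
    obtain ⟨hsm, hth⟩ := hpar x hr
    obtain ⟨hp0, hpa, hpb, hpc⟩ := hpf (height x)
    have hpp : 0 ≤ profA K₀ (height x) := le_trans (by linarith) hp0
    have hl := gap_super hd1 hd2 (contDiff_profA (by linarith)) hKc0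
      (show 0 ≤ 2 / K₀ ^ 2 by positivity) (hβ.trans (le_abs_self N)) ha
      (haA.trans (le_abs_self A)) hκ (hκA.trans (le_abs_self A)) (by linarith) hpp
      (hpb.trans (mul_le_mul_of_nonneg_right hth hpp)) hpc (hm x hx0).1 (hm x hx0).2 hsm
    refine hl.trans ?_
    have hP := (powExp_pos β a (show 0 < ‖x‖ by linarith)).le
    have hKd : 4 * |K₁| ≤ Kc * δ := (div_le_iff₀ hδ).1 (le_max_right _ _)
    have e1 := mul_le_mul_of_nonneg_left (hge x hxR).1 hδ.le
    have e2 := mul_le_mul_of_nonneg_left (hp1 x) hP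
    have e3 := mul_le_mul_of_nonneg_right (le_abs_self K₁)
      (mul_nonneg hP (show 0 ≤ |height x| + 1 by positivity))
    have e4 := mul_le_mul_of_nonneg_right hKd (mul_nonneg hP hpp)
    have e5 := mul_le_mul_of_nonneg_left e2 (abs_nonneg K₁)
    linarith [hx hx0]
  · intro x hx hlt
    have hl := powExp_lower (β := 0) (ρ := R + 1) (N := |N|) (by simp)
      (hκA.trans (le_abs_self A)) (abs_nonneg A)
      (show 1 ≤ ‖x‖ by linarith [show R < ‖x‖ from hx]) hlt.le
    have h1 : C * |T| ≤ Kc * powExp (-|N|) |A| (R + 1) :=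
      (div_le_iff₀ hlow).1 (le_max_left _ _)
    linarith [(hge x hx).2.1, mul_le_mul_of_nonneg_left hl hKc0]

/-- The potential of a source with exponential gain in mean square. -/
theorem pot_far_explicit {d κ : ℝ} (hd : 0 < d) (hκ : 0 ≤ κ) {q : Space → ℝ} {T : ℝ}
    (hq : ∀ x, 0 ≤ q x) (hg : MemLp (fun y => Real.exp (κ * ‖y‖) * q y) 2)
    (hT : ∫ y, (Real.exp (κ * ‖y‖) * q y) ^ 2 ≤ T) (k : ℝ) (hk : κ + d ≤ k) :
    WeakPoisson Set.univ (Yuk.pot k q) (fun x => k ^ 2 * Yuk.pot k q x - q x) ∧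
      ∀ x, 0 ≤ Yuk.pot k q x ∧
        Yuk.pot k q x ≤ Real.sqrt (∫ y, yuk d y ^ 2) * Real.sqrt T * Real.exp (-(κ * ‖x‖)) := by
  have hY : MemLp (yuk d) 2 := by
    have h := Yuk.yukBounds.2.2.1 d 2 hd one_le_two (by norm_num)
    rwa [show ENNReal.ofReal 2 = 2 by simp] at h
  set gq : Space → ℝ := fun y => Real.exp (κ * ‖y‖) * q y
  have hk0 : 0 ≤ k := by linarith
  have hqm : AEStronglyMeasurable q volume := by
    refine ((Measurable.aestronglyMeasurable (μ := volume)
      (show Measurable fun x : Space => Real.exp (-(κ * ‖x‖)) by fun_prop)).mul hg.1).congr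
      (ae_of_all _ fun y => ?_)
    simp only [Pi.mul_apply]
    rw [← mul_assoc, ← Real.exp_add, neg_add_cancel, Real.exp_zero, one_mul]
  have hq2 : MemLp q 2 := hg.mono hqm (ae_of_all _ fun y => by
    rw [Real.norm_eq_abs, Real.norm_eq_abs, abs_mul, abs_of_pos (Real.exp_pos _)]
    exact le_mul_of_one_le_left (abs_nonneg _) (Real.one_le_exp (by positivity)))
  have hke : Integrable fun x => Real.exp (-(k * ‖x‖)) * q x := by
    have he : MemLp (fun x : Space => Real.exp (-(k * ‖x‖))) 2 := by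
      rw [memLp_two_iff_integrable_sq (Measurable.aestronglyMeasurable (by fun_prop))]
      simpa [← Real.exp_nat_mul, two_mul, add_mul, neg_add] using
        Yuk.integrable_rpow_exp (s := 0) (c := k + k) (by norm_num) (by linarith)
    exact he.integrable_mul hq2
  obtain ⟨hP, hdual⟩ := Yuk.pot_dual hk0 hke
  refine ⟨⟨hP.locallyIntegrableOn _,
    (locallyIntegrableOn_univ.2 ((hP.smul (k ^ 2)).sub (hq2.locallyIntegrable one_le_two))),
    fun η hη => ?_⟩, fun x => ?_⟩
  · have i1 : Integrable fun x => Yuk.pot k q x * η x := integrable_mul_of_tsupport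
      (hP.locallyIntegrableOn _) hη.smooth.continuous hη.compact (Set.subset_univ _)
    have i2 : Integrable fun x => q x * η x := integrable_mul_of_tsupport
      ((hq2.locallyIntegrable one_le_two).locallyIntegrableOn _) hη.smooth.continuous hη.compact
      (Set.subset_univ _)
    have hlc := hη.lap_continuous
    have hls := hasCompactSupport_lap hη.compact
    have hle : ∀ x, Yuk.pot k (lap η) x = k ^ 2 * Yuk.pot k η x - η x := by
      intro x
      have h := Yuk.yukTest k hk0 η hη x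
      have j1 := integrable_conv3 hη.smooth.continuous hη.compact
        (Yuk.locallyIntegrable_yuk hk0) x
      have j2 := integrable_conv3 hlc hls (Yuk.locallyIntegrable_yuk hk0) x
      have a1 : Integrable fun y => yuk k (x - y) * η y := by simpa using j1.comp_sub_left x
      have a2 : Integrable fun y => yuk k (x - y) * lap η y := by simpa using j2.comp_sub_left x
      have e : (fun y => yuk k (x - y) * (k ^ 2 * η y - lap η y)) = fun y =>
          k ^ 2 * (yuk k (x - y) * η y) - yuk k (x - y) * lap η y := funext fun y => by ring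
      rw [e, integral_sub (a1.const_mul _) a2, integral_const_mul] at h
      simp only [Yuk.pot]
      linarith
    rw [hdual _ hlc hls]
    have e2 : ∫ x, (k ^ 2 * Yuk.pot k q x - q x) * η x =
        k ^ 2 * (∫ y, q y * Yuk.pot k η y) - ∫ x, q x * η x := by
      rw [← hdual η hη.smooth.continuous hη.compact, ← integral_const_mul,
        ← integral_sub (i1.const_mul _) i2]
      exact integral_congr_ae (ae_of_all _ fun x => by ring)
    rw [e2]
    obtain ⟨C0, hC0⟩ := Yuk.pot_decay hk0 hη.smooth.continuous hη.compact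
    have i3 : Integrable fun y => q y * Yuk.pot k η y := by
      refine (hke.abs.const_mul C0).mono' (hqm.mul (Yuk.contDiff_pot hk0
        (hη.mono (Set.subset_univ _))).continuous.aestronglyMeasurable) (ae_of_all _ fun y => ?_)
      rw [Real.norm_eq_abs, abs_mul, abs_mul, abs_of_pos (Real.exp_pos _)]
      exact (mul_le_mul_of_nonneg_left (hC0 y) (abs_nonneg _)).trans (le_of_eq (by ring))
    simp only [hle, mul_sub, mul_left_comm (q _) (k ^ 2)]
    rw [integral_sub (i3.const_mul _) i2, integral_const_mul]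
  · refine ⟨integral_nonneg fun y => mul_nonneg (Yuk.yuk_nonneg k _) (hq y), ?_⟩
    have hYx : MemLp (fun y => yuk d (x - y)) 2 :=
      hY.comp_measurePreserving (volume.measurePreserving_sub_left x)
    have hbound : ∀ y, yuk k (x - y) * q y ≤
        Real.exp (-(κ * ‖x‖)) * (yuk d (x - y) * gq y) := by
      intro y
      have h1 : yuk k (x - y) ≤ yuk d (x - y) * (Real.exp (-(κ * ‖x‖)) * Real.exp (κ * ‖y‖)) := by
        simp only [yuk]
        rw [div_mul_eq_mul_div, ← Real.exp_add, ← Real.exp_add]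
        refine div_le_div_of_nonneg_right (Real.exp_le_exp.2 ?_) (by positivity)
        have := norm_sub_norm_le x y
        nlinarith [mul_le_mul_of_nonneg_right hk (norm_nonneg (x - y))]
      refine (mul_le_mul_of_nonneg_right h1 (hq y)).trans (le_of_eq ?_)
      ring
    have hint : Integrable fun y => yuk d (x - y) * gq y := hYx.integrable_mul hg
    calc Yuk.pot k q x ≤ ∫ y, Real.exp (-(κ * ‖x‖)) * (yuk d (x - y) * gq y) :=
          integral_mono_of_nonneg (ae_of_all _ fun y => mul_nonneg (Yuk.yuk_nonneg k _) (hq y))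
            (hint.const_mul _) (ae_of_all _ hbound)
      _ ≤ Real.exp (-(κ * ‖x‖)) * (Real.sqrt (∫ y, yuk d y ^ 2) * Real.sqrt T) := by
          rw [integral_const_mul]
          refine mul_le_mul_of_nonneg_left ((le_abs_self _).trans
            ((abs_integral_mul_le hYx hg).trans ?_)) (Real.exp_pos _).le
          rw [integral_sub_left_eq_self (fun y => yuk d y ^ 2) volume x]
          exact mul_le_mul_of_nonneg_left (Real.sqrt_le_sqrt hT) (Real.sqrt_nonneg _)
      _ = _ := by ring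

/-- Comparison after subtracting the potential of the rough part of the source. -/
theorem compare_far {R k D τ : ℝ} {u S m B Ψ q : Space → ℝ} (hτ : 0 < τ)
    (hu : WeakSubPoisson (Ext R) u fun x => 2 * (m x * u x - S x - q x))
    (hΨ : WeakPoisson Set.univ Ψ fun x => k ^ 2 * Ψ x - 2 * q x)
    (hq : LocallyIntegrableOn q (Ext R)) (hΨ0 : ∀ x, 0 ≤ Ψ x)
    (hmc : ContinuousOn m (Ext R)) (hm : ∀ x ∈ Ext R, k ^ 2 / 2 ≤ m x)
    (hub : ∀ᵐ x, x ∈ Ext R → |u x| ≤ D * Real.exp (-(τ * ‖x‖)))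
    (hΨb : ∀ x ∈ Ext R, Ψ x ≤ D * Real.exp (-(τ * ‖x‖)))
    (hB : ContDiffOn ℝ 2 B (Ext R)) (hB0 : ∀ x ∈ Ext R, 0 ≤ B x)
    (hsup : ∀ᵐ x, x ∈ Ext R → lap B x ≤ 2 * (m x * B x - S x))
    (hin : ∀ᵐ x, x ∈ Ext R → ‖x‖ < R + 1 → u x ≤ B x) :
    ∀ᵐ x, x ∈ Ext R → u x ≤ B x + Ψ x := by
  set w : Space → ℝ := fun x => u x + -1 * Ψ x with hw
  have hU := isOpen_ext R
  have hΨU : LocallyIntegrableOn Ψ (Ext R) := hΨ.1.mono_set (Set.subset_univ _)
  have hmI : ∀ v : Space → ℝ, LocallyIntegrableOn v (Ext R) →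
      LocallyIntegrableOn (fun x => m x * v x) (Ext R) := fun v hv => by
    have := hv.continuousOn_mul hmc hU.isLocallyClosed
    exact this
  have hrhs : LocallyIntegrableOn (fun x => 2 * (m x * w x - S x)) (Ext R) := by
    have h := (hu.2.1.add (hq.smul (2 : ℝ))).add ((hmI Ψ hΨU).smul (-2 : ℝ))
    refine (show LocallyIntegrableOn _ (Ext R) from h).congr (ae_of_all _ fun x => ?_)
    simp only [hw, Pi.add_apply, Pi.smul_apply, smul_eq_mul]
    ring
  have hws : WeakSubPoisson (Ext R) w fun x => 2 * (m x * w x - S x) := by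
    refine (hu.add ((hΨ.const_mul (-1)).toSub.mono (Set.subset_univ _))).weaken hrhs ?_ hU
    filter_upwards [ae_restrict_mem hU.measurableSet] with x hx
    simp only [hw]
    nlinarith [mul_le_mul_of_nonneg_right (hm x hx) (hΨ0 x)]
  have hwb : ∀ᵐ x, x ∈ Ext R → |w x| ≤ 2 * |D| * Real.exp (-(τ * ‖x‖)) := by
    filter_upwards [hub] with x hx hxR
    have h1 := (hΨb x hxR).trans (mul_le_mul_of_nonneg_right (le_abs_self D) (Real.exp_pos _).le)
    have h2 := (hx hxR).trans (mul_le_mul_of_nonneg_right (le_abs_self D) (Real.exp_pos _).le)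
    have h3 := abs_le.1 h2
    have h4 := hΨ0 x
    rw [hw, abs_le]
    constructor <;> linarith [h3.1, h3.2]
  have h := compare_ext hws hmc (fun x hx => le_trans (by positivity) (hm x hx)) hB hsup
    (fun K hK hKR => ?_) ⟨R + 1, by linarith, ?_⟩ fun ε hε => ?_
  · filter_upwards [h] with x hx hxR
    have := hx hxR
    simp only [hw] at this
    linarith
  · obtain ⟨c, hc⟩ := hK.exists_bound_of_continuousOn
      (f := fun x : Space => 2 * |D| * Real.exp (-(τ * ‖x‖))) (by fun_prop)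
    refine ⟨c, ?_⟩
    filter_upwards [hwb] with x hx hxK
    exact (hx (hKR hxK)).trans ((le_abs_self _).trans (hc x hxK))
  · filter_upwards [hin] with x hx hxR hlt
    simp only [hw]
    linarith [hx hxR hlt, hΨ0 x]
  · have ht : Tendsto (fun r : ℝ => 2 * |D| * Real.exp (-(τ * r))) atTop (𝓝 0) := by
      simpa using ((Real.tendsto_exp_neg_atTop_nhds_zero.comp
        (tendsto_id.const_mul_atTop hτ)).const_mul (2 * |D|))
    obtain ⟨r, hr⟩ := eventually_atTop.1 (ht.eventually (Iic_mem_nhds hε))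
    refine ⟨r, ?_⟩
    filter_upwards [hwb] with x hx hxR hlt
    linarith [le_abs_self (w x), hx hxR, hB0 x hxR, hr ‖x‖ hlt.le]

end Vale.Agent.P363.Inter
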