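import Vale.Agent.P363.Exist.Gap
import Vale.Agent.P363.Inter.Bar.AmpBasics
import Vale.Agent.P363.Inter.Bar.DecayExt

/-!
P363, interacting side: the parts of the lower bound on the plane: the source of the odd singlet
channel, and the barrier `(z² + η) r⁻³ G`.
-/

noncomputable section

namespace Vale.Agent.P363.Inter

open MeasureTheory Filter Metric
open scoped BigOperators Topology

theorem powExp_tendsto_zero (β : ℝ) {κ : ℝ} (hκ : 0 < κ) :
    Tendsto (fun r => powExp β κ r) atTop (𝓝 0) := by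
  simpa [powExp] using tendsto_rpow_mul_exp_neg_mul_atTop_nhds_zero β κ hκ

theorem ipN_odd_even_zero {φ χ : Cfg 2 → ℝ}
    (hφ : ∀ᵐ y : Cfg 2, φ (fun k => mirror (y k)) = -1 * φ y)
    (hχ : ∀ᵐ y : Cfg 2, χ (fun k => mirror (y k)) = 1 * χ y) : ipN φ χ = 0 := by
  have hT := Exist.ip_comp (Exist.measurePreserving_slotMap One.mirrorIso (Equiv.refl (Fin 2))) φ χ
  have e := Exist.slotMap_mirror (n := 2)
  have h : Exist.ip φ χ = -Exist.ip φ χ := by
    conv_lhs => rw [← hT]
    rw [Exist.ip, Exist.ip, ← integral_neg]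
    refine integral_congr_ae ?_
    filter_upwards [hφ, hχ] with y h1 h2
    simp only [Function.comp_apply, e, h1, h2]
    ring
  exact (by linarith : Exist.ip φ χ = 0)

/-- The odd singlet channel in a slice: the dipole term up to `r⁻²` times the excited part. -/
theorem plane_source {K r : ℝ} {χ χs : Cfg 2 → ℝ} {f : Cfg 3 → ℝ} {x : Space}
    (hχ : MemLp χ 2) (hs : MemLp χs 2) (horth : ipN χs χ = 0)
    (hrep : MemLp (fun y => repel x y * χs y) 2)
    (hK : nrmN (fun y => (repel x y - 2 / r) * χs y) ≤ K) (hslice : MemLp (slice 0 f x) 2) :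
    ipN (fun y => repel x y * χs y) (slice 0 f x) ≤
      amp χ f x * ipN (fun y => repel x y * χ y) χs + 2 / r * ampAt 0 χs f x +
        K * uPerp χ f x := by
  set a := amp χ f x with ha
  have hp : MemLp (perp χ f x) 2 := hslice.sub (hχ.const_mul a)
  have i1 : Integrable fun y => repel x y * χs y * χ y := hrep.integrable_mul hχ
  have i2 : Integrable fun y => repel x y * χs y * perp χ f x y := hrep.integrable_mul hp
  have i3 : Integrable fun y => χs y * perp χ f x y := hs.integrable_mul hp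
  have i4 : Integrable fun y => χs y * slice 0 f x y := hs.integrable_mul hslice
  have i5 : Integrable fun y => χs y * χ y := hs.integrable_mul hχ
  have e1 : ipN (fun y => repel x y * χs y) (slice 0 f x) =
      a * ipN (fun y => repel x y * χ y) χs + ipN (fun y => repel x y * χs y) (perp χ f x) := by
    simp only [ipN]
    rw [← integral_const_mul]
    have i1' : Integrable fun y => a * (repel x y * χ y * χs y) :=
      (i1.const_mul a).congr (Eventually.of_forall fun y => by ring)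
    rw [← integral_add i1' i2]
    refine integral_congr_ae (Eventually.of_forall fun y => ?_)
    simp only [perp, ← ha]
    ring
  have e2 : ipN χs (perp χ f x) = ampAt 0 χs f x := by
    have h : ipN χs (perp χ f x) = ipN χs (slice 0 f x) - a * ipN χs χ := by
      simp only [ipN]
      rw [← integral_const_mul, ← integral_sub i4 (i5.const_mul a)]
      refine integral_congr_ae (Eventually.of_forall fun y => ?_)
      simp only [perp, ← ha]
      ring
    rw [h, horth, mul_zero, sub_zero]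
    rfl
  have hv : MemLp (fun y => (repel x y - 2 / r) * χs y) 2 := by
    refine (hrep.sub (hs.const_mul (2 / r))).ae_eq (Eventually.of_forall fun y => ?_)
    simp only [Pi.sub_apply]
    ring
  have e3 : ipN (fun y => repel x y * χs y) (perp χ f x) =
      2 / r * ampAt 0 χs f x + ipN (fun y => (repel x y - 2 / r) * χs y) (perp χ f x) := by
    rw [← e2]
    simp only [ipN]
    have i6 : Integrable fun y => (repel x y - 2 / r) * χs y * perp χ f x y := hv.integrable_mul hp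
    rw [← integral_const_mul, ← integral_add (i3.const_mul (2 / r)) i6]
    refine integral_congr_ae (Eventually.of_forall fun y => ?_)
    ring
  have h4 : ipN (fun y => (repel x y - 2 / r) * χs y) (perp χ f x) ≤ K * uPerp χ f x :=
    (le_abs_self _).trans ((abs_ipN_le hv hp).trans
      (mul_le_mul_of_nonneg_right hK (Real.sqrt_nonneg _)))
  rw [e1, e3]
  linarith

/-- The dipole term has a sign against the amplitude of the ion ground state. -/
theorem dipole_sign {z P A KA cD KD e dx dxm D : ℝ} (hcD : 0 ≤ cD)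
    (hKD : 0 ≤ KD) (he : 0 ≤ e) (hlo : A * |z| * P ≤ |dx|) (hhi : |dx| ≤ KA * |z| * P)
    (hodd : dxm = -dx) (hneg : 0 < z → dx < 0) (hpos : z < 0 → dxm < 0)
    (hD : cD * z ^ 2 - KD * |z| * e ≤ z * D) :
    dx * D ≤ P * (-(A * cD) * z ^ 2 + KA * KD * |z| * e) := by
  rcases lt_trichotomy z 0 with hz | hz | hz
  · have h1 : 0 < dx := by linarith [hpos hz]
    rw [abs_of_pos h1, abs_of_neg hz] at hlo hhi
    rw [abs_of_neg hz] at hD ⊢
    have h2 : D ≤ cD * z + KD * e := by nlinarith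
    nlinarith [mul_le_mul_of_nonneg_left h2 h1.le, mul_le_mul_of_nonneg_left hlo hcD,
      mul_le_mul_of_nonneg_right hhi (mul_nonneg hKD he)]
  · subst hz
    simp only [abs_zero, mul_zero, zero_mul] at hhi ⊢
    have : dx = 0 := abs_eq_zero.1 (le_antisymm hhi (abs_nonneg _))
    simp [this]
  · have h1 := hneg hz
    rw [abs_of_neg h1, abs_of_pos hz] at hlo hhi
    rw [abs_of_pos hz] at hD ⊢
    have h2 : cD * z - KD * e ≤ D := by nlinarith
    nlinarith [mul_le_mul_of_nonpos_left h2 h1.le, mul_le_mul_of_nonneg_left hlo hcD,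
      mul_le_mul_of_nonneg_right hhi (mul_nonneg hKD he)]

/-- The profile `powExp β a ‖x‖ * (z² + η)`. -/
def planeBar (β a η : ℝ) (x : Space) : ℝ := powExp β a ‖x‖ * (height x ^ 2 + η)

theorem lap_planeBar (β : ℝ) {a η : ℝ} (ha : 0 ≤ a) {x : Space} (hη : 0 ≤ η) (hx : 1 ≤ ‖x‖) :
    powExp β a ‖x‖ * ((a ^ 2 - (2 * a * |β + 1| + |β * (β + 1)| + 4 * (|β| + a)) / ‖x‖) *
      (height x ^ 2 + η) + 2 - 4 * (|β| + a) * η / ‖x‖) ≤ lap (planeBar β a η) x ∧
    ContDiffOn ℝ 2 (planeBar β a η) {x : Space | x ≠ 0} := by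
  refine ⟨?_, contDiffOn_radial_height (contDiffOn_powExp β a)
    ((contDiff_id.pow 2).add contDiff_const)⟩
  have hx0 : x ≠ 0 := norm_pos_iff.1 (by linarith)
  have d1 : ∀ t : ℝ, HasDerivAt (fun s => s ^ 2 + η) (2 * t) t := fun t => by
    simpa using (hasDerivAt_pow 2 t).add_const η
  have d2 : ∀ t : ℝ, HasDerivAt (fun s : ℝ => 2 * s) 2 t := fun t => by
    simpa using (hasDerivAt_id t).const_mul (2 : ℝ)
  unfold planeBar
  rw [lap_powExp_height β a d1 d2 hx0]
  set r := ‖x‖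
  set z := height x
  have hr : 0 < r := by linarith
  refine mul_le_mul_of_nonneg_left ?_ (powExp_pos β a hr).le
  have h1 : -(2 * a * |β + 1|) / r ≤ -(2 * a * (β + 1) / r) := by
    rw [neg_div]
    refine neg_le_neg (div_le_div_of_nonneg_right ?_ hr.le)
    exact mul_le_mul_of_nonneg_left (le_abs_self _) (by positivity)
  have h2 : -|β * (β + 1)| / r ≤ β * (β + 1) / r ^ 2 := by
    rw [div_le_div_iff₀ hr (by positivity)]
    have h0 := abs_nonneg (β * (β + 1))
    nlinarith [mul_le_mul_of_nonneg_right (neg_abs_le (β * (β + 1))) hr.le,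
      mul_nonneg (mul_nonneg h0 hr.le) (sub_nonneg.2 hx)]
  have hβr : |β / r - a| ≤ |β| + a := by
    refine (abs_sub _ _).trans (add_le_add ?_ (abs_of_nonneg ha).le)
    rw [abs_div, abs_of_pos hr]
    exact div_le_self (abs_nonneg _) hx
  have h3 : -(4 * (|β| + a)) * z ^ 2 / r ≤ 2 * (β / r - a) * (z / r) * (2 * z) := by
    rw [show 2 * (β / r - a) * (z / r) * (2 * z) = 4 * (β / r - a) * z ^ 2 / r by ring]
    refine div_le_div_of_nonneg_right (mul_le_mul_of_nonneg_right ?_ (sq_nonneg z)) hr.le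
    linarith [(abs_le.1 hβr).1]
  have h4 : 0 ≤ z ^ 2 + η := by positivity
  have h5 := mul_le_mul_of_nonneg_right (add_le_add h1 h2) h4
  have h6 : 0 ≤ (|β| + a) * η / r := by positivity
  ring_nf at h3 h5 h6 ⊢
  linarith

theorem contDiffOn_planeBar (β a η : ℝ) : ContDiffOn ℝ 2 (planeBar β a η) {x : Space | x ≠ 0} :=
  contDiffOn_radial_height (contDiffOn_powExp β a) ((contDiff_id.pow 2).add contDiff_const)

/-- The barrier beats a mass up to `a² / 2 + Δ + 2 / r`. -/
theorem planeBar_super {β a η ε Δ mx : ℝ} {x : Space} (ha : 0 ≤ a) (hε : 0 ≤ ε) (hΔ : 0 < Δ)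
    (hη : η = 1 / (8 * Δ)) (hx : 1 ≤ ‖x‖) (hm : mx ≤ a ^ 2 / 2 + Δ + 2 / ‖x‖)
    (h1 : (2 * a * |β + 1| + |β * (β + 1)| + 4 * (|β| + a) + 4) / ‖x‖ ≤ Δ)
    (h2 : 4 * (|β| + a) * η / ‖x‖ ≤ 1 / 2) :
    powExp β a ‖x‖ * (ε * (1 - 4 * Δ * height x ^ 2)) ≤
      lap (fun y => ε * planeBar β a η y) x - 2 * (mx * (ε * planeBar β a η x)) := by
  have hη0 : 0 < η := by rw [hη]; positivity
  rw [lap_const_mul ε (isOpen_ne : IsOpen {y : Space | y ≠ 0}) (contDiffOn_planeBar β a η)
    (norm_pos_iff.1 (by linarith))]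
  have hlap := (lap_planeBar β ha hη0.le hx).1
  set K := 2 * a * |β + 1| + |β * (β + 1)| + 4 * (|β| + a) with hK
  unfold planeBar at *
  set r := ‖x‖ with hr
  set z := height x with hz
  set P := powExp β a r with hP
  have hr0 : 0 < r := by linarith
  have hP0 : 0 ≤ P := (powExp_pos β a hr0).le
  have h4 : -3 * Δ ≤ a ^ 2 - K / r - 2 * mx := by
    have e : K / r + 4 / r = (K + 4) / r := by ring
    have e' : 2 * (2 / r) = 4 / r := by ring
    linarith
  have h5 := mul_le_mul_of_nonneg_right h4 (by positivity : 0 ≤ z ^ 2 + η)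
  have h6 : Δ * η = 1 / 8 := by rw [hη]; field_simp
  have h7 : 1 - 4 * Δ * z ^ 2 ≤ (a ^ 2 - K / r - 2 * mx) * (z ^ 2 + η) + 2 -
      4 * (|β| + a) * η / r := by
    nlinarith [mul_nonneg hΔ.le (sq_nonneg z)]
  have h8 := mul_le_mul_of_nonneg_left h7 (mul_nonneg hε hP0)
  have h9 := mul_le_mul_of_nonneg_left hlap hε
  linarith

/-- The mass of the odd singlet channel, against `Es - E3`. -/
theorem plane_mass {l lam : ℝ} {x : Space} (hlam : 0 ≤ lam) (hlam1 : lam ≤ 1)
    (hl : 2 * |l| ≤ ‖x‖) (hx : 1 ≤ ‖x‖) :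
    -(4 / ‖x‖) ≤ -attract l x + 2 * lam / ‖x‖ ∧ -attract l x + 2 * lam / ‖x‖ ≤ 2 / ‖x‖ := by
  have hn : ∀ c : Space, ‖c‖ = |l| → 1 / ‖x - c‖ ≤ 2 / ‖x‖ := fun c hc => by
    have h := norm_sub_norm_le x c
    rw [hc] at h
    rw [div_le_div_iff₀ (by linarith [abs_nonneg l]) (by linarith)]
    linarith
  have hnuc : ‖nuc l‖ = |l| := by simp [nuc, norm_smul, unit3]
  have ha4 : attract l x ≤ 4 / ‖x‖ := by
    have e1 := hn (nuc l) hnuc
    have e2 := hn (-nuc l) (by rw [norm_neg, hnuc])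
    rw [sub_neg_eq_add] at e2
    unfold attract
    calc _ ≤ 2 / ‖x‖ + 2 / ‖x‖ := add_le_add e1 e2
      _ = _ := by ring
  have hlam2 : 2 * lam / ‖x‖ ≤ 2 / ‖x‖ := div_le_div_of_nonneg_right (by linarith) (by linarith)
  have hl0 : 0 ≤ 2 * lam / ‖x‖ := by positivity
  have := attract_nonneg l x
  constructor <;> linarith

/-- The source, from the dipole sign and the bound on the excited part. -/
theorem plane_source_bound {r z P cA cD εD KA KD KR KP Cg Δ dx dxm D uP : ℝ} (hr : 1 ≤ r)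
    (hP : 0 < P) (hcA : 0 < cA) (hcD : 0 < cD) (hΔ : 0 < Δ) (huP : 0 ≤ uP)
    (hlo : cA * |z| * (P * r ^ 3) ≤ |dx|) (hhi : |dx| ≤ KA * |z| * (P * r ^ 3))
    (hodd : dxm = -dx) (hneg : 0 < z → dx < 0) (hpos : z < 0 → dxm < 0)
    (hD : cD * z ^ 2 / r ^ 3 - KD * |z| * Real.exp (-(εD * r)) ≤ z * D)
    (hexp : r ^ 3 * Real.exp (-(εD * r)) ≤ Cg / r)
    (hper : uP ≤ KP * (|z| / r ^ 2 + (r ^ 3)⁻¹) * (P * r ^ 3))
    (hKS : |KR| * |KP| / r ^ 2 ≤ cA * cD / (32 * Δ))
    (hKE : ((|KA| * |KD| * Cg + |KR| * |KP|) / r) ^ 2 ≤ cA * cD * (cA * cD / (32 * Δ))) :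
    dx * D + KR / r ^ 2 * uP ≤ P * (-(cA * cD / 2) * z ^ 2 + cA * cD / (16 * Δ)) := by
  have hr0 : 0 < r := by linarith
  set cc := cA * cD with hcc
  set KE := |KA| * |KD| with hKE'
  set KS := |KR| * |KP| with hKS'
  set T := (KE * Cg + KS) / r with hT
  have hcc0 : 0 < cc := mul_pos hcA hcD
  have h1 : dx * D ≤
      P * r ^ 3 * (-(cA * (cD / r ^ 3)) * z ^ 2 + |KA| * |KD| * |z| * Real.exp (-(εD * r))) := by
    refine dipole_sign (z := z) (dxm := dxm) (by positivity) (abs_nonneg KD) (Real.exp_pos _).le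
      hlo (hhi.trans (mul_le_mul_of_nonneg_right (mul_le_mul_of_nonneg_right (le_abs_self KA)
        (abs_nonneg _)) (by positivity))) hodd hneg hpos ?_
    refine le_trans ?_ hD
    rw [show cD / r ^ 3 * z ^ 2 = cD * z ^ 2 / r ^ 3 by ring]
    exact sub_le_sub_left (mul_le_mul_of_nonneg_right (mul_le_mul_of_nonneg_right
      (le_abs_self KD) (abs_nonneg _)) (Real.exp_pos _).le) _
  have h2 : KR / r ^ 2 * uP ≤ P * (KS * (|z| / r + 1 / r ^ 2)) :=
    calc KR / r ^ 2 * uP ≤ |KR| / r ^ 2 * uP :=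
          mul_le_mul_of_nonneg_right (div_le_div_of_nonneg_right (le_abs_self KR) (by positivity))
            huP
      _ ≤ |KR| / r ^ 2 * (|KP| * (|z| / r ^ 2 + (r ^ 3)⁻¹) * (P * r ^ 3)) := by
          refine mul_le_mul_of_nonneg_left (hper.trans ?_) (by positivity)
          exact mul_le_mul_of_nonneg_right (mul_le_mul_of_nonneg_right (le_abs_self KP)
            (by positivity)) (by positivity)
      _ = P * (KS * (|z| / r + 1 / r ^ 2)) := by rw [hKS']; field_simp
  refine (add_le_add h1 h2).trans ?_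
  rw [mul_assoc, ← mul_add]
  refine mul_le_mul_of_nonneg_left ?_ hP.le
  have e : r ^ 3 * (-(cA * (cD / r ^ 3)) * z ^ 2 + |KA| * |KD| * |z| * Real.exp (-(εD * r))) =
      -cc * z ^ 2 + KE * |z| * (r ^ 3 * Real.exp (-(εD * r))) := by
    rw [hcc, hKE']; field_simp
  rw [e]
  have k1 := mul_le_mul_of_nonneg_left hexp (by positivity : 0 ≤ KE * |z|)
  have k2 : |z| * T ≤ cc / 2 * z ^ 2 + cc / (32 * Δ) := by
    have hz2 : |z| ^ 2 = z ^ 2 := sq_abs z
    have hs := sq_nonneg (cc * |z| - T)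
    have he : (cc * |z| - T) ^ 2 = cc * cc * z ^ 2 - 2 * (cc * (|z| * T)) + T ^ 2 := by
      rw [← hz2]; ring
    have h0 : 0 ≤ cc * (cc / (32 * Δ)) := by positivity
    have hh : cc * (|z| * T) ≤ cc * (cc / 2 * z ^ 2 + cc / (32 * Δ)) := by
      linarith
    exact le_of_mul_le_mul_left hh hcc0
  have k3 : KE * |z| * (Cg / r) + KS * (|z| / r + 1 / r ^ 2) = |z| * T + KS / r ^ 2 := by
    rw [hT]; ring
  have k4 : cc / (16 * Δ) = cc / (32 * Δ) + cc / (32 * Δ) := by field_simp; ring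
  linarith

/-- A radius beyond which the errors are absorbed. -/
theorem plane_radius {Δ cc : ℝ} (hΔ : 0 < Δ) (hcc : 0 < cc) (ρ K₁ K₂ KS KE : ℝ) :
    ∃ R : ℝ, 1 ≤ R ∧ ∀ r, R ≤ r → ρ ≤ r ∧ K₁ / r ≤ Δ ∧ K₂ / r ≤ 1 / 2 ∧
      KS / r ^ 2 ≤ cc / (32 * Δ) ∧ (KE / r) ^ 2 ≤ cc * (cc / (32 * Δ)) ∧ 4 / r ≤ Δ / 2 := by
  have ha : ∀ K c : ℝ, 0 < c → ∀ᶠ r in atTop, K / r ≤ c := fun K c hc => by
    have h := (tendsto_id (α := ℝ)).const_div_atTop K
    exact h.eventually (eventually_le_nhds hc)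
  have hb : ∀ᶠ r in atTop, KS / r ^ 2 ≤ cc / (32 * Δ) := by
    have h := (tendsto_pow_atTop (α := ℝ) two_ne_zero).const_div_atTop KS
    exact h.eventually (eventually_le_nhds (by positivity))
  have hc : ∀ᶠ r in atTop, (KE / r) ^ 2 ≤ cc * (cc / (32 * Δ)) := by
    have h := ((tendsto_id (α := ℝ)).const_div_atTop KE).pow 2
    rw [zero_pow two_ne_zero] at h
    exact h.eventually (eventually_le_nhds (by positivity))
  obtain ⟨R, hR⟩ := eventually_atTop.1 ((eventually_ge_atTop ρ).and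
    ((ha K₁ Δ hΔ).and ((ha K₂ (1 / 2) (by norm_num)).and
      (hb.and (hc.and (ha 4 (Δ / 2) (by positivity)))))))
  exact ⟨max R 1, le_max_right _ _, fun r hr => hR r ((le_max_left _ _).trans hr)⟩

/-- Comparison of a function with the barrier, outside a ball. -/
theorem lower_of_barrier {R₀ a Δ β γ η ε K : ℝ} {m w h : Space → ℝ} (hR : 1 ≤ R₀) (ha : 0 < a)
    (hΔ : 0 < Δ) (hη : 0 < η) (hε : 0 < ε) (hmc : ContinuousOn m (Ext R₀))
    (hm : ∀ x ∈ Ext R₀, a ^ 2 / 2 + Δ / 2 ≤ m x) (hwl : LocallyIntegrable w)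
    (hw : WeakPoisson Set.univ w h)
    (hineq : ∀ᵐ x : Space, x ∈ Ext R₀ → 2 * (m x * (ε * planeBar β a η x - w x)) ≤
      lap (fun y => ε * planeBar β a η y) x - h x)
    (hbd : ∀ᵐ x : Space, x ∈ Ext R₀ → |w x| ≤ K * powExp γ a ‖x‖) :
    ∃ R c : ℝ, 1 ≤ R ∧ 0 < c ∧
      ∀ᵐ x : Space, R ≤ ‖x‖ → c * powExp β a ‖x‖ ≤ |w x| := by
  set U := Ext R₀
  have hU := isOpen_ext R₀
  have hfar : ∀ x ∈ U, R₀ ≤ ‖x‖ ∧ 1 ≤ ‖x‖ ∧ x ≠ 0 := fun x hx => by
    have h : R₀ < ‖x‖ := hx
    exact ⟨h.le, by linarith, norm_pos_iff.1 (by linarith)⟩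
  set κ := √(a ^ 2 + Δ) with hκ
  have hκa : a < κ := by
    calc a = √(a ^ 2) := (Real.sqrt_sq ha.le).symm
      _ < κ := Real.sqrt_lt_sqrt (sq_nonneg _) (by linarith)
  have hκ2 : κ ^ 2 = a ^ 2 + Δ := Real.sq_sqrt (by positivity)
  have hκ0 : 0 < κ := ha.trans hκa
  set W : Space → ℝ := fun x => ε * planeBar β a η x with hW
  set v : Space → ℝ := fun x => W x - w x with hv
  set S : Space → ℝ := fun _ => 0
  have hWc : ContDiffOn ℝ 2 W U :=
    contDiffOn_const.mul ((contDiffOn_planeBar β a η).mono fun x hx => (hfar x hx).2.2)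
  have hweak : WeakSubPoisson U v fun x => 2 * (m x * v x - S x) := by
    have hsum := ((WeakPoisson.of_contDiffOn hU hWc).sub (hw.mono (Set.subset_univ U))).toSub
    refine hsum.weaken ?_ ?_ hU
    · have hloc : LocallyIntegrableOn v U :=
        (hWc.continuousOn.locallyIntegrableOn hU.measurableSet).sub
          (hwl.locallyIntegrableOn _)
      refine (LocallyIntegrableOn.continuousOn_mul hloc
        ((continuousOn_const (c := (2 : ℝ))).mul hmc)
        hU.isLocallyClosed).congr ?_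
      refine Eventually.of_forall fun x => ?_
      show (2 * m x) * v x = 2 * (m x * v x - 0)
      ring
    · rw [EventuallyLE, ae_restrict_iff' hU.measurableSet]
      filter_upwards [hineq] with x hx hxU
      have := hx hxU
      simp only [S, sub_zero]
      exact this
  have hWle : ∀ x ∈ U, W x ≤ ε * (1 + η) * powExp (β + 2) a ‖x‖ := fun x hx => by
    obtain ⟨-, hx1, -⟩ := hfar x hx
    have hz : height x ^ 2 ≤ ‖x‖ ^ 2 := by
      rw [← sq_abs]
      exact pow_le_pow_left₀ (abs_nonneg _) (PiLp.norm_apply_le x 2) 2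
    have e : powExp (β + 2) a ‖x‖ = ‖x‖ ^ 2 * powExp β a ‖x‖ := by
      rw [powExp_eq_mul (β + 2) β a (by linarith), add_sub_cancel_left, Real.rpow_two]
    have hb : height x ^ 2 + η ≤ (1 + η) * ‖x‖ ^ 2 := by
      nlinarith [one_le_pow₀ hx1 (n := 2)]
    have hp := mul_le_mul_of_nonneg_left hb
      (mul_nonneg hε.le (powExp_pos β a (by linarith : 0 < ‖x‖)).le)
    simp only [hW, planeBar, e]
    linarith
  set bnd : ℝ → ℝ := fun r => ε * (1 + η) * powExp (β + 2) a r + K * powExp γ a r with hbnd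
  have hbndc : ContinuousOn bnd (Set.Ioi 0) :=
    ((contDiffOn_powExp (n := 0) (β + 2) a).continuousOn.const_smul (ε * (1 + η))).add
      ((contDiffOn_powExp (n := 0) γ a).continuousOn.const_smul K)
  obtain ⟨M, hM0, hM1⟩ : ∃ M, 0 ≤ M ∧ ∀ r ∈ Set.Icc R₀ (R₀ + 1), bnd r ≤ M * powExp 0 κ r := by
    have hsub : Set.Icc R₀ (R₀ + 1) ⊆ Set.Ioi 0 := fun r hr => by
      show (0 : ℝ) < r
      linarith [hr.1]
    obtain ⟨B, hB⟩ := isCompact_Icc.exists_bound_of_continuousOn
      ((hbndc.mono hsub).mul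
        (Real.continuous_exp.comp (continuous_const.mul continuous_id)).continuousOn
        : ContinuousOn (fun r => bnd r * Real.exp (κ * r)) (Set.Icc R₀ (R₀ + 1)))
    refine ⟨|B|, abs_nonneg _, fun r hr => ?_⟩
    have h := (le_abs_self _).trans ((hB r hr).trans (le_abs_self B))
    rw [powExp_zero, Real.exp_neg, ← div_eq_mul_inv, le_div_iff₀ (Real.exp_pos _)]
    exact h
  set B : Space → ℝ := fun x => M * powExp 0 κ ‖x‖ with hB
  have hBc : ContDiffOn ℝ 2 B U :=
    contDiffOn_const.mul ((contDiffOn_powExp_norm 0 κ).mono fun x hx => (hfar x hx).2.2)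
  have hsup : ∀ᵐ x : Space, x ∈ U → lap B x ≤ 2 * (m x * B x - S x) := by
    refine Eventually.of_forall fun x hx => ?_
    obtain ⟨-, hx1, hx0⟩ := hfar x hx
    have hU0 : IsOpen {y : Space | y ≠ 0} := isOpen_ne
    rw [show lap B x = M * _ from lap_const_mul M hU0 (contDiffOn_powExp_norm 0 κ) hx0,
      lap_powExp 0 κ hx0]
    simp only [S, sub_zero, hB, zero_add, mul_one, zero_div, add_zero]
    have hk : κ ^ 2 - 2 * κ / ‖x‖ ≤ 2 * m x := by
      have : 0 ≤ 2 * κ / ‖x‖ := by positivity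
      linarith [hm x hx]
    nlinarith [mul_le_mul_of_nonneg_left hk
      (mul_nonneg hM0 (powExp_pos 0 κ (by linarith : 0 < ‖x‖)).le)]
  have hvb : ∀ᵐ x : Space, x ∈ U →
      v x ≤ bnd ‖x‖ ∧ |v x| ≤ |W x| + K * powExp γ a ‖x‖ := by
    filter_upwards [hbd] with x hx hxU
    have h1 := hx hxU
    refine ⟨?_, (abs_sub _ _).trans (add_le_add le_rfl h1)⟩
    simp only [hv, hbnd]
    linarith [hWle x hxU, neg_abs_le (w x)]
  have hcmp := compare_ext hweak hmc (fun x hx => by nlinarith [hm x hx]) hBc hsup ?_ ?_ ?_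
  · have ht : ∀ᶠ r in atTop, M * powExp 0 κ r ≤ ε * η / 2 * powExp β a r := by
      have h : Tendsto (fun r => M * powExp (-β) (κ - a) r) atTop (𝓝 0) := by
        simpa using (powExp_tendsto_zero (-β) (by linarith : 0 < κ - a)).const_mul M
      filter_upwards [h.eventually (eventually_le_nhds (by positivity : (0 : ℝ) < ε * η / 2)),
        eventually_gt_atTop (0 : ℝ)] with r hr hr0
      calc M * powExp 0 κ r = M * (powExp (-β) (κ - a) r * powExp β a r) := by
            rw [powExp_mul _ _ _ _ hr0, neg_add_cancel, sub_add_cancel]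
        _ = M * powExp (-β) (κ - a) r * powExp β a r := by ring
        _ ≤ _ := mul_le_mul_of_nonneg_right hr (powExp_pos β a hr0).le
    obtain ⟨R₅, hR₅⟩ := eventually_atTop.1 ht
    refine ⟨max R₅ (R₀ + 1), ε * η / 2, le_max_of_le_right (by linarith), by positivity, ?_⟩
    filter_upwards [hcmp] with x hx hxR
    have hxU : x ∈ U := by
      show R₀ < ‖x‖
      linarith [(le_max_right R₅ (R₀ + 1)).trans hxR]
    have h1 := hx hxU
    have h2 := hR₅ _ ((le_max_left _ _).trans hxR)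
    have hr0 : 0 < ‖x‖ := by linarith [(hfar x hxU).2.1]
    have h3 : ε * η * powExp β a ‖x‖ ≤ W x := by
      have := mul_le_mul_of_nonneg_left (show η ≤ height x ^ 2 + η by nlinarith)
        (mul_nonneg hε.le (powExp_pos β a hr0).le)
      simp only [hW, planeBar]
      linarith
    simp only [hv, hB] at h1
    linarith [le_abs_self (w x)]
  · intro L hL hLU
    obtain ⟨B₁, hB₁⟩ := hL.exists_bound_of_continuousOn (hWc.continuousOn.mono hLU)
    obtain ⟨B₂, hB₂⟩ := hL.exists_bound_of_continuousOn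
      (f := fun x : Space => K * powExp γ a ‖x‖)
      (continuousOn_const.mul ((contDiffOn_powExp (n := 0) γ a).continuousOn.comp
        continuous_norm.continuousOn fun x hx => norm_pos_iff.2 (hfar x (hLU hx)).2.2))
    refine ⟨B₁ + B₂, ?_⟩
    filter_upwards [hvb] with x hx hxK
    exact (hx (hLU hxK)).2.trans (add_le_add (hB₁ x hxK) ((le_abs_self _).trans (hB₂ x hxK)))
  · refine ⟨R₀ + 1, by linarith, ?_⟩
    filter_upwards [hvb] with x hx hxU hxlt
    exact (hx hxU).1.trans (hM1 _ ⟨(hfar x hxU).1, hxlt.le⟩)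
  · intro δ hδ
    have h : Tendsto bnd atTop (𝓝 0) := by
      simpa using ((powExp_tendsto_zero (β + 2) ha).const_mul (ε * (1 + η))).add
        ((powExp_tendsto_zero γ ha).const_mul K)
    obtain ⟨r₂, hr₂⟩ := eventually_atTop.1 (h.eventually (eventually_le_nhds hδ))
    refine ⟨r₂, ?_⟩
    filter_upwards [hvb] with x hx hxU hxr
    have : 0 ≤ B x := mul_nonneg hM0 (powExp_pos 0 κ (by linarith [(hfar x hxU).2.1])).le
    linarith [(hx hxU).1, hr₂ _ hxr.le]

end Vale.Agent.P363.Inter
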